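import Mathlib

/-! Finite averaging tools for row 155. -/

open Finset BigOperators

namespace Crest.Agent.R155

/-- Merge two configurations along a predicate. -/
def mrg {S β : Type*} (p : S → Prop) [DecidablePred p] (ω ω' : S → β) : S → β :=
  fun s => if p s then ω s else ω' s

lemma expect_mrg {S β M : Type*} [Fintype S] [DecidableEq S] [Fintype β] [Nonempty β]
    [AddCommMonoid M] [Module ℚ≥0 M]
    (p : S → Prop) [DecidablePred p] (f : (S → β) → M) :
    𝔼 ω, f ω = 𝔼 ω, 𝔼 ω', f (mrg p ω ω') := by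
  have h1 : 𝔼 ω, f ω = 𝔼 q : (S → β) × (S → β), f q.1 := by
    rw [← Finset.univ_product_univ, Finset.expect_product]
    simp
  have h2 : 𝔼 ω, 𝔼 ω', f (mrg p ω ω') = 𝔼 q : (S → β) × (S → β), f (mrg p q.1 q.2) := by
    rw [← Finset.univ_product_univ, Finset.expect_product]
  rw [h1, h2]
  let e : (S → β) × (S → β) ≃ (S → β) × (S → β) :=
    { toFun := fun q => (mrg p q.1 q.2, mrg p q.2 q.1)
      invFun := fun q => (mrg p q.1 q.2, mrg p q.2 q.1)
      left_inv := by
        rintro ⟨a, b⟩; ext s <;> simp only [mrg] <;> split_ifs <;> rfl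
      right_inv := by
        rintro ⟨a, b⟩; ext s <;> simp only [mrg] <;> split_ifs <;> rfl }
  exact (Fintype.expect_equiv e _ _ (fun q => rfl)).symm

/-- Restricting a uniform configuration along an injective map gives a uniform configuration. -/
lemma expect_comp_inj {A B β M : Type*} [Fintype A] [DecidableEq A] [Fintype B] [DecidableEq B]
    [Fintype β] [Nonempty β] [AddCommMonoid M] [Module ℚ≥0 M]
    (φ : A → B) (hφ : Function.Injective φ) (f : (A → β) → M) :
    𝔼 ω : B → β, f (fun a => ω (φ a)) = 𝔼 c : A → β, f c := by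
  classical
  -- the equivalence `(B → β) × (A → β) ≃ (B → β) × (A → β)` exchanging the values on the range
  have h1 : 𝔼 ω : B → β, f (fun a => ω (φ a))
      = 𝔼 q : (B → β) × (A → β), f (fun a => q.1 (φ a)) := by
    rw [← Finset.univ_product_univ, Finset.expect_product]
    simp
  have h2 : 𝔼 c : A → β, f c = 𝔼 q : (B → β) × (A → β), f q.2 := by
    rw [← Finset.univ_product_univ, Finset.expect_product]
    simp
  rw [h1, h2]
  let g : (B → β) × (A → β) → (B → β) × (A → β) :=
    fun q => (Function.extend φ q.2 q.1, fun a => q.1 (φ a))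
  have hg : Function.Involutive g := by
    rintro ⟨ω, c⟩
    simp only [g]
    ext s
    · by_cases hs : ∃ a, φ a = s
      · obtain ⟨a, rfl⟩ := hs
        simp [hφ.extend_apply]
      · simp [Function.extend_apply' _ _ _ hs]
    · simp [hφ.extend_apply]
  exact Fintype.expect_equiv hg.toPerm _ _ (fun q => rfl)

/-- Kraft-type inequality for pairwise disjoint subcubes. -/
lemma kraft {S : Type*} [Fintype S] [DecidableEq S] (E : Finset (S → Bool))
    (F : (S → Bool) → Finset S)
    (h : ∀ ω₁ ∈ E, ∀ ω₂ ∈ E, ∀ ω' : S → Bool, (∀ s, s ∉ F ω₁ → ω' s = ω₁ s) →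
      (∀ s, s ∉ F ω₂ → ω' s = ω₂ s) → ω₁ = ω₂) :
    ∑ ω ∈ E, 2 ^ (F ω).card ≤ Fintype.card (S → Bool) := by
  classical
  let C : (S → Bool) → Finset (S → Bool) :=
    fun ω => univ.filter (fun ω' => ∀ s, s ∉ F ω → ω' s = ω s)
  have hC : ∀ ω, 2 ^ (F ω).card ≤ (C ω).card := by
    intro ω
    rw [← Finset.card_powerset]
    refine Finset.card_le_card_of_injOn (fun t s => if s ∈ t then !ω s else ω s) ?_ ?_
    · intro t ht
      simp only [C, coe_filter, mem_univ, true_and, Set.mem_ofPred_eq]
      intro s hs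
      have : s ∉ t := fun h' => hs (mem_powerset.1 (by simpa using ht) h')
      simp [this]
    · intro t _ t' _ htt
      ext s
      have := congrFun htt s
      by_cases h1 : s ∈ t <;> by_cases h2 : s ∈ t' <;> simp_all
  have hdisj : (E : Set (S → Bool)).PairwiseDisjoint C := by
    intro ω₁ h₁ ω₂ h₂ hne
    rw [Function.onFun, Finset.disjoint_left]
    intro ω' hω₁ hω₂
    simp only [C, mem_filter, mem_univ, true_and] at hω₁ hω₂
    exact hne (h ω₁ h₁ ω₂ h₂ ω' hω₁ hω₂)
  calc ∑ ω ∈ E, 2 ^ (F ω).card ≤ ∑ ω ∈ E, (C ω).card := Finset.sum_le_sum fun ω _ => hC ω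
    _ = (E.biUnion C).card := (Finset.card_biUnion hdisj).symm
    _ ≤ Fintype.card (S → Bool) := Finset.card_le_univ _

lemma kraft_expect {S : Type*} [Fintype S] [DecidableEq S] (E : (S → Bool) → Prop)
    [DecidablePred E] (F : (S → Bool) → Finset S)
    (h : ∀ ω₁, E ω₁ → ∀ ω₂, E ω₂ → ∀ ω' : S → Bool, (∀ s, s ∉ F ω₁ → ω' s = ω₁ s) →
      (∀ s, s ∉ F ω₂ → ω' s = ω₂ s) → ω₁ = ω₂) :
    𝔼 ω, (if E ω then (2 : ℝ) ^ (F ω).card else 0) ≤ 1 := by
  have hk := kraft (univ.filter E) F (fun ω₁ h₁ ω₂ h₂ =>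
    h ω₁ (by simpa using h₁) ω₂ (by simpa using h₂))
  rw [Fintype.expect_eq_sum_div_card, div_le_one (by positivity), ← Finset.sum_filter]
  exact_mod_cast hk

lemma geom_le_arith_sub {ι : Type*} (s : Finset ι) (w z : ι → ℝ) (hw : ∀ i ∈ s, 0 ≤ w i)
    (hw' : ∑ i ∈ s, w i ≤ 1) (hz : ∀ i ∈ s, 0 ≤ z i) :
    ∏ i ∈ s, z i ^ w i ≤ ∑ i ∈ s, w i * z i + (1 - ∑ i ∈ s, w i) := by
  classical
  have := Real.geom_mean_le_arith_mean_weighted (insertNone s)
    (fun o => o.elim (1 - ∑ i ∈ s, w i) w) (fun o => o.elim 1 z) ?_ ?_ ?_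
  · simpa [Finset.prod_insertNone, Finset.sum_insertNone, add_comm] using this
  · rintro (_ | i) hi
    · simpa using hw'
    · exact hw i (by simpa using hi)
  · simp [Finset.sum_insertNone]
  · rintro (_ | i) hi
    · simp
    · exact hz i (by simpa using hi)

/-- Hoelder inequality along a filtration with windows `[l/2, l)`. -/
lemma window_holder {S : Type*} [Fintype S] [DecidableEq S] (lv : S → ℕ) (L : Finset ℕ)
    (Z : ℕ → (S → Bool) → ℝ) (hZ : ∀ l ω, 0 < Z l ω) (hL : ∀ l ∈ L, 1 ≤ l)
    (hdep : ∀ l ∈ L, ∀ ω ω', (∀ s, lv s < l → ω s = ω' s) → Z l ω = Z l ω')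
    (hcond : ∀ l ∈ L, ∀ ω, 𝔼 ω', Z l (mrg (fun s => lv s < l / 2) ω ω') ≤ 1) :
    𝔼 ω, ∏ l ∈ L, Z l ω ^ ((l : ℝ)⁻¹) ≤ 1 := by
  classical
  let M : ℕ → ℕ → (S → Bool) → ℝ := fun l a ω => 𝔼 ω', Z l (mrg (fun s => lv s < a) ω ω')
  have hMpos : ∀ l a ω, 0 < M l a ω := fun l a ω =>
    Finset.expect_pos (fun _ _ => hZ _ _) univ_nonempty
  have hMZ : ∀ l ∈ L, ∀ a, l ≤ a → ∀ ω, M l a ω = Z l ω := by
    intro l hl a hla ω
    simp only [M]
    rw [Finset.expect_congr rfl (g := fun _ => Z l ω), Finset.expect_const univ_nonempty]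
    intro ω' _
    apply hdep l hl
    intro s hs
    simp [mrg, lt_of_lt_of_le hs hla]
  have htower : ∀ l a ω, 𝔼 ω', M l (a + 1) (mrg (fun s => lv s < a) ω ω') = M l a ω := by
    intro l a ω
    simp only [M]
    rw [expect_mrg (fun s => lv s < a + 1) (fun ω' => Z l (mrg (fun s => lv s < a) ω ω'))]
    refine Finset.expect_congr rfl fun ω' _ => Finset.expect_congr rfl fun ω'' _ => ?_
    congr 1
    ext s
    simp only [mrg]
    by_cases h1 : lv s < a
    · simp [h1, Nat.lt_succ_of_lt h1]
    · simp [h1]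
  let F : ℕ → (S → Bool) → ℝ :=
    fun a ω => ∏ l ∈ L.filter (fun l => l / 2 < a), M l a ω ^ ((l : ℝ)⁻¹)
  have hstep : ∀ a, 𝔼 ω, F (a + 1) ω ≤ 𝔼 ω, F a ω := by
    intro a
    rw [expect_mrg (fun s => lv s < a) (F (a + 1))]
    refine Finset.expect_le_expect fun ω _ => ?_
    -- reference values
    let m : ℕ → ℝ := fun l => if l / 2 < a then M l a ω else 1
    have hm : ∀ l, 0 < m l := fun l => by
      simp only [m]; split_ifs
      · exact hMpos _ _ _
      · exact one_pos
    let act : Finset ℕ := L.filter (fun l => l / 2 < a + 1 ∧ a < l)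
    have hFa : F a ω = ∏ l ∈ L.filter (fun l => l / 2 < a + 1), m l ^ ((l : ℝ)⁻¹) := by
      simp only [F, Finset.prod_filter, m]
      refine Finset.prod_congr rfl fun l _ => ?_
      by_cases h1 : l / 2 < a
      · simp [h1, Nat.lt_succ_of_lt h1]
      · simp [h1]
    have hw : ∑ l ∈ act, ((l : ℝ)⁻¹) ≤ 1 := by
      have hsub : act ⊆ Finset.Icc (a + 1) (2 * a + 1) := by
        intro l hl
        simp only [act, mem_filter] at hl
        simp only [mem_Icc]; omega
      calc ∑ l ∈ act, ((l : ℝ)⁻¹) ≤ ∑ l ∈ Finset.Icc (a + 1) (2 * a + 1), ((l : ℝ)⁻¹) :=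
            Finset.sum_le_sum_of_subset_of_nonneg hsub (fun _ _ _ => by positivity)
        _ ≤ ∑ l ∈ Finset.Icc (a + 1) (2 * a + 1), (((a + 1 : ℕ) : ℝ)⁻¹) := by
            refine Finset.sum_le_sum fun l hl => ?_
            rw [mem_Icc] at hl
            exact inv_anti₀ (by positivity) (by exact_mod_cast hl.1)
        _ = 1 := by
            rw [Finset.sum_const, Nat.card_Icc, nsmul_eq_mul]
            have : 2 * a + 1 + 1 - (a + 1) = a + 1 := by omega
            rw [this]
            exact mul_inv_cancel₀ (by positivity)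
    have hpt : ∀ ω', F (a + 1) (mrg (fun s => lv s < a) ω ω') ≤ F a ω *
        (∑ l ∈ act, (l : ℝ)⁻¹ * (M l (a + 1) (mrg (fun s => lv s < a) ω ω') / m l)
          + (1 - ∑ l ∈ act, (l : ℝ)⁻¹)) := by
      intro ω'
      have h1 : F (a + 1) (mrg (fun s => lv s < a) ω ω') = F a ω *
          ∏ l ∈ act, (M l (a + 1) (mrg (fun s => lv s < a) ω ω') / m l) ^ ((l : ℝ)⁻¹) := by
        rw [hFa]
        simp only [F, act, Finset.prod_filter]
        rw [← Finset.prod_mul_distrib]
        refine Finset.prod_congr rfl fun l hl => ?_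
        by_cases h1 : l / 2 < a + 1
        · by_cases h2 : a < l
          · simp only [h1, h2, and_self, if_true]
            rw [← Real.mul_rpow (hm l).le (div_nonneg (hMpos _ _ _).le (hm l).le),
              mul_div_cancel₀ _ (hm l).ne']
          · simp only [h1, h2, and_false, if_true, if_false, mul_one]
            have h3 : l / 2 < a := by have := hL l hl; omega
            have hla : l ≤ a := not_lt.1 h2
            simp only [m, h3, if_true]
            rw [hMZ l hl _ (by omega), hMZ l hl _ hla]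
            congr 1
            apply hdep l hl
            intro s hs
            simp [mrg, lt_of_lt_of_le hs hla]
        · simp [h1]
      rw [h1]
      refine mul_le_mul_of_nonneg_left ?_ ?_
      · exact geom_le_arith_sub act _ _ (fun _ _ => by positivity) hw
          (fun l _ => div_nonneg (hMpos _ _ _).le (hm l).le)
      · exact Finset.prod_nonneg fun l _ => Real.rpow_nonneg (hMpos _ _ _).le _
    refine (Finset.expect_le_expect fun ω' _ => hpt ω').trans ?_
    rw [← Finset.mul_expect]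
    have hF0 : 0 ≤ F a ω := Finset.prod_nonneg fun l _ => Real.rpow_nonneg (hMpos _ _ _).le _
    refine mul_le_of_le_one_right hF0 ?_
    rw [Finset.expect_add_distrib, Finset.expect_const univ_nonempty, Finset.expect_sum_comm]
    have : ∑ l ∈ act, 𝔼 ω', (l : ℝ)⁻¹ * (M l (a + 1) (mrg (fun s => lv s < a) ω ω') / m l)
        ≤ ∑ l ∈ act, (l : ℝ)⁻¹ := by
      refine Finset.sum_le_sum fun l hl => ?_
      rw [← Finset.mul_expect, ← Finset.expect_div, htower]
      refine mul_le_of_le_one_right (by positivity) ?_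
      rw [div_le_one (hm l)]
      simp only [m]
      split_ifs with h3
      · exact le_rfl
      · simp only [act, mem_filter] at hl
        have h4 : l / 2 = a := by omega
        have := hcond l hl.1 ω
        rw [h4] at this
        exact this
    linarith
  have hall : ∀ a, 𝔼 ω, F a ω ≤ 1 := by
    intro a
    induction a with
    | zero => simp [F]
    | succ a ih => exact (hstep a).trans ih
  have hfin := hall (L.sup id + 1)
  refine le_of_eq_of_le ?_ hfin
  refine Finset.expect_congr rfl fun ω _ => ?_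
  simp only [F]
  rw [Finset.filter_true_of_mem]
  · refine Finset.prod_congr rfl fun l hl => ?_
    have : l ≤ L.sup id := Finset.le_sup (f := id) hl
    rw [hMZ l hl _ (by omega)]
  · intro l hl
    have : l ≤ L.sup id := Finset.le_sup (f := id) hl
    omega

end Crest.Agent.R155
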