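import Mathlib

open Finset BigOperators Matrix
open scoped InnerProductSpace

namespace Crest.Agent.R155

def chi (b : Bool) : ℝ := if b then -1 else 1

namespace Block

set_option linter.unusedSectionVars false

lemma chi_mul_self (b : Bool) : chi b * chi b = 1 := by cases b <;> simp [chi]

lemma chi_xor (b c : Bool) : chi (xor b c) = chi b * chi c := by
  cases b <;> cases c <;> simp [chi]

lemma abs_chi (b : Bool) : |chi b| = 1 := by cases b <;> simp [chi]

variable {κ : Type*} [Fintype κ] [DecidableEq κ]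

/-- monomial -/
def M (n : κ → ℕ) (η : κ → Bool) : ℝ := ∏ k, chi (η k) ^ n k

/-- sum of the signs -/
def S (η : κ → Bool) : ℝ := ∑ k, chi (η k)

/-- mixed moments -/
def T (n : κ → ℕ) (a : ℕ) : ℝ := ∑ η : κ → Bool, M n η * S η ^ a

lemma M_zero (η : κ → Bool) : M 0 η = 1 := by simp [M]

lemma M_add_single (n : κ → ℕ) (f : κ) (η : κ → Bool) :
    M (n + Pi.single f 1) η = M n η * chi (η f) := by
  simp only [M, Pi.add_apply, pow_add, Finset.prod_mul_distrib]
  congr 1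
  rw [Finset.prod_eq_single f]
  · simp
  · intro b _ hb; simp [Pi.single_eq_of_ne hb]
  · simp

lemma T_succ (n : κ → ℕ) (a : ℕ) : T n (a + 1) = ∑ f, T (n + Pi.single f 1) a := by
  simp only [T, M_add_single]
  rw [Finset.sum_comm]
  refine Finset.sum_congr rfl fun η _ => ?_
  rw [pow_succ, ← Finset.sum_mul, ← Finset.mul_sum]
  simp only [S]; ring

lemma T_zero (n : κ → ℕ) : T n 0 = ∏ k, (1 + (-1 : ℝ) ^ n k) := by
  have h := Finset.prod_univ_sum (fun _ : κ => (Finset.univ : Finset Bool))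
    (fun k b => chi b ^ n k)
  simp only [Fintype.piFinset_univ] at h
  simp only [T, pow_zero, mul_one, M]
  rw [← h]
  refine Finset.prod_congr rfl fun k _ => ?_
  simp [chi, add_comm]

lemma T_nonneg (n : κ → ℕ) (a : ℕ) : 0 ≤ T n a := by
  induction a generalizing n with
  | zero =>
    rw [T_zero]
    refine Finset.prod_nonneg fun k _ => ?_
    rcases neg_one_pow_eq_or ℝ (n k) with h | h <;> rw [h] <;> norm_num
  | succ a ih => rw [T_succ]; exact Finset.sum_nonneg fun f _ => ih _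

lemma T_odd (n : κ → ℕ) (e : κ) (h : n e = 0) : T (n + Pi.single e 1) 0 = 0 := by
  rw [T_zero]
  exact Finset.prod_eq_zero (Finset.mem_univ e) (by simp [h])

lemma T_twice (n : κ → ℕ) (e : κ) (a : ℕ) :
    T (n + Pi.single e 1 + Pi.single e 1) a = T n a := by
  simp only [T, M_add_single]
  refine Finset.sum_congr rfl fun η _ => ?_
  rw [mul_assoc (M n η), chi_mul_self, mul_one]

lemma T_ibp (a : ℕ) (n : κ → ℕ) (e : κ) (h : n e = 0) :
    T (n + Pi.single e 1) (a + 1) ≤ (a + 1) * T n a := by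
  induction a generalizing n with
  | zero =>
    rw [T_succ, ← Finset.add_sum_erase _ _ (Finset.mem_univ e), T_twice]
    rw [Finset.sum_eq_zero]
    · simp
    · intro f hf
      have hfe : f ≠ e := (Finset.mem_erase.1 hf).1
      rw [add_right_comm]
      exact T_odd _ _ (by simp [h, Pi.single_eq_of_ne hfe.symm])
  | succ a ih =>
    rw [T_succ, ← Finset.add_sum_erase _ _ (Finset.mem_univ e), T_twice]
    have h1 : ∑ f ∈ Finset.univ.erase e, T (n + Pi.single e 1 + Pi.single f 1) (a + 1) ≤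
        ∑ f ∈ Finset.univ.erase e, (a + 1) * T (n + Pi.single f 1) a := by
      refine Finset.sum_le_sum fun f hf => ?_
      have hfe : f ≠ e := (Finset.mem_erase.1 hf).1
      rw [add_right_comm]
      exact ih _ (by simp [h, Pi.single_eq_of_ne hfe.symm])
    have h2 : ∑ f ∈ Finset.univ.erase e, ((a : ℝ) + 1) * T (n + Pi.single f 1) a ≤
        ∑ f, ((a : ℝ) + 1) * T (n + Pi.single f 1) a :=
      Finset.sum_le_sum_of_subset_of_nonneg (Finset.erase_subset _ _)
        fun f _ _ => mul_nonneg (by positivity) (T_nonneg _ _)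
    rw [← Finset.mul_sum Finset.univ, ← T_succ] at h2
    push_cast
    nlinarith

/-- odd double factorial `(2r-1)!!`. -/
def odf : ℕ → ℝ
  | 0 => 1
  | r + 1 => (2 * r + 1) * odf r

lemma odf_nonneg (r : ℕ) : 0 ≤ odf r := by
  induction r with
  | zero => simp [odf]
  | succ r ih => simp only [odf]; positivity

lemma T_even (r : ℕ) :
    T (0 : κ → ℕ) (2 * r) ≤ odf r * (Fintype.card κ : ℝ) ^ r * 2 ^ Fintype.card κ := by
  induction r with
  | zero => simp [T, M_zero, odf]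
  | succ r ih =>
    have h : 2 * (r + 1) = (2 * r + 1) + 1 := by ring
    rw [h, T_succ]
    calc ∑ f : κ, T (0 + Pi.single f 1) (2 * r + 1)
        ≤ ∑ _f : κ, ((2 * r : ℕ) + 1 : ℝ) * T (0 : κ → ℕ) (2 * r) :=
          Finset.sum_le_sum fun f _ => T_ibp _ _ _ rfl
      _ = (Fintype.card κ : ℝ) * ((2 * r + 1) * T (0 : κ → ℕ) (2 * r)) := by simp
      _ ≤ (Fintype.card κ : ℝ) * ((2 * r + 1) *
            (odf r * (Fintype.card κ : ℝ) ^ r * 2 ^ Fintype.card κ)) := by gcongr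
      _ = _ := by simp only [odf]; ring

lemma T_pair (q : ℕ) (e f : κ) (hef : e ≠ f) :
    T (0 + Pi.single e 1 + Pi.single f 1) (2 * q + 2) ≤
      (2 * q + 2) * odf (q + 1) * (Fintype.card κ : ℝ) ^ q * 2 ^ Fintype.card κ := by
  have h1 := T_ibp (2 * q + 1) (0 + Pi.single e 1) f (by simp [Pi.single_eq_of_ne hef.symm])
  have h2 := T_ibp (2 * q) (0 : κ → ℕ) e rfl
  have h3 := T_even (κ := κ) q
  push_cast at h1 h2
  calc _ ≤ _ := h1
    _ ≤ (2 * q + 1 + 1) * ((2 * q + 1) *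
          (odf q * (Fintype.card κ : ℝ) ^ q * 2 ^ Fintype.card κ)) := by
        gcongr
        refine h2.trans ?_
        gcongr
    _ = _ := by simp only [odf]; ring

lemma num_bound (q : ℕ) :
    (2 : ℝ) ^ (q + 2) * (2 * q + 2) * odf (q + 1) ≤ 4 ^ (q + 1) * ((q + 2).factorial : ℝ) := by
  induction q with
  | zero => simp [odf, Nat.factorial]; norm_num
  | succ q ih =>
    have h0 := odf_nonneg (q + 1)
    have hq : (0 : ℝ) ≤ q := Nat.cast_nonneg q
    have e1 : ((q + 1 + 2).factorial : ℝ) = (q + 3) * ((q + 2).factorial : ℝ) := by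
      rw [show q + 1 + 2 = (q + 2) + 1 by ring, Nat.factorial_succ]; push_cast; ring
    have e2 : odf (q + 1 + 1) = (2 * q + 3) * odf (q + 1) := by
      rw [odf]; push_cast; ring
    rw [e1, e2]
    push_cast
    have h3 : (0 : ℝ) ≤ 2 ^ (q + 2) * odf (q + 1) := by positivity
    calc (2 : ℝ) ^ (q + 1 + 2) * (2 * (q + 1) + 2) * ((2 * q + 3) * odf (q + 1))
        = (2 * (2 * q + 4) * (2 * q + 3)) * (2 ^ (q + 2) * odf (q + 1)) := by ring
      _ ≤ (4 * (q + 3) * (2 * q + 2)) * (2 ^ (q + 2) * odf (q + 1)) := by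
          gcongr ?_ * _
          nlinarith
      _ = 4 * (q + 3) * (2 ^ (q + 2) * (2 * q + 2) * odf (q + 1)) := by ring
      _ ≤ 4 * (q + 3) * (4 ^ (q + 1) * ((q + 2).factorial : ℝ)) := by gcongr
      _ = _ := by ring

variable {E : Type*} [NormedAddCommGroup E] [InnerProductSpace ℝ E]

/-- the signed average operator -/
noncomputable def D (τ : κ × Bool → κ × Bool → E →L[ℝ] E) (η : κ → Bool) : E →L[ℝ] E :=
  (2 * (Fintype.card κ : ℝ))⁻¹ • ∑ x : κ × Bool, ∑ y : κ × Bool,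
    (chi x.2 * chi y.2 * (chi (η x.1) * chi (η y.1))) • τ x y

lemma D_apply (τ : κ × Bool → κ × Bool → E →L[ℝ] E) (η : κ → Bool) (u : E) :
    D τ η u = (2 * (Fintype.card κ : ℝ))⁻¹ • ∑ x : κ × Bool, ∑ y : κ × Bool,
      (chi x.2 * chi y.2 * (chi (η x.1) * chi (η y.1))) • τ x y u := by
  simp [D]

/-- expansion of a signed average inside an inner product -/
lemma expand (n : κ → ℕ) (F : (κ → Bool) → E →L[ℝ] ℝ) (a : κ × Bool → κ × Bool → E) :
    ∑ η : κ → Bool, M n η * F η ((2 * (Fintype.card κ : ℝ))⁻¹ • ∑ x : κ × Bool, ∑ y : κ × Bool,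
      (chi x.2 * chi y.2 * (chi (η x.1) * chi (η y.1))) • a x y) =
    (2 * (Fintype.card κ : ℝ))⁻¹ * ∑ x : κ × Bool, ∑ y : κ × Bool, (chi x.2 * chi y.2) *
      ∑ η : κ → Bool, M (n + Pi.single x.1 1 + Pi.single y.1 1) η * F η (a x y) := by
  simp only [map_smul, map_sum, smul_eq_mul, M_add_single, Finset.mul_sum]
  rw [Finset.sum_comm]
  refine Finset.sum_congr rfl fun x _ => ?_
  rw [Finset.sum_comm]
  refine Finset.sum_congr rfl fun y _ => ?_
  refine Finset.sum_congr rfl fun η _ => ?_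
  ring

lemma sum_T_pairs (n : κ → ℕ) (a : ℕ) :
    ∑ x : κ × Bool, ∑ y : κ × Bool, T (n + Pi.single x.1 1 + Pi.single y.1 1) a =
      4 * T n (a + 2) := by
  simp only [Fintype.sum_prod_type, Finset.sum_const, Finset.card_univ, Fintype.card_bool]
  rw [T_succ]
  simp only [T_succ, Finset.mul_sum, nsmul_eq_mul]
  refine Finset.sum_congr rfl fun x _ => Finset.sum_congr rfl fun y _ => ?_
  push_cast; ring

lemma majorant [Nonempty κ] (τ : κ × Bool → κ × Bool → E →L[ℝ] E)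
    (hτ : ∀ x y u, ‖τ x y u‖ = ‖u‖) (u : E) (q : ℕ) (n : κ → ℕ) (u' : E) :
    |∑ η : κ → Bool, M n η * ⟪u, (D τ η ^ q) u'⟫_ℝ| ≤
      (2 / (Fintype.card κ : ℝ)) ^ q * T n (2 * q) * ((‖u‖ ^ 2 + ‖u'‖ ^ 2) / 2) := by
  have hm : (0 : ℝ) < Fintype.card κ := by exact_mod_cast Fintype.card_pos
  induction q generalizing n u' with
  | zero =>
    have h0 := T_nonneg n 0
    simp only [T, pow_zero, mul_one, mul_zero, one_mul, one_apply_eq_self] at h0 ⊢
    rw [← Finset.sum_mul, abs_mul, abs_of_nonneg h0]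
    gcongr
    have := abs_real_inner_le_norm u u'
    nlinarith [sq_nonneg (‖u‖ - ‖u'‖)]
  | succ q ih =>
    have h1 := expand n (fun η => (innerSL ℝ u).comp (D τ η ^ q)) (fun x y => τ x y u')
    simp only [ContinuousLinearMap.comp_apply, innerSL_apply_apply] at h1
    simp only [pow_succ _ q, mul_apply_eq_comp, D_apply τ _ u']
    rw [h1, abs_mul, abs_of_pos (by positivity)]
    have h2 : |∑ x : κ × Bool, ∑ y : κ × Bool, (chi x.2 * chi y.2) *
        ∑ η : κ → Bool, M (n + Pi.single x.1 1 + Pi.single y.1 1) η *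
          ⟪u, (D τ η ^ q) (τ x y u')⟫_ℝ| ≤
        ∑ x : κ × Bool, ∑ y : κ × Bool, (2 / (Fintype.card κ : ℝ)) ^ q *
          T (n + Pi.single x.1 1 + Pi.single y.1 1) (2 * q) * ((‖u‖ ^ 2 + ‖u'‖ ^ 2) / 2) := by
      refine (Finset.abs_sum_le_sum_abs _ _).trans (Finset.sum_le_sum fun x _ => ?_)
      refine (Finset.abs_sum_le_sum_abs _ _).trans (Finset.sum_le_sum fun y _ => ?_)
      rw [abs_mul, abs_mul, abs_chi, abs_chi, one_mul, one_mul]
      have := ih (n + Pi.single x.1 1 + Pi.single y.1 1) (τ x y u')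
      rwa [hτ] at this
    refine (mul_le_mul_of_nonneg_left h2 (by positivity)).trans (le_of_eq ?_)
    simp only [← Finset.sum_mul, ← Finset.mul_sum]
    rw [sum_T_pairs, show 2 * (q + 1) = 2 * q + 2 by ring]
    field_simp
    ring

lemma D_symm (τ : κ × Bool → κ × Bool → E →L[ℝ] E)
    (hs : ∀ x y u w, ⟪τ x y u, w⟫_ℝ = ⟪u, τ x y w⟫_ℝ) (η : κ → Bool) (u w : E) :
    ⟪D τ η u, w⟫_ℝ = ⟪u, D τ η w⟫_ℝ := by
  simp only [D_apply, inner_smul_left, inner_smul_right, sum_inner, inner_sum, hs, conj_trivial]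

lemma sum_sign (η : κ → Bool) : ∑ x : κ × Bool, chi x.2 * chi (η x.1) = 0 := by
  simp [Fintype.sum_prod_type, chi]

lemma D_apply_sub (τ : κ × Bool → κ × Bool → E →L[ℝ] E) (η : κ → Bool) (v : E) :
    D τ η v = (2 * (Fintype.card κ : ℝ))⁻¹ • ∑ x : κ × Bool, ∑ y : κ × Bool,
      (chi x.2 * chi y.2 * (chi (η x.1) * chi (η y.1))) • (τ x y v - v) := by
  rw [D_apply]
  congr 1
  simp only [smul_sub, Finset.sum_sub_distrib, ← Finset.sum_smul]
  have : ∑ x : κ × Bool, ∑ y : κ × Bool,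
      (chi x.2 * chi y.2 * (chi (η x.1) * chi (η y.1))) = 0 := by
    refine Finset.sum_eq_zero fun x _ => ?_
    have := sum_sign η
    calc _ = (chi x.2 * chi (η x.1)) * ∑ y : κ × Bool, chi y.2 * chi (η y.1) := by
          rw [Finset.mul_sum]; exact Finset.sum_congr rfl fun y _ => by ring
      _ = 0 := by rw [this, mul_zero]
  rw [this, zero_smul, sub_zero]

lemma moment_one (τ : κ × Bool → κ × Bool → E →L[ℝ] E) (v : E)
    (ha : ∀ x y, x.1 = y.1 → τ x y v = v) :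
    ∑ η : κ → Bool, ⟪v, D τ η v⟫_ℝ = 0 := by
  have h1 := expand 0 (fun _ => innerSL ℝ v) (fun x y => τ x y v - v)
  simp only [innerSL_apply_apply, M_zero, one_mul, ← D_apply_sub] at h1
  rw [h1]
  refine mul_eq_zero_of_right _ (Finset.sum_eq_zero fun x _ => Finset.sum_eq_zero fun y _ => ?_)
  refine mul_eq_zero_of_right _ ?_
  by_cases h : x.1 = y.1
  · simp [ha x y h]
  · rw [← Finset.sum_mul]
    have := T_odd (0 + Pi.single x.1 1) y.1 (by simp [Pi.single_eq_of_ne (Ne.symm h)])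
    simp only [T, pow_zero, mul_one] at this
    rw [this, zero_mul]

lemma moment_two [Nonempty κ] (τ : κ × Bool → κ × Bool → E →L[ℝ] E)
    (hτ : ∀ x y u, ‖τ x y u‖ = ‖u‖) (hs : ∀ x y u w, ⟪τ x y u, w⟫_ℝ = ⟪u, τ x y w⟫_ℝ) (v : E)
    (ha : ∀ x y, x.1 = y.1 → τ x y v = v) (q : ℕ) :
    ∑ η : κ → Bool, ⟪v, (D τ η ^ (q + 2)) v⟫_ℝ ≤
      2 ^ Fintype.card κ * (4 ^ (q + 1) * ((q + 2).factorial : ℝ)) *
        ((4 * (Fintype.card κ : ℝ) ^ 2)⁻¹ *
          ∑ x : κ × Bool, ∑ y : κ × Bool, ‖τ x y v - v‖ ^ 2) := by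
  have hm : (0 : ℝ) < Fintype.card κ := by exact_mod_cast Fintype.card_pos
  set m : ℝ := (Fintype.card κ : ℝ) with hmdef
  set a : κ × Bool → κ × Bool → E := fun x y => τ x y v - v with hadef
  have h0 : ∀ η, ⟪v, (D τ η ^ (q + 2)) v⟫_ℝ = ⟪D τ η v, (D τ η ^ q) (D τ η v)⟫_ℝ := by
    intro η
    rw [D_symm τ hs, pow_succ, pow_succ']
    rfl
  have h1 := expand 0 (fun η => (innerSL ℝ (D τ η v)).comp (D τ η ^ q)) a
  simp only [ContinuousLinearMap.comp_apply, innerSL_apply_apply, M_zero, one_mul, hadef,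
    ← D_apply_sub] at h1
  simp only [h0]
  rw [h1]
  have h2 : ∀ x' y' : κ × Bool,
      |∑ η : κ → Bool, M (0 + Pi.single x'.1 1 + Pi.single y'.1 1) η *
        ⟪D τ η v, (D τ η ^ q) (a x' y')⟫_ℝ| ≤
      (2 * m)⁻¹ * ∑ x : κ × Bool, ∑ y : κ × Bool, (2 / m) ^ q *
        T (0 + Pi.single x'.1 1 + Pi.single y'.1 1 + Pi.single x.1 1 + Pi.single y.1 1) (2 * q) *
          ((‖a x y‖ ^ 2 + ‖a x' y'‖ ^ 2) / 2) := by
    intro x' y'
    have h3 := expand (0 + Pi.single x'.1 1 + Pi.single y'.1 1)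
      (fun η => innerSL ℝ ((D τ η ^ q) (a x' y'))) a
    have hDv : ∀ η, D τ η v = (2 * (Fintype.card κ : ℝ))⁻¹ • ∑ x : κ × Bool, ∑ y : κ × Bool,
      (chi x.2 * chi y.2 * (chi (η x.1) * chi (η y.1))) • a x y := fun η => D_apply_sub τ η v
    simp only [innerSL_apply_apply, ← hDv] at h3
    have hc : ∀ (η : κ → Bool) (w : E), ⟪(D τ η ^ q) (a x' y'), w⟫_ℝ =
        ⟪w, (D τ η ^ q) (a x' y')⟫_ℝ := fun η w => real_inner_comm _ _
    simp only [hc] at h3
    rw [h3, abs_mul, abs_of_pos (by positivity)]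
    refine mul_le_mul_of_nonneg_left ?_ (by positivity)
    refine (Finset.abs_sum_le_sum_abs _ _).trans (Finset.sum_le_sum fun x _ => ?_)
    refine (Finset.abs_sum_le_sum_abs _ _).trans (Finset.sum_le_sum fun y _ => ?_)
    rw [abs_mul, abs_mul, abs_chi, abs_chi, one_mul, one_mul]
    exact majorant τ hτ (a x y) q
      (0 + Pi.single x'.1 1 + Pi.single y'.1 1 + Pi.single x.1 1 + Pi.single y.1 1) (a x' y')
  -- the key one-sided sum
  have h4 : ∑ x' : κ × Bool, ∑ y' : κ × Bool, ∑ x : κ × Bool, ∑ y : κ × Bool,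
      T (0 + Pi.single x'.1 1 + Pi.single y'.1 1 + Pi.single x.1 1 + Pi.single y.1 1) (2 * q) *
        ‖a x' y'‖ ^ 2 ≤
      4 * ((2 * q + 2) * odf (q + 1) * m ^ q * 2 ^ Fintype.card κ) *
        ∑ x : κ × Bool, ∑ y : κ × Bool, ‖a x y‖ ^ 2 := by
    simp only [← Finset.sum_mul, sum_T_pairs]
    simp only [Finset.mul_sum]
    refine Finset.sum_le_sum fun x _ => Finset.sum_le_sum fun y _ => ?_
    by_cases h : x.1 = y.1
    · simp [hadef, ha x y h]
    · have := T_pair q x.1 y.1 h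
      gcongr
  have h5 : ∑ x' : κ × Bool, ∑ y' : κ × Bool, ∑ x : κ × Bool, ∑ y : κ × Bool,
      T (0 + Pi.single x'.1 1 + Pi.single y'.1 1 + Pi.single x.1 1 + Pi.single y.1 1) (2 * q) *
        ‖a x y‖ ^ 2 =
      ∑ x' : κ × Bool, ∑ y' : κ × Bool, ∑ x : κ × Bool, ∑ y : κ × Bool,
      T (0 + Pi.single x'.1 1 + Pi.single y'.1 1 + Pi.single x.1 1 + Pi.single y.1 1) (2 * q) *
        ‖a x' y'‖ ^ 2 := by
    have hsw : ∀ G : κ × Bool → κ × Bool → κ × Bool → κ × Bool → ℝ,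
        ∑ x', ∑ y', ∑ x, ∑ y, G x' y' x y = ∑ x, ∑ y, ∑ x', ∑ y', G x' y' x y := by
      intro G
      calc ∑ x', ∑ y', ∑ x, ∑ y, G x' y' x y
          = ∑ p : (κ × Bool) × (κ × Bool), ∑ p' : (κ × Bool) × (κ × Bool),
              G p.1 p.2 p'.1 p'.2 := by simp only [Fintype.sum_prod_type (α₁ := κ × Bool)]
        _ = ∑ p' : (κ × Bool) × (κ × Bool), ∑ p : (κ × Bool) × (κ × Bool),
              G p.1 p.2 p'.1 p'.2 := Finset.sum_comm
        _ = _ := by simp only [Fintype.sum_prod_type (α₁ := κ × Bool)]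
    rw [hsw]
    refine Finset.sum_congr rfl fun _ _ => Finset.sum_congr rfl fun _ _ =>
            Finset.sum_congr rfl fun _ _ => Finset.sum_congr rfl fun _ _ => ?_
    congr 2
    abel
  have h6 : ∑ x' : κ × Bool, ∑ y' : κ × Bool, (chi x'.2 * chi y'.2) *
      ∑ η : κ → Bool, M (0 + Pi.single x'.1 1 + Pi.single y'.1 1) η *
        ⟪D τ η v, (D τ η ^ q) (τ x' y' v - v)⟫_ℝ ≤
      (2 * m)⁻¹ * (2 / m) ^ q * (4 * ((2 * q + 2) * odf (q + 1) * m ^ q * 2 ^ Fintype.card κ) *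
        ∑ x : κ × Bool, ∑ y : κ × Bool, ‖a x y‖ ^ 2) := by
    calc _ ≤ ∑ x' : κ × Bool, ∑ y' : κ × Bool,
          (2 * m)⁻¹ * ∑ x : κ × Bool, ∑ y : κ × Bool, (2 / m) ^ q *
        T (0 + Pi.single x'.1 1 + Pi.single y'.1 1 + Pi.single x.1 1 + Pi.single y.1 1) (2 * q) *
          ((‖a x y‖ ^ 2 + ‖a x' y'‖ ^ 2) / 2) := by
          refine Finset.sum_le_sum fun x _ => Finset.sum_le_sum fun y _ => ?_
          refine (le_abs_self _).trans ?_
          rw [abs_mul, abs_mul, abs_chi, abs_chi, one_mul, one_mul]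
          exact h2 x y
      _ = (2 * m)⁻¹ * (2 / m) ^ q * ((∑ x' : κ × Bool, ∑ y' : κ × Bool, ∑ x : κ × Bool,
            ∑ y : κ × Bool, T (0 + Pi.single x'.1 1 + Pi.single y'.1 1 + Pi.single x.1 1 +
              Pi.single y.1 1) (2 * q) * ‖a x y‖ ^ 2 +
            ∑ x' : κ × Bool, ∑ y' : κ × Bool, ∑ x : κ × Bool,
            ∑ y : κ × Bool, T (0 + Pi.single x'.1 1 + Pi.single y'.1 1 + Pi.single x.1 1 +
              Pi.single y.1 1) (2 * q) * ‖a x' y'‖ ^ 2) / 2) := by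
          simp only [← Finset.sum_add_distrib, Finset.sum_div, Finset.mul_sum]
          refine Finset.sum_congr rfl fun _ _ => Finset.sum_congr rfl fun _ _ =>
            Finset.sum_congr rfl fun _ _ => Finset.sum_congr rfl fun _ _ => ?_
          ring
      _ ≤ _ := by
          rw [h5]
          refine mul_le_mul_of_nonneg_left ?_ (by positivity)
          linarith
  refine (mul_le_mul_of_nonneg_left h6 (by positivity)).trans ?_
  have hn := num_bound q
  have hA : 0 ≤ ∑ x : κ × Bool, ∑ y : κ × Bool, ‖a x y‖ ^ 2 := by positivity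
  calc _ = 2 ^ Fintype.card κ * ((2 : ℝ) ^ (q + 2) * (2 * q + 2) * odf (q + 1)) *
        ((4 * m ^ 2)⁻¹ * ∑ x : κ × Bool, ∑ y : κ × Bool, ‖a x y‖ ^ 2) := by
        rw [div_pow]; field_simp; ring
    _ ≤ _ := by gcongr

end Block

open Block in
theorem block_exp_bound {α κ E : Type*} [DecidableEq α] [Fintype κ] [DecidableEq κ] [Nonempty κ]
    [NormedAddCommGroup E] [InnerProductSpace ℝ E] [CompleteSpace E]
    (ρ : Equiv.Perm α →* (E →L[ℝ] E)) (hρ : ∀ g u v, ⟪ρ g u, ρ g v⟫_ℝ = ⟪u, v⟫_ℝ)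
    (e : κ × Bool ↪ α) (v : E)
    (hv : ∀ η : κ → Bool, ∃ h : Equiv.Perm α,
      (∀ k b, h (e (k, b)) = e (k, xor b (η k))) ∧ ρ h v = v)
    (hv' : ∀ k, ρ (Equiv.swap (e (k, false)) (e (k, true))) v = v) (c : ℝ) (hc0 : 0 ≤ c)
    (hc : c < 1 / 4) :
    ⟪v, NormedSpace.exp (c • ((2 * (Fintype.card κ : ℝ))⁻¹ • ∑ x : κ × Bool, ∑ y : κ × Bool,
        (chi x.2 * chi y.2) • ρ (Equiv.swap (e x) (e y)))) v⟫_ℝ ≤
      ‖v‖ ^ 2 + 4 * c ^ 2 / (1 - 4 * c) / (Fintype.card κ : ℝ) *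
        ⟪v, ((2 * (Fintype.card κ : ℝ))⁻¹ • ∑ x : κ × Bool, ∑ y : κ × Bool,
          (1 - ρ (Equiv.swap (e x) (e y)))) v⟫_ℝ := by
  have hm : (0 : ℝ) < Fintype.card κ := by exact_mod_cast Fintype.card_pos
  set τ : κ × Bool → κ × Bool → E →L[ℝ] E := fun x y => ρ (Equiv.swap (e x) (e y)) with hτdef
  set D₀ : E →L[ℝ] E := (2 * (Fintype.card κ : ℝ))⁻¹ • ∑ x : κ × Bool, ∑ y : κ × Bool,
        (chi x.2 * chi y.2) • τ x y with hD₀
  have hτ : ∀ x y u, ‖τ x y u‖ = ‖u‖ := by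
    intro x y u
    have := hρ (Equiv.swap (e x) (e y)) u u
    rw [real_inner_self_eq_norm_sq, real_inner_self_eq_norm_sq] at this
    exact (sq_eq_sq₀ (norm_nonneg _) (norm_nonneg _)).1 this
  have hinv : ∀ x y u, τ x y (τ x y u) = u := by
    intro x y u
    have : τ x y * τ x y = 1 := by
      simp only [hτdef]; rw [← map_mul, Equiv.swap_mul_self, map_one]
    calc τ x y (τ x y u) = (τ x y * τ x y) u := rfl
      _ = u := by rw [this]; rfl
  have hs : ∀ x y u w, ⟪τ x y u, w⟫_ℝ = ⟪u, τ x y w⟫_ℝ := by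
    intro x y u w
    have := hρ (Equiv.swap (e x) (e y)) u (τ x y w)
    rw [← this]
    congr 1
    exact (hinv x y w).symm
  have ha : ∀ x y : κ × Bool, x.1 = y.1 → τ x y v = v := by
    rintro ⟨k, b⟩ ⟨k', b'⟩ h
    obtain rfl : k = k' := h
    cases b <;> cases b'
    · simp [hτdef, ← Equiv.Perm.one_def]
    · exact hv' k
    · simp only [hτdef]; rw [Equiv.swap_comm]; exact hv' k
    · simp [hτdef, ← Equiv.Perm.one_def]
  have hconj : ∀ η p, ⟪v, (D₀ ^ p) v⟫_ℝ = ⟪v, (D τ η ^ p) v⟫_ℝ := by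
    intro η p
    obtain ⟨h, hh, hhv⟩ := hv η
    let fl : κ × Bool ≃ κ × Bool :=
      { toFun := fun x => (x.1, xor x.2 (η x.1))
        invFun := fun x => (x.1, xor x.2 (η x.1))
        left_inv := fun x => by simp
        right_inv := fun x => by simp }
    have h1 : ∀ x y, ρ h * τ x y = τ (fl x) (fl y) * ρ h := by
      intro x y
      simp only [hτdef]
      rw [← map_mul, ← map_mul, Equiv.mul_swap_eq_swap_mul]
      have hx : h (e x) = e (fl x) := hh x.1 x.2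
      have hy : h (e y) = e (fl y) := hh y.1 y.2
      rw [hx, hy]
    have h2 : ρ h * D₀ = D τ η * ρ h := by
      simp only [hD₀, D, mul_smul_comm, smul_mul_assoc, Finset.mul_sum, Finset.sum_mul, h1]
      congr 1
      rw [← Equiv.sum_comp fl]
      refine Finset.sum_congr rfl fun x _ => ?_
      rw [← Equiv.sum_comp fl]
      refine Finset.sum_congr rfl fun y _ => ?_
      have hx : fl (fl x) = x := fl.left_inv x
      have hy : fl (fl y) = y := fl.left_inv y
      rw [hx, hy]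
      congr 1
      show chi (xor x.2 (η x.1)) * chi (xor y.2 (η y.1)) = _
      rw [chi_xor, chi_xor]; ring
    have h3 : ρ h * D₀ ^ p = D τ η ^ p * ρ h := by
      induction p with
      | zero => simp
      | succ p ih => rw [pow_succ, ← mul_assoc, ih, mul_assoc, h2, ← mul_assoc, ← pow_succ]
    rw [← hρ h, hhv]
    congr 1
    calc ρ h ((D₀ ^ p) v) = (ρ h * D₀ ^ p) v := rfl
      _ = (D τ η ^ p) (ρ h v) := by rw [h3]; rfl
      _ = _ := by rw [hhv]
  have havg : ∀ p, (2 : ℝ) ^ Fintype.card κ * ⟪v, (D₀ ^ p) v⟫_ℝ =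
      ∑ η : κ → Bool, ⟪v, (D τ η ^ p) v⟫_ℝ := by
    intro p
    simp only [← hconj, Finset.sum_const, Finset.card_univ, Fintype.card_fun, Fintype.card_bool,
      nsmul_eq_mul]
    push_cast; ring
  set φ : ℝ := ⟪v, ((2 * (Fintype.card κ : ℝ))⁻¹ • ∑ x : κ × Bool, ∑ y : κ × Bool,
          (1 - τ x y)) v⟫_ℝ with hφ
  have hφ' : (4 * (Fintype.card κ : ℝ) ^ 2)⁻¹ *
      ∑ x : κ × Bool, ∑ y : κ × Bool, ‖τ x y v - v‖ ^ 2 = φ / (Fintype.card κ : ℝ) := by
    have : ∀ x y, ‖τ x y v - v‖ ^ 2 = 2 * ⟪v, (1 - τ x y) v⟫_ℝ := by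
      intro x y
      rw [norm_sub_sq_real, hτ]
      simp only [_root_.sub_apply, one_apply_eq_self, inner_sub_right,
        real_inner_self_eq_norm_sq, real_inner_comm v]
      ring
    simp only [this, hφ, _root_.smul_apply, _root_.sum_apply,
      inner_smul_right, inner_sum, ← Finset.mul_sum]
    field_simp
    ring
  have hφ0 : 0 ≤ φ / (Fintype.card κ : ℝ) := by rw [← hφ']; positivity
  have h2pos : (0 : ℝ) < 2 ^ Fintype.card κ := by positivity
  have hm1 : ⟪v, (D₀ ^ 1) v⟫_ℝ = 0 := by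
    have := havg 1
    simp only [pow_one] at this ⊢
    rw [moment_one τ v ha] at this
    exact (mul_eq_zero.1 this).resolve_left h2pos.ne'
  have hm2 : ∀ q, ⟪v, (D₀ ^ (q + 2)) v⟫_ℝ ≤
      4 ^ (q + 1) * ((q + 2).factorial : ℝ) * (φ / (Fintype.card κ : ℝ)) := by
    intro q
    have h1 := moment_two τ hτ hs v ha q
    rw [← havg, hφ', mul_assoc] at h1
    exact le_of_mul_le_mul_left h1 h2pos
  have hexp := NormedSpace.exp_series_hasSum_exp' (𝕂 := ℝ) (c • D₀)
  have hexp2 := ((innerSL ℝ v).comp (ContinuousLinearMap.apply ℝ E v)).hasSum hexp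
  simp only [ContinuousLinearMap.comp_apply, ContinuousLinearMap.apply_apply,
    innerSL_apply_apply, smul_pow, _root_.smul_apply, inner_smul_right] at hexp2
  have hexp3 := (hasSum_nat_add_iff' 2).2 hexp2
  have hgeo := (hasSum_geometric_of_lt_one (r := 4 * c) (by positivity) (by linarith)).mul_left
    (4 * c ^ 2 * (φ / (Fintype.card κ : ℝ)))
  have hle := hasSum_le (fun q => ?_) hexp3 hgeo
  · simp only [Finset.sum_range_succ, Finset.sum_range_zero, hm1, pow_zero, one_apply_eq_self,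
      real_inner_self_eq_norm_sq] at hle
    have h14 : 0 < 1 - 4 * c := by linarith
    have : 4 * c ^ 2 / (1 - 4 * c) / (Fintype.card κ : ℝ) * φ =
        4 * c ^ 2 * (φ / (Fintype.card κ : ℝ)) * (1 - 4 * c)⁻¹ := by
      field_simp
    rw [this]
    simp at hle
    linarith
  · have hf : (0 : ℝ) < ((q + 2).factorial : ℝ) := by exact_mod_cast Nat.factorial_pos _
    calc (((q + 2).factorial : ℝ))⁻¹ * (c ^ (q + 2) * ⟪v, (D₀ ^ (q + 2)) v⟫_ℝ)
        ≤ (((q + 2).factorial : ℝ))⁻¹ * (c ^ (q + 2) *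
          (4 ^ (q + 1) * ((q + 2).factorial : ℝ) * (φ / (Fintype.card κ : ℝ)))) := by
          gcongr
          exact hm2 q
      _ = _ := by field_simp; ring

end Crest.Agent.R155
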