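import Mathlib

open Finset BigOperators Matrix
open scoped InnerProductSpace

namespace Crest.Agent.R155

namespace Chess

variable {n : Type*} [Fintype n] [DecidableEq n]

/-- evaluation of a word in `A` (true) and `Aᵀ` (false). -/
def ev (A : Matrix n n ℝ) : List Bool → Matrix n n ℝ
  | [] => 1
  | b :: w => (if b then A else Aᵀ) * ev A w

/-- reversed and negated word. -/
def star (w : List Bool) : List Bool := (w.map not).reverse

/-- alternating word. -/
def alt : ℕ → Bool → List Bool
  | 0, _ => []
  | k + 1, b => b :: alt k (!b)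

lemma ev_append (A : Matrix n n ℝ) (u v : List Bool) : ev A (u ++ v) = ev A u * ev A v := by
  induction u with
  | nil => simp [ev]
  | cons b u ih => simp [ev, ih, Matrix.mul_assoc]

lemma star_cons (b : Bool) (w : List Bool) : star (b :: w) = star w ++ [!b] := by
  simp [star]

lemma star_append (u v : List Bool) : star (u ++ v) = star v ++ star u := by
  simp [star]

lemma length_star (w : List Bool) : (star w).length = w.length := by simp [star]

lemma ev_star (A : Matrix n n ℝ) (w : List Bool) : ev A (star w) = (ev A w)ᵀ := by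
  induction w with
  | nil => simp [ev, star]
  | cons b w ih =>
    rw [star_cons, ev_append, ih]
    cases b <;> simp [ev, Matrix.transpose_mul]

lemma length_alt (k : ℕ) (b : Bool) : (alt k b).length = k := by
  induction k generalizing b with
  | zero => rfl
  | succ k ih => simp [alt, ih]

lemma alt_snoc (a : ℕ) (c : Bool) : alt (2 * a + 1) c = alt (2 * a) c ++ [c] := by
  induction a with
  | zero => rfl
  | succ a ih =>
    have h1 : 2 * (a + 1) + 1 = (2 * a + 1) + 1 + 1 := by ring
    have h2 : 2 * (a + 1) = (2 * a) + 1 + 1 := by ring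
    rw [h1, h2]
    simp only [alt, Bool.not_not, List.cons_append]
    have := ih
    simp only [alt] at this
    rw [this]

lemma alt_star (a : ℕ) (b : Bool) : alt a b ++ star (alt a b) = alt (2 * a) b := by
  induction a generalizing b with
  | zero => rfl
  | succ a ih =>
    have h2 : 2 * (a + 1) = (2 * a + 1) + 1 := by ring
    rw [h2]
    show (b :: alt a (!b)) ++ star (b :: alt a (!b)) = b :: alt (2 * a + 1) (!b)
    rw [star_cons, alt_snoc, ← ih (!b)]
    simp

lemma alt_add (m k : ℕ) (b : Bool) : ∃ c, alt (m + k) b = alt m b ++ alt k c := by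
  induction m generalizing b with
  | zero => exact ⟨b, by simp [alt]⟩
  | succ m ih =>
    obtain ⟨c, hc⟩ := ih (!b)
    refine ⟨c, ?_⟩
    have : m + 1 + k = (m + k) + 1 := by ring
    rw [this]
    simp [alt, hc]

lemma ev_alt (A : Matrix n n ℝ) (N : ℕ) : ev A (alt (2 * N) true) = (A * Aᵀ) ^ N := by
  induction N with
  | zero => simp [alt, ev]
  | succ N ih =>
    have h2 : 2 * (N + 1) = (2 * N) + 1 + 1 := by ring
    rw [h2]
    simp only [alt, ev, Bool.not_true, Bool.not_false, ih]
    simp [pow_succ', Matrix.mul_assoc]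

lemma ev_replicate (A : Matrix n n ℝ) (N : ℕ) : ev A (List.replicate N true) = A ^ N := by
  induction N with
  | zero => simp [ev]
  | succ N ih => simp [List.replicate_succ, ev, ih, pow_succ']

omit [DecidableEq n] in
lemma trace_mul_transpose (U : Matrix n n ℝ) : (U * Uᵀ).trace = ∑ p : n × n, U p.1 p.2 ^ 2 := by
  simp [Matrix.trace, Matrix.mul_apply, Fintype.sum_prod_type, sq]

omit [DecidableEq n] in
lemma trace_mul_transpose_nonneg (U : Matrix n n ℝ) : 0 ≤ (U * Uᵀ).trace := by
  rw [trace_mul_transpose]; positivity

omit [DecidableEq n] in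
lemma trace_cs (U V : Matrix n n ℝ) :
    (U * V).trace ^ 2 ≤ (U * Uᵀ).trace * (Vᵀ * V).trace := by
  have h1 : (U * V).trace = ∑ p : n × n, U p.1 p.2 * Vᵀ p.1 p.2 := by
    simp [Matrix.trace, Matrix.mul_apply, Fintype.sum_prod_type]
  have h2 : (Vᵀ * V).trace = ∑ p : n × n, Vᵀ p.1 p.2 ^ 2 := by
    have := trace_mul_transpose Vᵀ
    simpa using this
  rw [h1, h2, trace_mul_transpose]
  exact Finset.sum_mul_sq_le_sq_mul_sq _ _ _

lemma rot (A : Matrix n n ℝ) (u v : List Bool) :
    (ev A (u ++ v)).trace = (ev A (v ++ u)).trace := by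
  rw [ev_append, ev_append, Matrix.trace_mul_comm]

lemma reflect (A : Matrix n n ℝ) (N : ℕ) (μ : ℝ)
    (hμ : ∀ w : List Bool, w.length = 2 * N → |(ev A w).trace| ≤ μ)
    (u v : List Bool) (hu : u.length = N) (hv : v.length = N)
    (h : |(ev A (u ++ v)).trace| = μ) : |(ev A (u ++ star u)).trace| = μ := by
  have h1 := hμ (u ++ star u) (by simp [length_star, hu]; ring)
  have h2 := hμ (star v ++ v) (by simp [length_star, hv]; ring)
  have h3 := trace_cs (ev A u) (ev A v)
  rw [ev_append, ev_star] at h1 h2 ⊢
  rw [ev_append] at h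
  have hp := trace_mul_transpose_nonneg (ev A u)
  have hq : 0 ≤ ((ev A v)ᵀ * ev A v).trace := by
    simpa using trace_mul_transpose_nonneg (ev A v)ᵀ
  rw [abs_of_nonneg hp] at h1 ⊢
  rw [abs_of_nonneg hq] at h2
  have hμ0 : 0 ≤ μ := le_trans hp h1
  rw [← sq_abs, h] at h3
  rcases eq_or_lt_of_le hμ0 with h0 | h0
  · linarith
  · refine le_antisymm h1 ?_
    by_contra hlt
    push Not at hlt
    nlinarith

end Chess

open Chess in
theorem chessboard {n : Type*} [Fintype n] [DecidableEq n] (A : Matrix n n ℝ) (N : ℕ) :
    (A ^ N * (A ^ N)ᵀ).trace ≤ ((A * Aᵀ) ^ N).trace := by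
  rcases Nat.eq_zero_or_pos N with rfl | hN
  · simp
  obtain ⟨w₀, -, hw₀⟩ := Finset.exists_max_image (Finset.univ : Finset (List.Vector Bool (2 * N)))
    (fun w => |(ev A w.1).trace|) ⟨List.Vector.replicate _ true, Finset.mem_univ _⟩
  set μ := |(ev A w₀.1).trace| with hμdef
  have hμ : ∀ w : List Bool, w.length = 2 * N → |(ev A w).trace| ≤ μ := fun w hw =>
    hw₀ ⟨w, hw⟩ (Finset.mem_univ _)
  have key : ∀ a, 1 ≤ a → a ≤ N → ∃ r : List Bool, r.length + a = 2 * N ∧
      |(ev A (alt a true ++ r)).trace| = μ := by
    intro a ha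
    induction a, ha using Nat.le_induction with
    | base =>
      intro _
      obtain ⟨w, hw⟩ := w₀
      cases w with
      | nil => simp at hw; omega
      | cons b r =>
        cases b with
        | true => exact ⟨r, by simpa using hw, rfl⟩
        | false =>
          refine ⟨star r, by simpa [length_star] using hw, ?_⟩
          rw [rot, hμdef]
          have : star r ++ alt 1 true = star (false :: r) := by rw [star_cons]; rfl
          rw [this, ev_star, Matrix.trace_transpose]
    | succ a ha ih =>
      intro haN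
      obtain ⟨r, hr, hmax⟩ := ih (by omega)
      have hsplit : r = r.take N ++ r.drop N := (List.take_append_drop N r).symm
      have hl1 : (r.take N).length = N := by simp; omega
      have hl2 : (r.drop N ++ alt a true).length = N := by simp [length_alt]; omega
      have h1 : |(ev A ((r.drop N ++ alt a true) ++ r.take N)).trace| = μ := by
        rw [← hmax, List.append_assoc, rot, List.append_assoc, List.take_append_drop]
      have h2 := reflect A N μ hμ _ _ hl2 hl1 h1
      rw [star_append, List.append_assoc, rot, ← List.append_assoc, alt_star] at h2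
      obtain ⟨c, hc⟩ := alt_add (a + 1) (a - 1) true
      have h3 : a + 1 + (a - 1) = 2 * a := by omega
      rw [h3] at hc
      rw [hc] at h2
      refine ⟨alt (a - 1) c ++ star (r.drop N) ++ r.drop N, ?_, ?_⟩
      · simp [length_alt, length_star]; omega
      · rw [← h2]; simp [List.append_assoc]
  obtain ⟨r, hr, hmax⟩ := key N hN le_rfl
  have h2 := reflect A N μ hμ _ _ (length_alt N true) (by omega) hmax
  have h3 := hμ (List.replicate N true ++ star (List.replicate N true))
    (by simp [length_star]; ring)
  rw [ev_append, ev_star, ev_replicate] at h3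
  have h4 : 0 ≤ (ev A (alt N true ++ star (alt N true))).trace := by
    rw [ev_append, ev_star]; exact trace_mul_transpose_nonneg _
  rw [abs_of_nonneg h4, alt_star, ev_alt] at h2
  rw [h2]
  exact le_trans (le_abs_self _) h3

end Crest.Agent.R155
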