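import Mathlib
import Crest.Agent.R155.Basic

/-! The butterfly switching network on the hypercube. -/

open Finset BigOperators

namespace Crest.Agent.R155

abbrev Pos (D : ℕ) : Type := Fin D → Bool

abbrev Bits (D : ℕ) : Type := Fin D × Pos D → Bool

variable {D : ℕ}

def flp (a : Fin D) (x : Pos D) : Pos D := Function.update x a (!x a)

def canon (a : Fin D) (x : Pos D) : Pos D := Function.update x a false

@[simp] lemma flp_self (a : Fin D) (x : Pos D) : flp a x a = !x a := by simp [flp]

lemma flp_ne {a i : Fin D} (h : i ≠ a) (x : Pos D) : flp a x i = x i := by simp [flp, h]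

@[simp] lemma flp_flp (a : Fin D) (x : Pos D) : flp a (flp a x) = x := by
  ext i
  by_cases h : i = a
  · subst h; simp
  · simp [flp_ne h]

lemma flp_ne_self (a : Fin D) (x : Pos D) : flp a x ≠ x := by
  intro h
  have := congrFun h a
  simp at this

@[simp] lemma canon_flp (a : Fin D) (x : Pos D) : canon a (flp a x) = canon a x := by
  simp [canon, flp]

@[simp] lemma canon_self (a : Fin D) (x : Pos D) : canon a x a = false := by simp [canon]

lemma canon_ne {a i : Fin D} (h : i ≠ a) (x : Pos D) : canon a x i = x i := by simp [canon, h]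

lemma canon_eq_iff {a : Fin D} {x y : Pos D} : canon a x = canon a y ↔ y = x ∨ y = flp a x := by
  constructor
  · intro h
    by_cases h1 : y a = x a
    · left
      ext i
      by_cases hi : i = a
      · subst hi; exact h1
      · have := congrFun h i
        rw [canon_ne hi, canon_ne hi] at this
        exact this.symm
    · right
      ext i
      by_cases hi : i = a
      · subst hi
        rw [flp_self]
        cases hx : x i <;> cases hy : y i <;> simp_all
      · have := congrFun h i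
        rw [canon_ne hi, canon_ne hi] at this
        rw [flp_ne hi]
        exact this.symm
  · rintro (rfl | rfl)
    · rfl
    · simp

def flpP (a : Fin D) : Equiv.Perm (Pos D) :=
  Function.Involutive.toPerm (flp a) (flp_flp a)

@[simp] lemma flpP_apply (a : Fin D) (x : Pos D) : flpP a x = flp a x := rfl

def layerFun (a : Fin D) (c : Pos D → Bool) (x : Pos D) : Pos D :=
  if c (canon a x) then flp a x else x

lemma layerFun_invol (a : Fin D) (c : Pos D → Bool) : Function.Involutive (layerFun a c) := by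
  intro x
  unfold layerFun
  by_cases h : c (canon a x) = true
  · simp [h]
  · simp [h]

def layer (a : Fin D) (c : Pos D → Bool) : Equiv.Perm (Pos D) :=
  Function.Involutive.toPerm (layerFun a c) (layerFun_invol a c)

lemma layer_apply (a : Fin D) (c : Pos D → Bool) (x : Pos D) :
    layer a c x = if c (canon a x) then flp a x else x := rfl

@[simp] lemma layer_layer (a : Fin D) (c : Pos D → Bool) (x : Pos D) :
    layer a c (layer a c x) = x := layerFun_invol a c x

@[simp] lemma layer_mul_self (a : Fin D) (c : Pos D → Bool) : layer a c * layer a c = 1 := by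
  ext1 x; simp

@[simp] lemma layer_inv (a : Fin D) (c : Pos D → Bool) : (layer a c)⁻¹ = layer a c :=
  inv_eq_of_mul_eq_one_right (layer_mul_self a c)

lemma layer_ne {a i : Fin D} (h : i ≠ a) (c : Pos D → Bool) (x : Pos D) :
    layer a c x i = x i := by
  rw [layer_apply]; split_ifs
  · exact flp_ne h x
  · rfl

lemma layer_self (a : Fin D) (c : Pos D → Bool) (x : Pos D) :
    layer a c x a = xor (x a) (c (canon a x)) := by
  rw [layer_apply]; split_ifs with h
  · simp [h]
  · simp [h]

lemma layer_flp (a : Fin D) (c : Pos D → Bool) (x : Pos D) :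
    layer a c (flp a x) = flp a (layer a c x) := by
  rw [layer_apply, layer_apply, canon_flp]; split_ifs <;> rfl

lemma layer_congr (a : Fin D) {c c' : Pos D → Bool} {x : Pos D}
    (h : c (canon a x) = c' (canon a x)) : layer a c x = layer a c' x := by
  rw [layer_apply, layer_apply, h]

/-- The layer in direction `a` read from the bit table. -/
def lay (ω : Bits D) (a : Fin D) : Equiv.Perm (Pos D) := layer a (fun x => ω (a, x))

@[simp] lemma lay_inv (ω : Bits D) (a : Fin D) : (lay ω a)⁻¹ = lay ω a := layer_inv _ _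

/-- The composition of the first `l` layers. -/
def sig (ω : Bits D) : ℕ → Equiv.Perm (Pos D)
  | 0 => 1
  | l + 1 => if h : l < D then lay ω ⟨l, h⟩ * sig ω l else sig ω l

@[simp] lemma sig_zero (ω : Bits D) : sig ω 0 = 1 := rfl

lemma sig_succ (ω : Bits D) {l : ℕ} (h : l < D) : sig ω (l + 1) = lay ω ⟨l, h⟩ * sig ω l := by
  simp [sig, h]

lemma sig_succ' (ω : Bits D) (a : Fin D) : sig ω (a + 1) = lay ω a * sig ω a :=
  sig_succ ω a.2

lemma sig_succ_ge (ω : Bits D) {l : ℕ} (h : ¬ l < D) : sig ω (l + 1) = sig ω l := by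
  simp [sig, h]

lemma sig_apply_ge (ω : Bits D) (l : ℕ) (x : Pos D) (i : Fin D) (h : l ≤ i) :
    sig ω l x i = x i := by
  induction l with
  | zero => rfl
  | succ l ih =>
    have hl : l < D := by have := i.2; omega
    rw [sig_succ ω hl, Equiv.Perm.mul_apply, lay, layer_ne, ih (by omega)]
    intro hi
    rw [hi] at h
    simp at h

lemma sig_apply_lt (ω : Bits D) {l l' : ℕ} (hl : l ≤ l') (x : Pos D) (i : Fin D) (h : (i : ℕ) < l) :
    sig ω l' x i = sig ω l x i := by
  induction l', hl using Nat.le_induction with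
  | base => rfl
  | succ n hn ih =>
    by_cases hD : n < D
    · rw [sig_succ ω hD, Equiv.Perm.mul_apply, lay, layer_ne, ih]
      intro hi
      rw [hi] at h
      simp at h
      omega
    · rw [sig_succ_ge ω hD, ih]

/-- The path of a card is determined by its endpoints. -/
lemma sig_path (ω : Bits D) {a l : ℕ} (hal : a ≤ l) (x : Pos D) (i : Fin D) :
    sig ω a x i = if (i : ℕ) < a then sig ω l x i else x i := by
  split_ifs with h
  · exact (sig_apply_lt ω hal x i h).symm
  · exact sig_apply_ge ω a x i (not_lt.1 h)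

lemma sig_congr {ω ω' : Bits D} (l : ℕ) (h : ∀ s : Fin D × Pos D, (s.1 : ℕ) < l → ω s = ω' s) :
    sig ω l = sig ω' l := by
  induction l with
  | zero => rfl
  | succ l ih =>
    have ih' := ih (fun s hs => h s (by omega))
    by_cases hD : l < D
    · rw [sig_succ ω hD, sig_succ ω' hD, ih']
      congr 1
      unfold lay
      congr 1
      ext x
      exact h _ (by simp)
    · rw [sig_succ_ge ω hD, sig_succ_ge ω' hD, ih']

lemma sig_inv_apply_ge (ω : Bits D) (l : ℕ) (x : Pos D) (i : Fin D) (h : l ≤ i) :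
    (sig ω l)⁻¹ x i = x i := by
  have := sig_apply_ge ω l ((sig ω l)⁻¹ x) i h
  simpa using this.symm

/-- The matching of cards that meet at layer `a`. -/
def mu (ω : Bits D) (a : Fin D) : Equiv.Perm (Pos D) := (sig ω a)⁻¹ * flpP a * sig ω a

lemma mu_apply (ω : Bits D) (a : Fin D) (x : Pos D) :
    mu ω a x = (sig ω a)⁻¹ (flp a (sig ω a x)) := rfl

lemma sig_mu (ω : Bits D) (a : Fin D) (x : Pos D) :
    sig ω a (mu ω a x) = flp a (sig ω a x) := by simp [mu_apply]

@[simp] lemma mu_mu (ω : Bits D) (a : Fin D) (x : Pos D) : mu ω a (mu ω a x) = x := by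
  simp [mu_apply]

lemma mu_self (ω : Bits D) (a : Fin D) (x : Pos D) : mu ω a x a = !x a := by
  rw [mu_apply, sig_inv_apply_ge ω a _ a le_rfl, flp_self, sig_apply_ge ω a x a le_rfl]

lemma mu_gt (ω : Bits D) (a i : Fin D) (h : a < i) (x : Pos D) : mu ω a x i = x i := by
  rw [mu_apply, sig_inv_apply_ge ω a _ i h.le, flp_ne h.ne', sig_apply_ge ω a x i h.le]

lemma mu_congr {ω ω' : Bits D} (a : Fin D)
    (h : ∀ s : Fin D × Pos D, (s.1 : ℕ) < a → ω s = ω' s) : mu ω a = mu ω' a := by
  unfold mu; rw [sig_congr a h]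

lemma eq_mu_iff (ω : Bits D) (a : Fin D) (x y : Pos D) :
    y = mu ω a x ↔ sig ω a y = flp a (sig ω a x) := by
  rw [mu_apply]
  constructor
  · rintro rfl; simp
  · intro h; rw [← h]; simp

/-- Subsets of `U` closed under two maps. -/
def Zset (U : Finset (Pos D)) (μ μ' : Equiv.Perm (Pos D)) : Finset (Finset (Pos D)) :=
  U.powerset.filter (fun t => (∀ u ∈ t, μ u ∈ t) ∧ ∀ u ∈ t, μ' u ∈ t)

/-- The loop weight at level `l`. -/
noncomputable def Zw (ω₁ ω₂ : Bits D) (U : Finset (Pos D)) (l : ℕ) : ℝ :=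
  if h : l < D then ((Zset U (mu ω₁ ⟨l, h⟩) (mu ω₂ ⟨l, h⟩)).card : ℝ) else 1

lemma one_le_Zw (ω₁ ω₂ : Bits D) (U : Finset (Pos D)) (l : ℕ) : 1 ≤ Zw ω₁ ω₂ U l := by
  unfold Zw
  split_ifs
  · have : 0 < (Zset U (mu ω₁ ⟨l, ‹_›⟩) (mu ω₂ ⟨l, ‹_›⟩)).card :=
      Finset.card_pos.2 ⟨∅, by simp [Zset]⟩
    exact_mod_cast this
  · exact le_rfl

lemma Zw_pos (ω₁ ω₂ : Bits D) (U : Finset (Pos D)) (l : ℕ) : 0 < Zw ω₁ ω₂ U l :=
  lt_of_lt_of_le one_pos (one_le_Zw _ _ _ _)

lemma Zw_symm (ω₁ ω₂ : Bits D) (U : Finset (Pos D)) (l : ℕ) :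
    Zw ω₁ ω₂ U l = Zw ω₂ ω₁ U l := by
  unfold Zw
  split_ifs
  · congr 2
    ext t
    simp only [Zset, mem_filter, and_comm]
  · rfl

lemma Zw_congr {ω₁ ω₂ ω₁' ω₂' : Bits D} (U : Finset (Pos D)) (l : ℕ)
    (h₁ : ∀ s : Fin D × Pos D, (s.1 : ℕ) < l → ω₁ s = ω₁' s)
    (h₂ : ∀ s : Fin D × Pos D, (s.1 : ℕ) < l → ω₂ s = ω₂' s) :
    Zw ω₁ ω₂ U l = Zw ω₁' ω₂' U l := by
  unfold Zw
  split_ifs with h
  · rw [mu_congr ⟨l, h⟩ h₁, mu_congr ⟨l, h⟩ h₂]
  · rfl

end Crest.Agent.R155
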