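import Mathlib
import Crest.Agent.R155.Net

/-! The closing-subcube inequality for cycles of the loop permutation. -/

open Finset BigOperators

namespace Crest.Agent.R155

variable {D : ℕ}

/-- The switch visited by card `u` at layer `b`. -/
def sw (ω : Bits D) (u : Pos D) (b : Fin D) : Fin D × Pos D := (b, canon b (sig ω b u))

lemma path_congr {ω ω' : Bits D} {u : Pos D} {l : ℕ}
    (h : ∀ b : Fin D, (b : ℕ) < l → ω' (sw ω u b) = ω (sw ω u b)) :
    ∀ b ≤ l, sig ω' b u = sig ω b u := by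
  intro b hb
  induction b with
  | zero => rfl
  | succ b ih =>
    have ih' := ih (by omega)
    by_cases hD : b < D
    · rw [sig_succ ω hD, sig_succ ω' hD, Equiv.Perm.mul_apply, Equiv.Perm.mul_apply, ih']
      exact layer_congr _ (h ⟨b, hD⟩ (by simpa using hb))
    · rw [sig_succ_ge ω hD, sig_succ_ge ω' hD, ih']

lemma sw_side (ω : Bits D) (u : Pos D) {a b : Fin D} (h : b < a) : (sw ω u b).2 a = u a := by
  simp only [sw]
  rw [canon_ne h.ne', sig_apply_ge ω b u a h.le]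

lemma sw_eq_iff (ω : Bits D) (u u' : Pos D) (b : Fin D) :
    sw ω u b = sw ω u' b ↔ u' = u ∨ u' = mu ω b u := by
  simp only [sw, Prod.mk.injEq, true_and, canon_eq_iff, eq_mu_iff]
  rw [(sig ω b).injective.eq_iff]

/-- The loop permutation at level `a`. -/
def piP (μ : Equiv.Perm (Pos D)) (ω : Bits D) (a : Fin D) : Equiv.Perm (Pos D) := μ * mu ω a

def win (a₀ : ℕ) (a : Fin D) : Finset (Fin D) := univ.filter (fun b => a₀ ≤ (b : ℕ) ∧ b < a)

def CloseS (μ : Equiv.Perm (Pos D)) (a₀ : ℕ) (a : Fin D) (c : Finset (Pos D × ℕ)) (ω : Bits D) :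
    Finset (Fin D × Pos D) :=
  c.biUnion (fun p => (win a₀ a).image (sw ω ((piP μ ω a)^[p.2 - 1] p.1)))

def NonS (μ : Equiv.Perm (Pos D)) (a : Fin D) (c : Finset (Pos D × ℕ)) (ω : Bits D) :
    Finset (Fin D × Pos D) :=
  c.biUnion (fun p => (range (p.2 - 1)).biUnion
    (fun i => (win 0 a).image (sw ω ((piP μ ω a)^[i] p.1))))

def FreeS (μ : Equiv.Perm (Pos D)) (a₀ : ℕ) (a : Fin D) (c : Finset (Pos D × ℕ)) (ω : Bits D) :
    Finset (Fin D × Pos D) := CloseS μ a₀ a c ω \ NonS μ a c ω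

def Closes (μ : Equiv.Perm (Pos D)) (a : Fin D) (c : Finset (Pos D × ℕ)) (ω : Bits D) : Prop :=
  ∀ p ∈ c, (piP μ ω a)^[p.2] p.1 = p.1

instance (μ : Equiv.Perm (Pos D)) (a : Fin D) (c : Finset (Pos D × ℕ)) :
    DecidablePred (Closes μ a c) := by unfold Closes; infer_instance

section

variable {μ : Equiv.Perm (Pos D)} {a : Fin D} (hμ : ∀ u, μ u a = !u a)
include hμ

lemma piP_side (ω : Bits D) (u : Pos D) : piP μ ω a u a = u a := by
  simp [piP, hμ, mu_self]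

lemma piP_iter_side (ω : Bits D) (i : ℕ) (u : Pos D) : (piP μ ω a)^[i] u a = u a := by
  induction i with
  | zero => rfl
  | succ i ih => rw [Function.iterate_succ_apply', piP_side hμ, ih]

lemma freeS_prop {a₀ : ℕ} {c : Finset (Pos D × ℕ)} (hc : ∀ p ∈ c, p.1 a = true) {ω : Bits D}
    {q : Fin D × Pos D} (hq : q ∈ FreeS μ a₀ a c ω) : q.2 a = true ∧ a₀ ≤ (q.1 : ℕ) := by
  simp only [FreeS, CloseS, mem_sdiff, mem_biUnion, mem_image, win, mem_filter, mem_univ,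
    true_and] at hq
  obtain ⟨⟨p, hp, b, hb, rfl⟩, -⟩ := hq
  exact ⟨by rw [sw_side ω _ hb.2, piP_iter_side hμ, hc p hp], hb.1⟩

omit hμ in
lemma sig_side_false {ω ω' : Bits D} (h : ∀ q : Fin D × Pos D, q.2 a = false → ω' q = ω q)
    {v : Pos D} (hv : v a = false) : sig ω' a v = sig ω a v :=
  path_congr (l := a) (fun b hb => h _ (by rw [sw_side ω v hb, hv])) a le_rfl

omit hμ in
lemma mu_congr_side {ω ω' : Bits D} (h : ∀ q : Fin D × Pos D, q.2 a = false → ω' q = ω q)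
    {u : Pos D} (hu : u a = true) (hs : sig ω' a u = sig ω a u) : mu ω' a u = mu ω a u := by
  symm
  rw [eq_mu_iff, sig_side_false h (by rw [mu_self, hu]; rfl), sig_mu, hs]

lemma agree_off_free {a₀ : ℕ} {c : Finset (Pos D × ℕ)} (hc : ∀ p ∈ c, p.1 a = true)
    {ω ω' : Bits D} (h : ∀ q, q ∉ FreeS μ a₀ a c ω → ω' q = ω q) :
    (∀ q : Fin D × Pos D, q.2 a = false → ω' q = ω q) ∧
    (∀ p ∈ c, ∀ i ≤ p.2 - 1, (piP μ ω' a)^[i] p.1 = (piP μ ω a)^[i] p.1) ∧
    (∀ p ∈ c, ∀ i < p.2 - 1, ∀ b ≤ (a : ℕ),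
      sig ω' b ((piP μ ω a)^[i] p.1) = sig ω b ((piP μ ω a)^[i] p.1)) := by
  have h0 : ∀ q : Fin D × Pos D, q.2 a = false → ω' q = ω q := by
    intro q hq
    apply h
    intro hF
    have := (freeS_prop hμ hc hF).1
    rw [hq] at this
    exact Bool.false_ne_true this
  have h2 : ∀ p ∈ c, ∀ i < p.2 - 1, ∀ b ≤ (a : ℕ),
      sig ω' b ((piP μ ω a)^[i] p.1) = sig ω b ((piP μ ω a)^[i] p.1) := by
    intro p hp i hi
    apply path_congr
    intro b hb
    apply h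
    intro hF
    rw [FreeS, mem_sdiff] at hF
    apply hF.2
    simp only [NonS, mem_biUnion, mem_image, win, mem_filter, mem_univ, true_and, mem_range]
    exact ⟨p, hp, i, hi, b, ⟨Nat.zero_le _, hb⟩, rfl⟩
  refine ⟨h0, ?_, h2⟩
  intro p hp i hi
  induction i with
  | zero => rfl
  | succ i ih =>
    rw [Function.iterate_succ_apply', Function.iterate_succ_apply', ih (by omega)]
    simp only [piP, Equiv.Perm.mul_apply]
    congr 1
    exact mu_congr_side h0 (by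
      have := piP_iter_side hμ ω i p.1
      rw [hc p hp] at this
      exact this) (h2 p hp i (by omega) a le_rfl)

lemma free_unique {a₀ : ℕ} {c : Finset (Pos D × ℕ)} (hc : ∀ p ∈ c, p.1 a = true ∧ 1 ≤ p.2)
    {ω₁ ω₂ ω' : Bits D} (e₁ : Closes μ a c ω₁) (e₂ : Closes μ a c ω₂)
    (h₁ : ∀ q, q ∉ FreeS μ a₀ a c ω₁ → ω' q = ω₁ q)
    (h₂ : ∀ q, q ∉ FreeS μ a₀ a c ω₂ → ω' q = ω₂ q) :
    FreeS μ a₀ a c ω₁ = FreeS μ a₀ a c ω₂ ∧ ∀ q ∈ FreeS μ a₀ a c ω₁, ω₁ q = ω₂ q := by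
  have hc' : ∀ p ∈ c, p.1 a = true := fun p hp => (hc p hp).1
  obtain ⟨A₁, B₁, C₁⟩ := agree_off_free hμ hc' h₁
  obtain ⟨A₂, B₂, C₂⟩ := agree_off_free hμ hc' h₂
  have hB : ∀ p ∈ c, ∀ i ≤ p.2 - 1, (piP μ ω₁ a)^[i] p.1 = (piP μ ω₂ a)^[i] p.1 :=
    fun p hp i hi => (B₁ p hp i hi).symm.trans (B₂ p hp i hi)
  -- the closing card has the same path
  have hend : ∀ p ∈ c, ∀ b ≤ (a : ℕ), sig ω₁ b ((piP μ ω₁ a)^[p.2 - 1] p.1)
      = sig ω₂ b ((piP μ ω₁ a)^[p.2 - 1] p.1) := by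
    intro p hp
    set z := (piP μ ω₁ a)^[p.2 - 1] p.1 with hz
    have hz2 : z = (piP μ ω₂ a)^[p.2 - 1] p.1 := hB p hp _ le_rfl
    have hp2 : p.2 = (p.2 - 1) + 1 := by have := (hc p hp).2; omega
    have k₁ : piP μ ω₁ a z = p.1 := by
      have := e₁ p hp
      rw [hp2, Function.iterate_succ_apply'] at this
      exact this
    have k₂ : piP μ ω₂ a z = p.1 := by
      have := e₂ p hp
      rw [hp2, Function.iterate_succ_apply'] at this
      rw [hz2]; exact this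
    have k₃ : mu ω₁ a z = mu ω₂ a z := μ.injective (k₁.trans k₂.symm)
    have hzs : z a = true := by rw [hz, piP_iter_side hμ, hc' p hp]
    have hv : mu ω₁ a z a = false := by rw [mu_self, hzs]; rfl
    have k₄ : sig ω₁ a z = sig ω₂ a z := by
      have t₁ := sig_side_false A₁ hv
      have t₂ := sig_side_false A₂ hv
      rw [sig_mu] at t₁
      rw [k₃, sig_mu, ← k₃, t₁] at t₂
      simpa using congrArg (flp a) t₂
    intro b hb
    ext i
    rw [sig_path ω₁ hb, sig_path ω₂ hb, k₄]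
  have hsw : ∀ p ∈ c, ∀ b : Fin D, b < a → sw ω₁ ((piP μ ω₁ a)^[p.2 - 1] p.1) b
      = sw ω₂ ((piP μ ω₂ a)^[p.2 - 1] p.1) b := by
    intro p hp b hb
    rw [← hB p hp _ le_rfl]
    simp only [sw]
    rw [hend p hp b hb.le]
  have hClose : CloseS μ a₀ a c ω₁ = CloseS μ a₀ a c ω₂ := by
    unfold CloseS
    refine Finset.biUnion_congr rfl fun p hp => Finset.image_congr fun b hb => ?_
    simp only [win, coe_filter, mem_univ, true_and, Set.mem_ofPred_eq] at hb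
    exact hsw p hp b hb.2
  have hNon : NonS μ a c ω₁ = NonS μ a c ω₂ := by
    unfold NonS
    refine Finset.biUnion_congr rfl fun p hp => Finset.biUnion_congr rfl fun i hi =>
      Finset.image_congr fun b hb => ?_
    simp only [win, coe_filter, mem_univ, true_and, Set.mem_ofPred_eq] at hb
    have hi' := Finset.mem_range.1 hi
    simp only [sw]
    rw [← C₁ p hp i hi' b hb.2.le, hB p hp i hi'.le, C₂ p hp i hi' b hb.2.le]
  refine ⟨by unfold FreeS; rw [hClose, hNon], ?_⟩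
  intro q hq
  simp only [FreeS, CloseS, mem_sdiff, mem_biUnion, mem_image, win, mem_filter, mem_univ,
    true_and] at hq
  obtain ⟨⟨p, hp, b, hb, rfl⟩, -⟩ := hq
  set z := (piP μ ω₁ a)^[p.2 - 1] p.1 with hz
  have t := congrFun (hend p hp (b + 1) hb.2) b
  rw [sig_succ', sig_succ', Equiv.Perm.mul_apply, Equiv.Perm.mul_apply, lay, lay, layer_self,
    layer_self, ← hend p hp b hb.2.le] at t
  simp only [sw]
  exact Bool.xor_right_inj.1 t

theorem closing_kraft (a₀ : ℕ) {c : Finset (Pos D × ℕ)} (hc : ∀ p ∈ c, p.1 a = true ∧ 1 ≤ p.2)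
    (ω₀ : Bits D) :
    𝔼 ω' : Bits D, (if Closes μ a c (mrg (fun s => (s.1 : ℕ) < a₀) ω₀ ω') then
      (2 : ℝ) ^ (FreeS μ a₀ a c (mrg (fun s => (s.1 : ℕ) < a₀) ω₀ ω')).card else 0) ≤ 1 := by
  refine kraft_expect (fun ω' => Closes μ a c (mrg (fun s => (s.1 : ℕ) < a₀) ω₀ ω'))
    (fun ω' => FreeS μ a₀ a c (mrg (fun s => (s.1 : ℕ) < a₀) ω₀ ω')) ?_
  intro ω₁ e₁ ω₂ e₂ ω' h₁ h₂
  have := free_unique hμ (a₀ := a₀) hc (ω' := mrg (fun s => (s.1 : ℕ) < a₀) ω₀ ω') e₁ e₂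
    (fun q hq => by simp only [mrg]; rw [h₁ q hq])
    (fun q hq => by simp only [mrg]; rw [h₂ q hq])
  ext q
  by_cases hq : q ∈ FreeS μ a₀ a c (mrg (fun s => (s.1 : ℕ) < a₀) ω₀ ω₁)
  · have t := this.2 q hq
    have t2 := (freeS_prop hμ (fun p hp => (hc p hp).1) hq).2
    simpa [mrg, not_lt.2 t2] using t
  · rw [← h₁ q hq, ← h₂ q (this.1 ▸ hq)]

end

end Crest.Agent.R155
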