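import Mathlib
import Crest.Agent.R155.Kraft

/-! Exponential moment of the number of loops at one level, given the lower layers. -/

open Finset BigOperators

namespace Crest.Agent.R155

variable {D : ℕ}

/-- Any nonempty set of cards contains a card meeting few cards of the set. -/
lemma exists_few_partners (ω : Bits D) (a : Fin D) (n : ℕ) :
    ∀ a₀ : ℕ, a₀ + n = a → ∀ C : Finset (Pos D), C.Nonempty →
      ∃ z ∈ C, 2 ^ ((win a₀ a).filter (fun b => mu ω b z ∈ C)).card ≤ C.card := by
  induction n with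
  | zero =>
    intro a₀ h C hC
    obtain ⟨z, hz⟩ := hC
    refine ⟨z, hz, ?_⟩
    have : (win a₀ a).filter (fun b => mu ω b z ∈ C) = ∅ := by
      rw [Finset.filter_eq_empty_iff]
      intro b hb
      simp only [win, mem_filter, mem_univ, true_and, Fin.lt_def] at hb
      omega
    rw [this]
    exact Finset.card_pos.2 ⟨z, hz⟩
  | succ n ih =>
    intro a₀ h C hC
    have ha₀ : a₀ < D := by have := a.2; omega
    set b₀ : Fin D := ⟨a₀, ha₀⟩ with hb₀
    let side : Pos D → Bool := fun u => sig ω (a₀ + 1) u b₀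
    have hs1 : ∀ u, side (mu ω b₀ u) = !side u := by
      intro u
      simp only [side]
      rw [show a₀ + 1 = (b₀ : ℕ) + 1 from rfl, sig_succ', Equiv.Perm.mul_apply,
        Equiv.Perm.mul_apply, sig_mu, lay, layer_flp, flp_self]
    have hs2 : ∀ b : Fin D, a₀ + 1 ≤ (b : ℕ) → ∀ u, side (mu ω b u) = side u := by
      intro b hb u
      simp only [side]
      have hne : b₀ ≠ b := by
        intro he
        rw [← he] at hb
        simp [hb₀] at hb
      rw [← sig_apply_lt ω hb _ b₀ (by simp [hb₀]), ← sig_apply_lt ω hb u b₀ (by simp [hb₀]),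
        sig_mu, flp_ne hne]
    have hwin : win a₀ a = insert b₀ (win (a₀ + 1) a) := by
      ext b
      simp only [win, mem_filter, mem_univ, true_and, mem_insert, Fin.lt_def, Fin.ext_iff, hb₀]
      omega
    -- general step for a side class
    have key : ∀ s : Bool, (C.filter (fun u => side u = s)).Nonempty →
        ∃ z ∈ C, side z = s ∧ 2 ^ ((win (a₀ + 1) a).filter (fun b => mu ω b z ∈ C)).card
          ≤ (C.filter (fun u => side u = s)).card := by
      intro s hs
      obtain ⟨z, hz, hz2⟩ := ih (a₀ + 1) (by omega) _ hs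
      rw [mem_filter] at hz
      refine ⟨z, hz.1, hz.2, le_of_eq_of_le ?_ hz2⟩
      congr 2
      refine Finset.filter_congr fun b hb => ?_
      simp only [win, mem_filter, mem_univ, true_and] at hb
      simp only [mem_filter, hs2 b hb.1, hz.2, and_true]
    have hcard : (C.filter (fun u => side u = false)).card
        + (C.filter (fun u => side u = true)).card = C.card := by
      have := Finset.card_filter_add_card_filter_not (s := C) (fun u => side u = false)
      simpa using this
    have step1 : ∀ s : Bool, C.filter (fun u => side u = !s) = ∅ →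
        ∃ z ∈ C, 2 ^ ((win a₀ a).filter (fun b => mu ω b z ∈ C)).card ≤ C.card := by
      intro s hs
      have hall : C.filter (fun u => side u = s) = C := by
        rw [Finset.filter_eq_self]
        intro u hu
        have := Finset.filter_eq_empty_iff.1 hs hu
        cases s <;> simpa using this
      obtain ⟨z, hz, hzs, hz2⟩ := key s (by rw [hall]; exact hC)
      refine ⟨z, hz, ?_⟩
      rw [hall] at hz2
      rw [hwin, Finset.filter_insert, if_neg]
      · exact hz2
      · intro hm
        have := Finset.filter_eq_empty_iff.1 hs hm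
        rw [hs1, hzs] at this
        exact this rfl
    have step2 : ∀ s : Bool, (C.filter (fun u => side u = s)).Nonempty →
        2 * (C.filter (fun u => side u = s)).card ≤ C.card →
        ∃ z ∈ C, 2 ^ ((win a₀ a).filter (fun b => mu ω b z ∈ C)).card ≤ C.card := by
      intro s hs h2
      obtain ⟨z, hz, -, hz2⟩ := key s hs
      refine ⟨z, hz, ?_⟩
      have : ((win a₀ a).filter (fun b => mu ω b z ∈ C)).card
          ≤ ((win (a₀ + 1) a).filter (fun b => mu ω b z ∈ C)).card + 1 := by
        rw [hwin, Finset.filter_insert]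
        split_ifs
        · exact Finset.card_insert_le _ _
        · omega
      calc 2 ^ ((win a₀ a).filter (fun b => mu ω b z ∈ C)).card
          ≤ 2 ^ (((win (a₀ + 1) a).filter (fun b => mu ω b z ∈ C)).card + 1) :=
            Nat.pow_le_pow_right (by norm_num) this
        _ ≤ C.card := by rw [pow_succ]; omega
    rcases (C.filter (fun u => side u = false)).eq_empty_or_nonempty with h0 | h0
    · exact step1 true h0
    rcases (C.filter (fun u => side u = true)).eq_empty_or_nonempty with h1 | h1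
    · exact step1 false h1
    by_cases hle : (C.filter (fun u => side u = false)).card
        ≤ (C.filter (fun u => side u = true)).card
    · exact step2 false h0 (by omega)
    · exact step2 true h1 (by omega)

lemma card_win (a₀ : ℕ) (a : Fin D) : (win a₀ a).card = a - a₀ := by
  rw [← Nat.card_Ico]
  refine Finset.card_bij (fun b _ => (b : ℕ)) ?_ ?_ ?_
  · intro b hb
    rw [win, mem_filter] at hb
    exact mem_Ico.2 hb.2
  · intro b _ b' _ h
    exact Fin.ext h
  · intro n hn
    rw [mem_Ico] at hn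
    exact ⟨⟨n, by have := a.2; omega⟩, mem_filter.2 ⟨mem_univ _, hn⟩, rfl⟩

section orbits

variable {α : Type*} [Fintype α] [DecidableEq α]

def orb (π : Equiv.Perm α) (u : α) : Finset α := univ.filter (π.SameCycle u)

lemma mem_orb {π : Equiv.Perm α} {u v : α} : v ∈ orb π u ↔ π.SameCycle u v := by simp [orb]

lemma self_mem_orb (π : Equiv.Perm α) (u : α) : u ∈ orb π u := mem_orb.2 (Equiv.Perm.SameCycle.refl _ _)

lemma orb_eq_of_mem {π : Equiv.Perm α} {u v : α} (h : v ∈ orb π u) : orb π v = orb π u := by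
  ext w
  rw [mem_orb, mem_orb]
  exact ⟨fun h' => (mem_orb.1 h).trans h', fun h' => (mem_orb.1 h).symm.trans h'⟩

lemma iter_mem_orb (π : Equiv.Perm α) (u : α) (i : ℕ) : π^[i] u ∈ orb π u := by
  rw [mem_orb, ← Equiv.Perm.coe_pow, Equiv.Perm.sameCycle_pow_right]

lemma orb_subset {π : Equiv.Perm α} {t : Finset α} (ht : ∀ u ∈ t, π u ∈ t) {u : α} (hu : u ∈ t) :
    orb π u ⊆ t := by
  intro v hv
  obtain ⟨n, rfl⟩ := (mem_orb.1 hv).exists_nat_pow_eq
  rw [Equiv.Perm.coe_pow]
  clear hv
  induction n with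
  | zero => exact hu
  | succ n ih => rw [Function.iterate_succ_apply']; exact ht _ ih

lemma minimalPeriod_le_card_orb (π : Equiv.Perm α) (u : α) :
    Function.minimalPeriod π u ≤ (orb π u).card := by
  rw [← Finset.card_range (Function.minimalPeriod π u)]
  refine Finset.card_le_card_of_injOn (fun i => π^[i] u) (fun i _ => iter_mem_orb π u i) ?_
  intro i hi j hj h
  exact Function.iterate_injOn_Iio_minimalPeriod (by simpa using hi) (by simpa using hj) h

/-- The orbits contained in `V`. -/
def cyc (π : Equiv.Perm α) (V : Finset α) : Finset (Finset α) :=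
  (V.filter (fun u => orb π u ⊆ V)).image (orb π)

lemma mem_cyc {π : Equiv.Perm α} {V C : Finset α} (h : C ∈ cyc π V) :
    C ⊆ V ∧ C.Nonempty ∧ ∀ v ∈ C, orb π v = C := by
  simp only [cyc, mem_image, mem_filter] at h
  obtain ⟨u, ⟨-, hu⟩, rfl⟩ := h
  exact ⟨hu, ⟨u, self_mem_orb π u⟩, fun v hv => orb_eq_of_mem hv⟩

lemma cyc_long (π : Equiv.Perm α) (V : Finset α) (L : ℕ) :
    ((cyc π V).filter (fun C => ¬ C.card ≤ L)).card * L ≤ V.card := by
  set S := (cyc π V).filter (fun C => ¬ C.card ≤ L) with hS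
  have hdisj : (S : Set (Finset α)).PairwiseDisjoint id := by
    intro C hC C' hC' hne
    rw [Function.onFun, Finset.disjoint_left]
    intro v hv hv'
    have h1 := (mem_cyc (mem_filter.1 hC).1).2.2 v hv
    have h2 := (mem_cyc (mem_filter.1 hC').1).2.2 v hv'
    exact hne (h1.symm.trans h2)
  calc S.card * L = ∑ _C ∈ S, L := by simp
    _ ≤ ∑ C ∈ S, (id C).card := Finset.sum_le_sum fun C hC => by
        have := (mem_filter.1 hC).2
        simp only [id]; omega
    _ = (S.biUnion id).card := (Finset.card_biUnion hdisj).symm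
    _ ≤ V.card := Finset.card_le_card fun v hv => by
        obtain ⟨C, hC, hv⟩ := mem_biUnion.1 hv
        exact (mem_cyc (mem_filter.1 hC).1).1 hv

lemma card_pow_mem_notMem {β : Type*} [DecidableEq β] (S T : Finset β) (C : β) (hC : C ∈ S)
    (hT : T.card ≤ 1) (hCT : C ∉ T) :
    2 ^ S.card ≤ 4 * (S.powerset.filter (fun A => C ∈ A ∧ ∀ C' ∈ T, C' ∉ A)).card := by
  have h1 : 2 ^ (S \ insert C T).card
      ≤ (S.powerset.filter (fun A => C ∈ A ∧ ∀ C' ∈ T, C' ∉ A)).card := by
    rw [← Finset.card_powerset]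
    refine Finset.card_le_card_of_injOn (fun B => insert C B) ?_ ?_
    · intro B hB
      simp only [coe_powerset, Set.mem_preimage, Set.mem_powerset_iff, coe_subset] at hB
      simp only [coe_filter, mem_powerset, Set.mem_ofPred_eq, mem_insert, true_or, true_and]
      refine ⟨Finset.insert_subset hC (hB.trans sdiff_subset), ?_⟩
      intro C' hC' h
      rcases h with rfl | h
      · exact hCT hC'
      · exact (mem_sdiff.1 (hB h)).2 (mem_insert_of_mem hC')
    · intro B hB B' hB' h
      simp only [coe_powerset, Set.mem_preimage, Set.mem_powerset_iff, coe_subset] at hB hB'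
      have e1 : C ∉ B := fun h' => (mem_sdiff.1 (hB h')).2 (mem_insert_self _ _)
      have e2 : C ∉ B' := fun h' => (mem_sdiff.1 (hB' h')).2 (mem_insert_self _ _)
      have h' : insert C B = insert C B' := h
      rw [← Finset.erase_insert e1, h', Finset.erase_insert e2]
  have h2 : S.card ≤ (S \ insert C T).card + 2 := by
    have := Finset.le_card_sdiff (insert C T) S
    have := Finset.card_insert_le C T
    omega
  calc 2 ^ S.card ≤ 2 ^ ((S \ insert C T).card + 2) := Nat.pow_le_pow_right (by norm_num) h2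
    _ = 4 * 2 ^ (S \ insert C T).card := by ring
    _ ≤ _ := by omega

lemma two_mul_sum_card_powerset {β : Type*} [DecidableEq β] (S : Finset β) :
    2 * ∑ A ∈ S.powerset, A.card = S.card * 2 ^ S.card := by
  have h1 : ∑ A ∈ S.powerset, A.card = ∑ A ∈ S.powerset, (S \ A).card := by
    refine Finset.sum_nbij' (fun A => S \ A) (fun A => S \ A) ?_ ?_ ?_ ?_ ?_
    · intro A _; simp
    · intro A _; simp
    · intro A hA; exact Finset.sdiff_sdiff_eq_self (mem_powerset.1 hA)
    · intro A hA; exact Finset.sdiff_sdiff_eq_self (mem_powerset.1 hA)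
    · intro A hA; rw [Finset.sdiff_sdiff_eq_self (mem_powerset.1 hA)]
  rw [two_mul]
  nth_rewrite 2 [h1]
  rw [← Finset.sum_add_distrib, Finset.sum_congr rfl (g := fun _ => S.card)]
  · simp [mul_comm]
  · intro A hA
    have := Finset.card_sdiff_add_card_eq_card (mem_powerset.1 hA)
    omega

lemma jensen_exp {β : Type*} (s : Finset β) (X : β → ℝ) (m : ℝ) (h : s.card * m ≤ ∑ i ∈ s, X i) :
    s.card * Real.exp m ≤ ∑ i ∈ s, Real.exp (X i) := by
  have h1 : ∀ i ∈ s, Real.exp m * (X i - m + 1) ≤ Real.exp (X i) := by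
    intro i _
    have := Real.add_one_le_exp (X i - m)
    calc Real.exp m * (X i - m + 1) ≤ Real.exp m * Real.exp (X i - m) := by gcongr
      _ = Real.exp (X i) := by rw [← Real.exp_add]; congr 1; ring
  refine le_trans ?_ (Finset.sum_le_sum h1)
  rw [← Finset.mul_sum, Finset.sum_add_distrib, Finset.sum_sub_distrib]
  simp only [sum_const, nsmul_eq_mul, mul_one]
  have := Real.exp_pos m
  nlinarith

end orbits

lemma card_Zset_le_cyc {μ : Equiv.Perm (Pos D)} {a : Fin D} (hμ : ∀ u, μ u a = !u a)
    (ω : Bits D) (U : Finset (Pos D)) :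
    (Zset U μ (mu ω a)).card ≤ 2 ^ (cyc (piP μ ω a) (U.filter (fun u => u a = true))).card := by
  rw [← Finset.card_powerset]
  refine Finset.card_le_card_of_injOn
    (fun t => (cyc (piP μ ω a) (U.filter (fun u => u a = true))).filter (· ⊆ t)) ?_ ?_
  · intro t _
    exact mem_coe.2 (mem_powerset.2 (filter_subset _ _))
  · have key : ∀ t ∈ Zset U μ (mu ω a), ∀ t' ∈ Zset U μ (mu ω a),
        (cyc (piP μ ω a) (U.filter (fun u => u a = true))).filter (· ⊆ t)
          = (cyc (piP μ ω a) (U.filter (fun u => u a = true))).filter (· ⊆ t') → t ⊆ t' := by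
      intro t ht t' ht' h
      simp only [Zset, mem_filter, mem_powerset] at ht ht'
      have k1 : ∀ u ∈ t, u a = true → u ∈ t' := by
        intro u hu hua
        have hcl : ∀ v ∈ t.filter (fun u => u a = true),
            piP μ ω a v ∈ t.filter (fun u => u a = true) := by
          intro v hv
          rw [mem_filter] at hv ⊢
          exact ⟨ht.2.1 _ (ht.2.2 _ hv.1), by rw [piP_side hμ, hv.2]⟩
        have hsub := orb_subset hcl (mem_filter.2 ⟨hu, hua⟩)
        have hm : orb (piP μ ω a) u ∈
            (cyc (piP μ ω a) (U.filter (fun u => u a = true))).filter (· ⊆ t) := by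
          rw [mem_filter]
          refine ⟨?_, hsub.trans (filter_subset _ _)⟩
          refine mem_image.2 ⟨u, mem_filter.2 ⟨mem_filter.2 ⟨ht.1 hu, hua⟩, ?_⟩, rfl⟩
          exact hsub.trans (Finset.filter_subset_filter _ ht.1)
        rw [h] at hm
        exact (mem_filter.1 hm).2 (self_mem_orb _ _)
      intro u hu
      by_cases hua : u a = true
      · exact k1 u hu hua
      · have := ht'.2.2 _ (k1 _ (ht.2.2 u hu) (by rw [mu_self]; simpa using hua))
        simpa using this
    intro t ht t' ht' h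
    exact Finset.Subset.antisymm (key t ht t' ht' h) (key t' ht' t ht h.symm)

/-- Pointwise lower bound on the weighted count of closing codes. -/
lemma short_le_sum_codes {μ : Equiv.Perm (Pos D)} {a : Fin D} (a₀ : ℕ) (ha₀ : a₀ ≤ a)
    (ω : Bits D) (V : Finset (Pos D)) (g : ℕ) (θ : ℝ)
    (hθ : θ ≤ 1 + (((a : ℕ) - a₀ : ℕ) - g : ℝ) / 4 - g) :
    (2 : ℝ) ^ (θ * ((cyc (piP μ ω a) V).filter (fun C => C.card ≤ 2 ^ g)).card) ≤
      ∑ c ∈ (V ×ˢ Icc 1 (2 ^ g)).powerset, ((4 : ℝ) ^ g)⁻¹ ^ c.card *
        (if Closes μ a c ω then (2 : ℝ) ^ (FreeS μ a₀ a c ω).card else 0) := by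
  classical
  set π := piP μ ω a with hπ
  set S := (cyc π V).filter (fun C => C.card ≤ 2 ^ g) with hS
  have hSc : ∀ C ∈ S, C ⊆ V ∧ C.Nonempty ∧ ∀ v ∈ C, orb π v = C :=
    fun C hC => mem_cyc (mem_filter.1 hC).1
  have hz : ∀ C : Finset (Pos D), ∃ z : Pos D, C ∈ S →
      z ∈ C ∧ ((win a₀ a).filter (fun b => mu ω b z ∈ C)).card ≤ g := by
    intro C
    by_cases hC : C ∈ S
    · obtain ⟨z, hz, hz2⟩ := exists_few_partners ω a (a - a₀) a₀ (by omega) C (hSc C hC).2.1
      refine ⟨z, fun _ => ⟨hz, ?_⟩⟩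
      have := hz2.trans (mem_filter.1 hC).2
      exact (Nat.pow_le_pow_iff_right (by norm_num)).1 this
    · exact ⟨fun _ => false, fun h => absurd h hC⟩
  choose z hz using hz
  let cd : Finset (Pos D) → Pos D × ℕ := fun C => (π (z C), Function.minimalPeriod π (π (z C)))
  have hper : ∀ u, 0 < Function.minimalPeriod π u := fun u =>
    Function.minimalPeriod_pos_of_mem_periodicPts (π.injective.mem_periodicPts u)
  have hs_mem : ∀ C ∈ S, ∀ i, π^[i] (π (z C)) ∈ C := by
    intro C hC i
    rw [← Function.iterate_succ_apply]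
    have := iter_mem_orb π (z C) (i + 1)
    rwa [(hSc C hC).2.2 _ (hz C hC).1] at this
  have hclose : ∀ C, π^[(cd C).2 - 1] (cd C).1 = z C := by
    intro C
    apply π.injective
    have h1 := Function.iterate_minimalPeriod (f := π) (x := π (z C))
    have h2 : Function.minimalPeriod π (π (z C)) = (Function.minimalPeriod π (π (z C)) - 1) + 1 := by
      have := hper (π (z C)); omega
    rw [h2, Function.iterate_succ_apply'] at h1
    exact h1
  have hcd_inj : Set.InjOn cd S := by
    intro C hC C' hC' h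
    have h1 : π (z C) = π (z C') := congrArg Prod.fst h
    have h2 := π.injective h1
    rw [← (hSc C hC).2.2 _ (hz C hC).1, ← (hSc C' hC').2.2 _ (hz C' hC').1, h2]
  have hcode_sub : ∀ A ∈ S.powerset, A.image cd ∈ (V ×ˢ Icc 1 (2 ^ g)).powerset := by
    intro A hA
    rw [mem_powerset] at hA ⊢
    intro p hp
    obtain ⟨C, hC, rfl⟩ := mem_image.1 hp
    have hCS := hA hC
    rw [mem_product, mem_Icc]
    refine ⟨(hSc C hCS).1 (hs_mem C hCS 0), hper _, ?_⟩
    refine (minimalPeriod_le_card_orb π _).trans ?_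
    have h0 : π (z C) ∈ C := hs_mem C hCS 0
    rw [(hSc C hCS).2.2 _ h0]
    exact (mem_filter.1 hCS).2
  have hcode_inj : Set.InjOn (fun A : Finset (Finset (Pos D)) => A.image cd) S.powerset := by
    intro A hA A' hA' h
    have hA1 : A ⊆ S := mem_powerset.1 hA
    have hA2 : A' ⊆ S := mem_powerset.1 hA'
    have h' : A.image cd = A'.image cd := h
    ext C
    constructor
    · intro hC
      obtain ⟨C', hC', he⟩ := mem_image.1 (h' ▸ mem_image_of_mem cd hC)
      rwa [← hcd_inj (hA2 hC') (hA1 hC) he]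
    · intro hC
      obtain ⟨C', hC', he⟩ := mem_image.1 (h'.symm ▸ mem_image_of_mem cd hC)
      rwa [← hcd_inj (hA1 hC') (hA2 hC) he]
  have hcloses : ∀ A : Finset (Finset (Pos D)), Closes μ a (A.image cd) ω := by
    intro A p hp
    obtain ⟨C, -, rfl⟩ := mem_image.1 hp
    exact Function.iterate_minimalPeriod
  -- the number of free switches
  let good : Finset (Finset (Pos D)) → Finset (Finset (Pos D) × Fin D) := fun A =>
    (S ×ˢ win a₀ a).filter (fun q => q.1 ∈ A ∧ ∀ C' ∈ A, mu ω q.2 (z q.1) ∉ C')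
  have hfree : ∀ A ∈ S.powerset, (good A).card ≤ (FreeS μ a₀ a (A.image cd) ω).card := by
    intro A hA
    have hA1 : A ⊆ S := mem_powerset.1 hA
    refine Finset.card_le_card_of_injOn (fun q => sw ω (z q.1) q.2) ?_ ?_
    · rintro ⟨C, b⟩ hq
      simp only [good, coe_filter, mem_product, Set.mem_ofPred_eq] at hq
      obtain ⟨⟨hCS, hb⟩, hCA, hno⟩ := hq
      simp only [FreeS, coe_sdiff, Set.mem_sdiff, mem_coe]
      constructor
      · simp only [CloseS, mem_biUnion, mem_image]
        exact ⟨cd C, ⟨C, hCA, rfl⟩, b, hb, by rw [← hπ, hclose]⟩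
      · simp only [NonS, mem_biUnion, mem_image, mem_range, not_exists, not_and]
        rintro p ⟨C', hC', rfl⟩ i hi b' _ he
        have hbb : b' = b := congrArg Prod.fst he
        subst hbb
        rw [← hπ] at he
        have hm := hs_mem C' (hA1 hC') i
        rcases (sw_eq_iff ω _ _ _).1 he.symm with h1 | h1
        · have hCC : C' = C := by
            rw [← (hSc C' (hA1 hC')).2.2 _ hm, ← (hSc C hCS).2.2 _ (hz C hCS).1]
            exact congrArg _ h1
          subst hCC
          have h2 := hclose C'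
          have h3 : π^[i] (cd C').1 = π^[(cd C').2 - 1] (cd C').1 := by rw [h2]; exact h1
          have h4 := Function.iterate_injOn_Iio_minimalPeriod (f := π) (x := π (z C'))
            (show i < Function.minimalPeriod π (π (z C')) by
              have : i < Function.minimalPeriod π (π (z C')) - 1 := hi
              omega)
            (show (cd C').2 - 1 < Function.minimalPeriod π (π (z C')) by
              have := hper (π (z C'))
              show Function.minimalPeriod π (π (z C')) - 1 < _
              omega) h3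
          omega
        · exact hno C' hC' (h1 ▸ hm)
    · rintro ⟨C, b⟩ hq ⟨C', b'⟩ hq' he
      simp only [good, coe_filter, mem_product, Set.mem_ofPred_eq] at hq hq'
      have hbb : b = b' := congrArg Prod.fst he
      subst hbb
      rcases (sw_eq_iff ω _ _ _).1 he with h1 | h1
      · have : C = C' := by
          rw [← (hSc C hq.1.1).2.2 _ (hz C hq.1.1).1, ← (hSc C' hq'.1.1).2.2 _ (hz C' hq'.1.1).1]
          exact congrArg _ h1.symm
        rw [this]
      · exfalso
        exact hq.2.2 C' hq'.2.1 (h1 ▸ (hz C' hq'.1.1).1)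
  have hgood : (S.card * ((((a : ℕ) - a₀ : ℕ) : ℝ) - g)) * 2 ^ S.card
      ≤ 4 * ∑ A ∈ S.powerset, ((good A).card : ℝ) := by
    have e1 : ∑ A ∈ S.powerset, ((good A).card : ℝ) = ∑ C ∈ S, ∑ b ∈ win a₀ a,
        ((S.powerset.filter (fun A => C ∈ A ∧ ∀ C' ∈ A, mu ω b (z C) ∉ C')).card : ℝ) := by
      simp only [good, Finset.card_filter, Nat.cast_sum, Finset.sum_product]
      rw [Finset.sum_comm]
      refine Finset.sum_congr rfl fun C _ => ?_
      rw [Finset.sum_comm]
    rw [e1, Finset.mul_sum]
    have e2 : ∀ C ∈ S, ((((a : ℕ) - a₀ : ℕ) : ℝ) - g) * 2 ^ S.card ≤ 4 * ∑ b ∈ win a₀ a,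
        ((S.powerset.filter (fun A => C ∈ A ∧ ∀ C' ∈ A, mu ω b (z C) ∉ C')).card : ℝ) := by
      intro C hC
      have f1 : ∀ b ∈ (win a₀ a).filter (fun b => ¬ mu ω b (z C) ∈ C), (2 : ℝ) ^ S.card ≤
          4 * ((S.powerset.filter (fun A => C ∈ A ∧ ∀ C' ∈ A, mu ω b (z C) ∉ C')).card : ℝ) := by
        intro b hb
        have hb2 := (mem_filter.1 hb).2
        have f2 := card_pow_mem_notMem S (S.filter (fun C' => mu ω b (z C) ∈ C')) C hC
          (Finset.card_le_one.2 fun C₁ h₁ C₂ h₂ => by
            rw [mem_filter] at h₁ h₂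
            rw [← (hSc C₁ h₁.1).2.2 _ h₁.2, ← (hSc C₂ h₂.1).2.2 _ h₂.2])
          (fun h => hb2 (mem_filter.1 h).2)
        have f3 : S.powerset.filter (fun A => C ∈ A ∧
            ∀ C' ∈ S.filter (fun C' => mu ω b (z C) ∈ C'), C' ∉ A)
            ⊆ S.powerset.filter (fun A => C ∈ A ∧ ∀ C' ∈ A, mu ω b (z C) ∉ C') := by
          intro A hA
          rw [mem_filter] at hA ⊢
          refine ⟨hA.1, hA.2.1, fun C' hC' hm => hA.2.2 C' ?_ hC'⟩
          exact mem_filter.2 ⟨mem_powerset.1 hA.1 hC', hm⟩
        have f4 := Finset.card_le_card f3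
        have f5 : 2 ^ S.card ≤
            4 * (S.powerset.filter (fun A => C ∈ A ∧ ∀ C' ∈ A, mu ω b (z C) ∉ C')).card :=
          f2.trans (Nat.mul_le_mul_left 4 (le_of_eq_of_le (by congr) f4))
        exact_mod_cast f5
      have f6 : ((((a : ℕ) - a₀ : ℕ) : ℝ) - g)
          ≤ ((win a₀ a).filter (fun b => ¬ mu ω b (z C) ∈ C)).card := by
        have h1 := Finset.card_filter_add_card_filter_not (s := win a₀ a)
          (fun b => mu ω b (z C) ∈ C)
        rw [card_win] at h1
        have h2 := (hz C hC).2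
        have h3 : (a : ℕ) - a₀ ≤ ((win a₀ a).filter (fun b => ¬ mu ω b (z C) ∈ C)).card + g := by
          omega
        have h4 : (((a : ℕ) - a₀ : ℕ) : ℝ)
            ≤ ((win a₀ a).filter (fun b => ¬ mu ω b (z C) ∈ C)).card + g := by exact_mod_cast h3
        linarith
      calc ((((a : ℕ) - a₀ : ℕ) : ℝ) - g) * 2 ^ S.card
          ≤ ((win a₀ a).filter (fun b => ¬ mu ω b (z C) ∈ C)).card * 2 ^ S.card := by gcongr
        _ = ∑ _b ∈ (win a₀ a).filter (fun b => ¬ mu ω b (z C) ∈ C), (2 : ℝ) ^ S.card := by simp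
        _ ≤ ∑ b ∈ (win a₀ a).filter (fun b => ¬ mu ω b (z C) ∈ C), 4 *
            ((S.powerset.filter (fun A => C ∈ A ∧ ∀ C' ∈ A, mu ω b (z C) ∉ C')).card : ℝ) :=
          Finset.sum_le_sum f1
        _ ≤ ∑ b ∈ win a₀ a, 4 *
            ((S.powerset.filter (fun A => C ∈ A ∧ ∀ C' ∈ A, mu ω b (z C) ∉ C')).card : ℝ) :=
          Finset.sum_le_sum_of_subset_of_nonneg (filter_subset _ _) (fun _ _ _ => by positivity)
        _ = _ := by rw [Finset.mul_sum]
    calc (S.card * ((((a : ℕ) - a₀ : ℕ) : ℝ) - g)) * 2 ^ S.card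
        = ∑ _C ∈ S, ((((a : ℕ) - a₀ : ℕ) : ℝ) - g) * 2 ^ S.card := by simp [mul_assoc]
      _ ≤ _ := Finset.sum_le_sum e2
  have hcardA : (2 : ℝ) * ∑ A ∈ S.powerset, (A.card : ℝ) = S.card * 2 ^ S.card := by
    exact_mod_cast two_mul_sum_card_powerset S
  have hlog : 0 < Real.log 2 := Real.log_pos (by norm_num)
  have hJ := jensen_exp S.powerset
    (fun A => Real.log 2 * ((good A).card - 2 * g * A.card))
    (Real.log 2 * (S.card * ((((a : ℕ) - a₀ : ℕ) - g : ℝ) / 4 - g))) (by
      rw [← Finset.mul_sum, Finset.sum_sub_distrib, ← Finset.mul_sum, Finset.card_powerset]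
      push_cast
      have : (2 : ℝ) ^ S.card * (S.card * ((((a : ℕ) - a₀ : ℕ) - g : ℝ) / 4 - g))
          ≤ ∑ A ∈ S.powerset, ((good A).card : ℝ) - 2 * g * ∑ A ∈ S.powerset, (A.card : ℝ) := by
        have e : 2 * (g : ℝ) * ∑ A ∈ S.powerset, (A.card : ℝ) = g * (S.card * 2 ^ S.card) := by
          rw [← hcardA]; ring
        rw [e]
        nlinarith
      nlinarith)
  calc (2 : ℝ) ^ (θ * S.card)
      ≤ (2 : ℝ) ^ ((1 + (((a : ℕ) - a₀ : ℕ) - g : ℝ) / 4 - g) * S.card) := by
        gcongr
        norm_num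
    _ = S.powerset.card *
        Real.exp (Real.log 2 * (S.card * ((((a : ℕ) - a₀ : ℕ) - g : ℝ) / 4 - g))) := by
        rw [Finset.card_powerset, ← Real.rpow_def_of_pos (by norm_num)]
        push_cast
        rw [← Real.rpow_natCast, ← Real.rpow_add (by norm_num)]
        congr 1
        ring
    _ ≤ ∑ A ∈ S.powerset, Real.exp (Real.log 2 * ((good A).card - 2 * g * A.card)) := hJ
    _ ≤ ∑ A ∈ S.powerset, ((4 : ℝ) ^ g)⁻¹ ^ (A.image cd).card *
        (if Closes μ a (A.image cd) ω then (2 : ℝ) ^ (FreeS μ a₀ a (A.image cd) ω).card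
          else 0) := by
        refine Finset.sum_le_sum fun A hA => ?_
        rw [if_pos (hcloses A), Finset.card_image_of_injOn (hcd_inj.mono (mem_powerset.1 hA)),
          ← Real.rpow_def_of_pos (by norm_num), Real.rpow_sub (by norm_num), Real.rpow_natCast,
          div_eq_inv_mul]
        have e : (2 : ℝ) ^ (2 * (g : ℝ) * A.card) = ((4 : ℝ) ^ g) ^ A.card := by
          rw [show (2 * (g : ℝ) * A.card) = ((2 * g * A.card : ℕ) : ℝ) by push_cast; ring,
            Real.rpow_natCast, pow_mul, pow_mul]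
          norm_num
        rw [e, inv_pow]
        gcongr
        · norm_num
        · exact hfree A hA
    _ = ∑ c ∈ S.powerset.image (fun A => A.image cd), ((4 : ℝ) ^ g)⁻¹ ^ c.card *
        (if Closes μ a c ω then (2 : ℝ) ^ (FreeS μ a₀ a c ω).card else 0) :=
        (Finset.sum_image (f := fun c => ((4 : ℝ) ^ g)⁻¹ ^ c.card *
          (if Closes μ a c ω then (2 : ℝ) ^ (FreeS μ a₀ a c ω).card else 0)) hcode_inj).symm
    _ ≤ _ := by
        refine Finset.sum_le_sum_of_subset_of_nonneg ?_ (fun _ _ _ => by positivity)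
        intro c hc
        obtain ⟨A, hA, rfl⟩ := mem_image.1 hc
        exact hcode_sub A hA

end Crest.Agent.R155
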