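import Mathlib
import Crest.Agent.R155.Net

/-! The looping inequality for the forward-backward network. -/

open Finset BigOperators

namespace Crest.Agent.R155

set_option linter.unusedSectionVars false

variable {D : ℕ} {ι : Type*} [Fintype ι] [DecidableEq ι]

def sg (b : Bool) : ℝ := if b then -1 else 1

lemma sg_not (b : Bool) : sg (!b) = - sg b := by cases b <;> simp [sg]

lemma abs_sg (b : Bool) : |sg b| = 1 := by cases b <;> simp [sg]

def ClosedT (a : Fin D) (x : ι ↪ Pos D) (t : Finset ι) : Prop :=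
  ∀ i ∈ t, ∃ i' ∈ t, x i' = flp a (x i)

instance (a : Fin D) (x : ι ↪ Pos D) : DecidablePred (ClosedT a x) := by
  unfold ClosedT; infer_instance

def Zc (a : Fin D) (x y : ι ↪ Pos D) : ℕ :=
  (univ.filter (fun t : Finset ι => ClosedT a x t ∧ ClosedT a y t)).card

lemma Zc_pos (a : Fin D) (x y : ι ↪ Pos D) : 0 < Zc a x y :=
  Finset.card_pos.2 ⟨∅, Finset.mem_filter.2 ⟨mem_univ _, by simp [ClosedT]⟩⟩

lemma expect_sg_prod_eq_zero (a : Fin D) (x : ι ↪ Pos D) (t : Finset ι) (h : ¬ ClosedT a x t) :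
    𝔼 ω : Bits D, ∏ i ∈ t, sg (ω (a, canon a (x i))) = 0 := by
  unfold ClosedT at h
  push Not at h
  obtain ⟨i₀, hi₀, hne⟩ := h
  set s₀ : Fin D × Pos D := (a, canon a (x i₀)) with hs₀
  let g : Bits D → Bits D := fun ω => Function.update ω s₀ (!ω s₀)
  have hg : Function.Involutive g := by
    intro ω
    simp [g]
  have key : ∀ ω : Bits D, ∏ i ∈ t, sg (g ω (a, canon a (x i)))
      = - ∏ i ∈ t, sg (ω (a, canon a (x i))) := by
    intro ω
    rw [← Finset.mul_prod_erase t _ hi₀, ← Finset.mul_prod_erase t _ hi₀]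
    have h1 : g ω (a, canon a (x i₀)) = !ω (a, canon a (x i₀)) := by simp [g, hs₀]
    rw [h1, sg_not, neg_mul]
    congr 2
    refine Finset.prod_congr rfl fun i hi => ?_
    have hi' := Finset.mem_erase.1 hi
    have : (a, canon a (x i)) ≠ s₀ := by
      intro he
      rw [hs₀, Prod.mk.injEq] at he
      rcases canon_eq_iff.1 he.2.symm with h2 | h2
      · exact hi'.1 (x.injective h2)
      · exact hne i hi'.2 h2
    simp [g, Function.update_of_ne this]
  have h2 : 𝔼 ω : Bits D, ∏ i ∈ t, sg (ω (a, canon a (x i)))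
      = 𝔼 ω : Bits D, - ∏ i ∈ t, sg (ω (a, canon a (x i))) :=
    (Fintype.expect_equiv hg.toPerm _ _ (fun ω => (key ω).symm)).symm
  rw [Finset.expect_neg_distrib] at h2
  linarith

lemma abs_expect_sg_prod_le (a : Fin D) (x : ι ↪ Pos D) (t : Finset ι) :
    |𝔼 ω : Bits D, ∏ i ∈ t, sg (ω (a, canon a (x i)))| ≤ if ClosedT a x t then 1 else 0 := by
  split_ifs with h
  · refine (Finset.abs_expect_le _ _).trans ?_
    refine Finset.expect_le univ_nonempty fun ω _ => ?_
    rw [Finset.abs_prod]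
    simp [abs_sg]
  · rw [expect_sg_prod_eq_zero a x t h, abs_zero]

lemma agree_prob (a : Fin D) (x y : ι ↪ Pos D) :
    𝔼 ω₁ : Bits D, 𝔼 ω₂ : Bits D,
      (if ∀ i, lay ω₁ a (x i) a = lay ω₂ a (y i) a then (1 : ℝ) else 0)
      ≤ (Zc a x y : ℝ) / 2 ^ Fintype.card ι := by
  have h1 : ∀ ω₁ ω₂ : Bits D,
      (if ∀ i, lay ω₁ a (x i) a = lay ω₂ a (y i) a then (1 : ℝ) else 0)
      = (∑ t : Finset ι, (∏ i ∈ t, sg (x i a) * sg (y i a)) *
          ((∏ i ∈ t, sg (ω₁ (a, canon a (x i)))) * ∏ i ∈ t, sg (ω₂ (a, canon a (y i)))))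
          / 2 ^ Fintype.card ι := by
    intro ω₁ ω₂
    have h2 : (∑ t : Finset ι, (∏ i ∈ t, sg (x i a) * sg (y i a)) *
          ((∏ i ∈ t, sg (ω₁ (a, canon a (x i)))) * ∏ i ∈ t, sg (ω₂ (a, canon a (y i)))))
        = ∏ i, (1 + sg (x i a) * sg (y i a) *
          (sg (ω₁ (a, canon a (x i))) * sg (ω₂ (a, canon a (y i))))) := by
      rw [Finset.prod_one_add, Finset.powerset_univ]
      refine Finset.sum_congr rfl fun t _ => ?_
      simp only [Finset.prod_mul_distrib]
    rw [h2, ← Finset.card_univ, ← Finset.prod_const, ← Finset.prod_div_distrib,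
      ← Fintype.prod_boole]
    refine Finset.prod_congr rfl fun i _ => ?_
    simp only [lay, layer_self]
    cases x i a <;> cases y i a <;> cases ω₁ (a, canon a (x i)) <;>
      cases ω₂ (a, canon a (y i)) <;> norm_num [sg]
  simp_rw [h1, ← Finset.expect_div, Finset.expect_sum_comm, ← Finset.mul_expect,
    ← Finset.expect_mul]
  gcongr
  unfold Zc
  rw [Finset.card_filter]
  push_cast
  refine Finset.sum_le_sum fun t _ => ?_
  refine (le_abs_self _).trans ?_
  rw [abs_mul, abs_mul, Finset.abs_prod]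
  have h3 : ∏ i ∈ t, |sg (x i a) * sg (y i a)| = 1 := by simp [abs_mul, abs_sg]
  rw [h3, one_mul]
  refine (mul_le_mul (abs_expect_sg_prod_le a x t) (abs_expect_sg_prod_le a y t) (abs_nonneg _)
    (by split_ifs <;> norm_num)).trans ?_
  by_cases hx : ClosedT a x t <;> by_cases hy : ClosedT a y t <;> simp [hx, hy]

lemma closedT_lay (ω : Bits D) (a : Fin D) (x : ι ↪ Pos D) (t : Finset ι) :
    ClosedT a (lay ω a • x) t ↔ ClosedT a x t := by
  unfold ClosedT
  refine forall₂_congr fun i _ => exists_congr fun i' => and_congr_right fun _ => ?_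
  simp only [Function.Embedding.smul_apply, Equiv.Perm.smul_def, lay]
  rw [← layer_flp]
  exact (layer _ _).injective.eq_iff

lemma Zc_le_Zw (ω₁ ω₂ : Bits D) (a : Fin D) (z : ι ↪ Pos D) :
    (Zc a (sig ω₁ a • z) (sig ω₂ a • z) : ℝ) ≤ Zw ω₁ ω₂ (univ.map z) a := by
  unfold Zw
  rw [dif_pos a.2]
  norm_cast
  unfold Zc
  refine Finset.card_le_card_of_injOn (fun t => t.map z) ?_ ?_
  · intro t ht
    simp only [coe_filter, mem_univ, true_and, Set.mem_ofPred_eq] at ht
    simp only [Zset, coe_filter, mem_powerset, Set.mem_ofPred_eq]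
    refine ⟨Finset.map_subset_map.2 (subset_univ _), ?_, ?_⟩
    · intro u hu
      obtain ⟨i, hi, rfl⟩ := Finset.mem_map.1 hu
      obtain ⟨i', hi', he⟩ := ht.1 i hi
      exact Finset.mem_map.2 ⟨i', hi', (eq_mu_iff ω₁ a _ _).2 he⟩
    · intro u hu
      obtain ⟨i, hi, rfl⟩ := Finset.mem_map.1 hu
      obtain ⟨i', hi', he⟩ := ht.2 i hi
      exact Finset.mem_map.2 ⟨i', hi', (eq_mu_iff ω₂ a _ _).2 he⟩
  · intro t _ t' _ h
    exact Finset.map_injective z h

/-- The total loop weight of the first `l` levels. -/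
noncomputable def Wt (ω₁ ω₂ : Bits D) (U : Finset (Pos D)) (l : ℕ) : ℝ :=
  ∏ a ∈ range l, Zw ω₁ ω₂ U a

lemma Wt_pos (ω₁ ω₂ : Bits D) (U : Finset (Pos D)) (l : ℕ) : 0 < Wt ω₁ ω₂ U l :=
  Finset.prod_pos fun _ _ => Zw_pos _ _ _ _

lemma Wt_symm (ω₁ ω₂ : Bits D) (U : Finset (Pos D)) (l : ℕ) :
    Wt ω₁ ω₂ U l = Wt ω₂ ω₁ U l :=
  Finset.prod_congr rfl fun _ _ => Zw_symm _ _ _ _

noncomputable def loopF (l : ℕ) (x y : ι ↪ Pos D) (ω₁ ω₂ : Bits D) : ℝ :=
  if sig ω₂ l • (sig ω₁ l)⁻¹ • x = y then (Wt ω₁ ω₂ (univ.map ((sig ω₁ l)⁻¹ • x)) l)⁻¹ else 0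

theorem looping (l : ℕ) (hl : l ≤ D) (x y : ι ↪ Pos D) :
    𝔼 ω₁ : Bits D, 𝔼 ω₂ : Bits D, loopF l x y ω₁ ω₂ ≤ ((2 ^ Fintype.card ι : ℝ)⁻¹) ^ l := by
  induction l generalizing x y with
  | zero =>
    refine Finset.expect_le univ_nonempty fun ω₁ _ => Finset.expect_le univ_nonempty fun ω₂ _ => ?_
    unfold loopF
    split_ifs <;> simp [Wt]
  | succ l ih =>
    have hlD : l < D := hl
    set a : Fin D := ⟨l, hlD⟩ with ha
    let p : Fin D × Pos D → Prop := fun s => (s.1 : ℕ) < l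
    have hpt : ∀ ω₁ ω₁' ω₂ ω₂' : Bits D, loopF (l + 1) x y (mrg p ω₁ ω₁') (mrg p ω₂ ω₂') ≤
        (Zc a x y : ℝ)⁻¹ * ((if ∀ i, lay ω₁' a (x i) a = lay ω₂' a (y i) a then (1 : ℝ) else 0) *
          loopF l (lay ω₁' a • x) (lay ω₂' a • y) ω₁ ω₂) := by
      intro ω₁ ω₁' ω₂ ω₂'
      have e1 : ∀ ω ω' : Bits D, ∀ b ≤ l, ∀ s : Fin D × Pos D, (s.1 : ℕ) < b →
          mrg p ω ω' s = ω s := by
        intro ω ω' b hb s hs
        have : p s := lt_of_lt_of_le hs hb
        simp [mrg, this]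
      have e2 : ∀ ω ω' : Bits D, sig (mrg p ω ω') (l + 1) = lay ω' a * sig ω l := by
        intro ω ω'
        rw [sig_succ _ hlD, sig_congr l (e1 ω ω' l le_rfl)]
        congr 1
        unfold lay
        congr 1
        ext u
        simp [mrg, p, a]
      have hZ : (0 : ℝ) < Zc a x y := by exact_mod_cast Zc_pos a x y
      unfold loopF
      rw [e2, e2, mul_inv_rev, lay_inv, mul_smul, mul_smul]
      set z := (sig ω₁ l)⁻¹ • lay ω₁' a • x with hz
      split_ifs with h1 h2 h3 h3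
      · have hx : sig ω₁ a • z = lay ω₁' a • x := by simp [hz, a]
        have hy : sig ω₂ a • z = lay ω₂' a • y := h3
        have hW : Wt (mrg p ω₁ ω₁') (mrg p ω₂ ω₂') (univ.map z) (l + 1)
            = Wt ω₁ ω₂ (univ.map z) l * Zw ω₁ ω₂ (univ.map z) l := by
          unfold Wt
          rw [Finset.prod_range_succ]
          congr 1
          · refine Finset.prod_congr rfl fun b hb => ?_
            have hb' := (Finset.mem_range.1 hb).le
            exact Zw_congr _ _ (e1 _ _ b hb') (e1 _ _ b hb')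
          · exact Zw_congr _ _ (e1 _ _ l le_rfl) (e1 _ _ l le_rfl)
        have hZc : (Zc a x y : ℝ) ≤ Zw ω₁ ω₂ (univ.map z) l := by
          have := Zc_le_Zw ω₁ ω₂ a z
          rw [hx, hy] at this
          refine le_of_eq_of_le ?_ this
          unfold Zc
          simp only [closedT_lay]
        rw [hW, mul_inv, one_mul, mul_comm]
        gcongr
        exact (inv_pos.2 (Wt_pos _ _ _ _)).le
      · exfalso
        apply h3
        rw [← h1, smul_smul (lay ω₂' a) (lay ω₂' a), lay, layer_mul_self, one_smul]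
      · exfalso
        apply h2
        intro i
        have hy : lay ω₂' a (y i) = sig ω₂ l (z i) := by
          rw [← h1]
          simp [lay]
        rw [hy, sig_apply_ge ω₂ l _ a le_rfl, hz]
        simp only [Function.Embedding.smul_apply, Equiv.Perm.smul_def]
        rw [sig_inv_apply_ge ω₁ l _ a le_rfl]
      · exfalso
        apply h2
        intro i
        have hy : lay ω₂' a (y i) = sig ω₂ l (z i) := by
          rw [← h1]
          simp [lay]
        rw [hy, sig_apply_ge ω₂ l _ a le_rfl, hz]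
        simp only [Function.Embedding.smul_apply, Equiv.Perm.smul_def]
        rw [sig_inv_apply_ge ω₁ l _ a le_rfl]
      all_goals
        have := Wt_pos ω₁ ω₂ (univ.map z) l
        positivity
    have hZ : (0 : ℝ) < Zc a x y := by exact_mod_cast Zc_pos a x y
    calc 𝔼 ω₁ : Bits D, 𝔼 ω₂ : Bits D, loopF (l + 1) x y ω₁ ω₂
        = 𝔼 ω₁ : Bits D, 𝔼 ω₁' : Bits D, 𝔼 ω₂ : Bits D, 𝔼 ω₂' : Bits D,
            loopF (l + 1) x y (mrg p ω₁ ω₁') (mrg p ω₂ ω₂') := by
          rw [expect_mrg p]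
          refine Finset.expect_congr rfl fun ω₁ _ => Finset.expect_congr rfl fun ω₁' _ => ?_
          rw [expect_mrg p]
      _ ≤ 𝔼 ω₁ : Bits D, 𝔼 ω₁' : Bits D, 𝔼 ω₂ : Bits D, 𝔼 ω₂' : Bits D,
            (Zc a x y : ℝ)⁻¹ *
              ((if ∀ i, lay ω₁' a (x i) a = lay ω₂' a (y i) a then (1 : ℝ) else 0) *
              loopF l (lay ω₁' a • x) (lay ω₂' a • y) ω₁ ω₂) :=
          Finset.expect_le_expect fun ω₁ _ => Finset.expect_le_expect fun ω₁' _ =>
            Finset.expect_le_expect fun ω₂ _ => Finset.expect_le_expect fun ω₂' _ =>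
              hpt ω₁ ω₁' ω₂ ω₂'
      _ = 𝔼 ω₁' : Bits D, 𝔼 ω₂' : Bits D, (Zc a x y : ℝ)⁻¹ *
              ((if ∀ i, lay ω₁' a (x i) a = lay ω₂' a (y i) a then (1 : ℝ) else 0) *
              𝔼 ω₁ : Bits D, 𝔼 ω₂ : Bits D, loopF l (lay ω₁' a • x) (lay ω₂' a • y) ω₁ ω₂) := by
          rw [Finset.expect_comm]
          refine Finset.expect_congr rfl fun ω₁' _ => ?_
          simp_rw [Finset.mul_expect]
          symm
          rw [Finset.expect_comm]
          refine Finset.expect_congr rfl fun ω₁ _ => ?_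
          rw [Finset.expect_comm]
      _ ≤ 𝔼 ω₁' : Bits D, 𝔼 ω₂' : Bits D, (Zc a x y : ℝ)⁻¹ *
              ((if ∀ i, lay ω₁' a (x i) a = lay ω₂' a (y i) a then (1 : ℝ) else 0) *
              ((2 ^ Fintype.card ι : ℝ)⁻¹) ^ l) := by
          refine Finset.expect_le_expect fun ω₁' _ => Finset.expect_le_expect fun ω₂' _ => ?_
          gcongr
          exact ih hlD.le _ _
      _ = (Zc a x y : ℝ)⁻¹ * ((𝔼 ω₁' : Bits D, 𝔼 ω₂' : Bits D,
              (if ∀ i, lay ω₁' a (x i) a = lay ω₂' a (y i) a then (1 : ℝ) else 0)) *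
              ((2 ^ Fintype.card ι : ℝ)⁻¹) ^ l) := by
          simp_rw [Finset.expect_mul, Finset.mul_expect]
      _ ≤ (Zc a x y : ℝ)⁻¹ * (((Zc a x y : ℝ) / 2 ^ Fintype.card ι) *
              ((2 ^ Fintype.card ι : ℝ)⁻¹) ^ l) := by
          gcongr
          exact agree_prob a x y
      _ = ((2 ^ Fintype.card ι : ℝ)⁻¹) ^ (l + 1) := by
          rw [pow_succ]
          field_simp

end Crest.Agent.R155
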