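import Mathlib
import Crest.Agent.R155.Net

/-! Negative dependence of the butterfly and the low-level loop weights. -/

open Finset BigOperators

namespace Crest.Agent.R155

variable {D : ℕ}

lemma expect_prod_pi {S : Type*} [Fintype S] [DecidableEq S] (F : S → Bool → ℝ) :
    𝔼 c : S → Bool, ∏ s, F s (c s) = ∏ s, (F s false + F s true) / 2 := by
  rw [Fintype.expect_eq_sum_div_card, Finset.prod_div_distrib]
  have h := Finset.prod_univ_sum (fun _ : S => (univ : Finset Bool)) F
  rw [Fintype.piFinset_univ] at h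
  rw [← h]
  simp [add_comm]

lemma layer_prod_le (a : Fin D) (g : Pos D → ℝ) (hg : ∀ x, 0 ≤ g x) (Y : Finset (Pos D)) :
    𝔼 c : Pos D → Bool, ∏ y ∈ Y, g (layer a c y) ≤ ∏ y ∈ Y, (g y + g (flp a y)) / 2 := by
  have h1 : ∀ c : Pos D → Bool, ∏ y ∈ Y, g (layer a c y) = ∏ κ : Pos D,
      ∏ y ∈ Y.filter (fun y => canon a y = κ), g (if c κ then flp a y else y) := by
    intro c
    rw [← Finset.prod_fiberwise Y (canon a)]
    refine Finset.prod_congr rfl fun κ _ => Finset.prod_congr rfl fun y hy => ?_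
    rw [layer_apply, (mem_filter.1 hy).2]
  simp_rw [h1]
  rw [expect_prod_pi (fun κ b => ∏ y ∈ Y.filter (fun y => canon a y = κ),
    g (if b then flp a y else y)), ← Finset.prod_fiberwise Y (canon a)]
  refine Finset.prod_le_prod (fun κ _ => ?_) fun κ _ => ?_
  · exact div_nonneg (add_nonneg (Finset.prod_nonneg fun _ _ => hg _)
      (Finset.prod_nonneg fun _ _ => hg _)) (by norm_num)
  rcases (Y.filter (fun y => canon a y = κ)).eq_empty_or_nonempty with h | ⟨y₀, hy₀⟩
  · simp [h]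
  have hsub : ∀ y ∈ Y.filter (fun y => canon a y = κ), y = y₀ ∨ y = flp a y₀ := by
    intro y hy
    exact canon_eq_iff.1 ((mem_filter.1 hy₀).2.trans (mem_filter.1 hy).2.symm)
  by_cases h2 : flp a y₀ ∈ Y.filter (fun y => canon a y = κ)
  · have : Y.filter (fun y => canon a y = κ) = {y₀, flp a y₀} := by
      ext y
      simp only [mem_insert, mem_singleton]
      exact ⟨hsub y, by rintro (rfl | rfl) <;> assumption⟩
    rw [this]
    simp only [Finset.prod_pair (flp_ne_self a y₀).symm, flp_flp]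
    simp only [Bool.false_eq_true, if_false, if_true]
    nlinarith [sq_nonneg (g y₀ - g (flp a y₀))]
  · have : Y.filter (fun y => canon a y = κ) = {y₀} := by
      ext y
      simp only [mem_singleton]
      refine ⟨fun hy => ?_, by rintro rfl; assumption⟩
      rcases hsub y hy with h | h
      · exact h
      · exact absurd (h ▸ hy) h2
    rw [this]
    simp

noncomputable def av (l : ℕ) (g : Pos D → ℝ) (y : Pos D) : ℝ :=
  𝔼 w : Pos D, g (mrg (fun i : Fin D => (i : ℕ) < l) w y)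

lemma av_succ (a : Fin D) (g : Pos D → ℝ) (y : Pos D) :
    av a (fun x => (g x + g (flp a x)) / 2) y = av (a + 1) g y := by
  unfold av
  have h1 : 𝔼 w : Pos D, g (mrg (fun i : Fin D => (i : ℕ) < a + 1) w y)
      = 𝔼 w : Pos D, g (mrg (fun i : Fin D => (i : ℕ) < a + 1) (flp a w) y) :=
    (Fintype.expect_equiv (flpP a) _ _ (fun w => rfl)).symm
  have h2 : 𝔼 w : Pos D, g (mrg (fun i : Fin D => (i : ℕ) < a + 1) w y)
      = 𝔼 w : Pos D, (g (mrg (fun i : Fin D => (i : ℕ) < a + 1) w y) +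
        g (mrg (fun i : Fin D => (i : ℕ) < a + 1) (flp a w) y)) / 2 := by
    rw [← Finset.expect_div, Finset.expect_add_distrib, ← h1]; ring
  rw [h2]
  refine Finset.expect_congr rfl fun w _ => ?_
  have e : ∀ w' : Pos D, (∀ i, i ≠ a → w' i = w i) →
      mrg (fun i : Fin D => (i : ℕ) < a + 1) w' y =
        if w' a = y a then mrg (fun i : Fin D => (i : ℕ) < a) w y
        else flp a (mrg (fun i : Fin D => (i : ℕ) < a) w y) := by
    intro w' hw'
    ext i
    by_cases hi : i = a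
    · subst hi
      split_ifs with h
      · simp [mrg, h]
      · rw [flp_self]
        simp only [mrg, Nat.lt_succ_self, if_true, lt_irrefl, if_false]
        revert h
        cases w' i <;> cases y i <;> simp
    · have hi' : (i : ℕ) ≠ a := fun h => hi (Fin.ext h)
      have : ((i : ℕ) < a + 1) ↔ ((i : ℕ) < a) := by omega
      split_ifs
      · simp [mrg, this, hw' i hi]
      · rw [flp_ne hi]; simp [mrg, this, hw' i hi]
  rw [e w (fun _ _ => rfl), e (flp a w) (fun i hi => flp_ne hi w), flp_self]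
  cases w a <;> cases y a <;> simp [add_comm]

lemma sig_prod_le (l : ℕ) (hl : l ≤ D) (g : Pos D → ℝ) (hg : ∀ x, 0 ≤ g x)
    (Y : Finset (Pos D)) :
    𝔼 ω : Bits D, ∏ y ∈ Y, g (sig ω l y) ≤ ∏ y ∈ Y, av l g y := by
  induction l generalizing g with
  | zero =>
    have : ∀ w y : Pos D, mrg (fun i : Fin D => (i : ℕ) < 0) w y = y := by
      intro w y; ext i; simp [mrg]
    simp only [av, this, sig_zero, Finset.expect_const univ_nonempty]
    rfl
  | succ l ih =>
    have hlD : l < D := hl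
    set a : Fin D := ⟨l, hlD⟩ with ha
    rw [expect_mrg (fun s : Fin D × Pos D => (s.1 : ℕ) < l)]
    have e2 : ∀ ω ω' : Bits D, sig (mrg (fun s : Fin D × Pos D => (s.1 : ℕ) < l) ω ω') (l + 1)
        = lay ω' a * sig ω l := by
      intro ω ω'
      rw [sig_succ _ hlD, sig_congr (ω' := ω) l (fun s hs => by simp [mrg, hs])]
      congr 1
      unfold lay
      congr 1
      ext u
      simp [mrg, a]
    simp_rw [e2]
    refine le_trans (Finset.expect_le_expect fun ω _ => ?_)
      ((ih hlD.le (fun x => (g x + g (flp a x)) / 2)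
        (fun x => div_nonneg (add_nonneg (hg _) (hg _)) (by norm_num))).trans (le_of_eq ?_))
    · have h1 := layer_prod_le a g hg (Y.map (sig ω l).toEmbedding)
      simp_rw [Finset.prod_map] at h1
      refine le_of_eq_of_le ?_ h1
      exact expect_comp_inj (fun x : Pos D => (a, x)) (fun x y h => congrArg Prod.snd h)
        (fun c => ∏ y ∈ Y, g (layer a c (sig ω l y)))
    · exact Finset.prod_congr rfl fun y _ => av_succ a g y

lemma sig_prod_le' (g : Pos D → ℝ) (hg : ∀ x, 0 ≤ g x) (Y : Finset (Pos D)) :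
    𝔼 ω : Bits D, ∏ y ∈ Y, g (sig ω D y) ≤ (𝔼 w, g w) ^ Y.card := by
  refine (sig_prod_le D le_rfl g hg Y).trans (le_of_eq ?_)
  rw [← Finset.prod_const]
  refine Finset.prod_congr rfl fun y _ => Finset.expect_congr rfl fun w _ => ?_
  congr 1
  ext i
  simp [mrg]

/-- Marked edges of the matching. -/
def edg (U : Finset (Pos D)) (μ : Equiv.Perm (Pos D)) (a : Fin D) : Finset (Pos D) :=
  U.filter (fun u => u a = true ∧ μ u ∈ U)

lemma card_Zset_le_edg (U : Finset (Pos D)) (μ : Equiv.Perm (Pos D)) (ω : Bits D) (a : Fin D) :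
    (Zset U μ (mu ω a)).card ≤ 2 ^ (edg U (mu ω a) a).card := by
  rw [← Finset.card_powerset]
  refine Finset.card_le_card_of_injOn (fun t => t.filter (fun u => u a = true)) ?_ ?_
  · intro t ht
    simp only [Zset, coe_filter, mem_powerset, Set.mem_ofPred_eq] at ht
    refine mem_coe.2 (mem_powerset.2 fun u hu => ?_)
    rw [mem_filter] at hu
    exact mem_filter.2 ⟨ht.1 hu.1, hu.2, ht.1 (ht.2.2 u hu.1)⟩
  · have key : ∀ t ∈ Zset U μ (mu ω a), ∀ t' ∈ Zset U μ (mu ω a),
        t.filter (fun u => u a = true) = t'.filter (fun u => u a = true) → t ⊆ t' := by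
      intro t ht t' ht' h
      simp only [Zset, mem_filter, mem_powerset] at ht ht'
      have k1 : ∀ u ∈ t, u a = true → u ∈ t' := by
        intro u hu hua
        have : u ∈ t'.filter (fun u => u a = true) := h ▸ mem_filter.2 ⟨hu, hua⟩
        exact (mem_filter.1 this).1
      intro u hu
      by_cases hua : u a = true
      · exact k1 u hu hua
      · have := ht'.2.2 _ (k1 _ (ht.2.2 u hu) (by rw [mu_self]; simpa using hua))
        simpa using this
    intro t ht t' ht' h
    exact Finset.Subset.antisymm (key t ht t' ht' h) (key t' ht' t ht h.symm)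

lemma two_mul_card_edg (U : Finset (Pos D)) (ω : Bits D) (a : Fin D) :
    2 * (edg U (mu ω a) a).card ≤ U.card := by
  have h1 : (edg U (mu ω a) a).card ≤ (U.filter (fun u => u a = true)).card :=
    Finset.card_le_card fun u hu => by
      rw [edg, mem_filter] at hu
      exact mem_filter.2 ⟨hu.1, hu.2.1⟩
  have h2 : (edg U (mu ω a) a).card ≤ (U.filter (fun u => ¬ u a = true)).card := by
    refine Finset.card_le_card_of_injOn (mu ω a) ?_ (mu ω a).injective.injOn
    intro u hu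
    rw [edg, mem_coe, mem_filter] at hu
    exact mem_coe.2 (mem_filter.2 ⟨hu.2.2, by rw [mu_self, hu.2.1]; simp⟩)
  have h3 := Finset.card_filter_add_card_filter_not (s := U) (fun u => u a = true)
  omega

lemma Zw_sq_le (ω₁ ω₂ : Bits D) (U : Finset (Pos D)) (l : ℕ) :
    Zw ω₁ ω₂ U l ^ 2 ≤ 2 ^ U.card := by
  unfold Zw
  split_ifs with h
  · have h1 := card_Zset_le_edg U (mu ω₁ ⟨l, h⟩) ω₂ ⟨l, h⟩
    have h2 := two_mul_card_edg U ω₂ ⟨l, h⟩
    have h3 : (Zset U (mu ω₁ ⟨l, h⟩) (mu ω₂ ⟨l, h⟩)).card ^ 2 ≤ 2 ^ U.card := by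
      calc _ ≤ (2 ^ (edg U (mu ω₂ ⟨l, h⟩) ⟨l, h⟩).card) ^ 2 := Nat.pow_le_pow_left h1 2
        _ = 2 ^ (2 * (edg U (mu ω₂ ⟨l, h⟩) ⟨l, h⟩).card) := by ring
        _ ≤ _ := Nat.pow_le_pow_right (by norm_num) h2
    exact_mod_cast h3
  · rw [one_pow]
    exact one_le_pow₀ (by norm_num)

/-- Exponential moment of the number of marked edges after a full pass. -/
lemma edg_moment (X : Finset (Pos D)) (ω₂ : Bits D) (a : Fin D) (q : ℝ) (hq : 1 ≤ q) :
    𝔼 ω₁ : Bits D, q ^ (edg (X.map (sig ω₁ D)⁻¹.toEmbedding) (mu ω₂ a) a).card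
      ≤ Real.exp (q * (X.card : ℝ) ^ 2 / 2 ^ D) := by
  classical
  set μ := mu ω₂ a with hμ
  let g : Pos D → ℝ := fun y => if y ∈ X then 1 else 0
  have hg : ∀ y, 0 ≤ g y := fun y => by simp only [g]; split_ifs <;> norm_num
  let S : Finset (Pos D) := univ.filter (fun u => u a = true)
  set ρ : ℝ := X.card / 2 ^ D with hρ
  have hρ0 : 0 ≤ ρ := by positivity
  have hgρ : 𝔼 w, g w = ρ := by
    rw [Fintype.expect_eq_sum_div_card]
    simp [g, hρ]
  have h1 : ∀ ω₁ : Bits D, q ^ (edg (X.map (sig ω₁ D)⁻¹.toEmbedding) μ a).card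
      = ∑ t ∈ S.powerset, (q - 1) ^ t.card * ∏ y ∈ t ∪ t.map μ.toEmbedding, g (sig ω₁ D y) := by
    intro ω₁
    have hm : ∀ u, u ∈ X.map (sig ω₁ D)⁻¹.toEmbedding ↔ sig ω₁ D u ∈ X := by
      intro u
      rw [Finset.mem_map_equiv]
      rfl
    have e1 : q ^ (edg (X.map (sig ω₁ D)⁻¹.toEmbedding) μ a).card
        = ∏ u ∈ S, (1 + (q - 1) * (g (sig ω₁ D u) * g (sig ω₁ D (μ u)))) := by
      have : edg (X.map (sig ω₁ D)⁻¹.toEmbedding) μ a
          = S.filter (fun u => sig ω₁ D u ∈ X ∧ sig ω₁ D (μ u) ∈ X) := by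
        ext u
        simp only [edg, mem_filter, hm, S, mem_univ, true_and]
        tauto
      rw [this, ← Finset.prod_const, Finset.prod_filter]
      refine Finset.prod_congr rfl fun u _ => ?_
      simp only [g]
      by_cases h1 : sig ω₁ D u ∈ X <;> by_cases h2 : sig ω₁ D (μ u) ∈ X <;> simp [h1, h2]
    rw [e1, Finset.prod_one_add]
    refine Finset.sum_congr rfl fun t ht => ?_
    rw [Finset.prod_mul_distrib, Finset.prod_const, Finset.prod_union, Finset.prod_map,
      Finset.prod_mul_distrib]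
    · rfl
    · rw [Finset.disjoint_left]
      intro u hu hu'
      obtain ⟨v, hv, rfl⟩ := Finset.mem_map.1 hu'
      have h1 := (mem_filter.1 (mem_powerset.1 ht hu)).2
      have h2 := (mem_filter.1 (mem_powerset.1 ht hv)).2
      simp only [Equiv.coe_toEmbedding, hμ, mu_self, h2] at h1
      simp at h1
  simp_rw [h1, Finset.expect_sum_comm, ← Finset.mul_expect]
  have hq1 : 0 ≤ q - 1 := by linarith
  calc ∑ t ∈ S.powerset, (q - 1) ^ t.card *
        𝔼 ω₁ : Bits D, ∏ y ∈ t ∪ t.map μ.toEmbedding, g (sig ω₁ D y)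
      ≤ ∑ t ∈ S.powerset, ((q - 1) * ρ ^ 2) ^ t.card := by
        refine Finset.sum_le_sum fun t ht => ?_
        rw [mul_pow, ← pow_mul]
        gcongr
        refine (sig_prod_le' g hg _).trans (le_of_eq ?_)
        rw [hgρ, Finset.card_union_of_disjoint, Finset.card_map, two_mul]
        rw [Finset.disjoint_left]
        intro u hu hu'
        obtain ⟨v, hv, rfl⟩ := Finset.mem_map.1 hu'
        have h1 := (mem_filter.1 (mem_powerset.1 ht hu)).2
        have h2 := (mem_filter.1 (mem_powerset.1 ht hv)).2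
        simp only [Equiv.coe_toEmbedding, hμ, mu_self, h2] at h1
        simp at h1
    _ = (1 + (q - 1) * ρ ^ 2) ^ S.card := by
        rw [← Finset.prod_const, Finset.prod_one_add]
        simp
    _ ≤ Real.exp (q * ρ ^ 2) ^ S.card := by
        gcongr
        have := Real.add_one_le_exp (q * ρ ^ 2)
        nlinarith [sq_nonneg ρ]
    _ ≤ Real.exp (q * ρ ^ 2) ^ (2 ^ D) := by
        refine pow_le_pow_right₀ (Real.one_le_exp (by positivity)) ?_
        refine (Finset.card_le_univ _).trans (le_of_eq ?_)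
        simp
    _ = Real.exp (q * (X.card : ℝ) ^ 2 / 2 ^ D) := by
        rw [← Real.exp_nat_mul]
        congr 1
        rw [hρ]
        push_cast
        field_simp

lemma low_moment (X : Finset (Pos D)) (ω₂ : Bits D) (u : ℕ) (hu : 1 ≤ u) :
    𝔼 ω₁ : Bits D, (∏ l ∈ range (20 * u), Zw ω₁ ω₂ (X.map (sig ω₁ D)⁻¹.toEmbedding) l)
      ^ (16⁻¹ : ℝ) ≤ Real.exp (4 ^ u * (X.card : ℝ) ^ 2 / 2 ^ D) := by
  have hu' : (0 : ℝ) < (20 * u : ℕ) := by exact_mod_cast (by omega : 0 < 20 * u)
  have h1 : ∀ ω₁ : Bits D, (∏ l ∈ range (20 * u), Zw ω₁ ω₂ (X.map (sig ω₁ D)⁻¹.toEmbedding) l)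
      ^ (16⁻¹ : ℝ) ≤ ∑ l ∈ range (20 * u), ((20 * u : ℕ) : ℝ)⁻¹ *
        Zw ω₁ ω₂ (X.map (sig ω₁ D)⁻¹.toEmbedding) l ^ (2 * u) := by
    intro ω₁
    refine le_trans ?_ (Real.geom_mean_le_arith_mean_weighted (range (20 * u))
      (fun _ => ((20 * u : ℕ) : ℝ)⁻¹) _ (fun _ _ => by positivity) ?_
      (fun l _ => pow_nonneg (Zw_pos _ _ _ _).le _))
    · rw [← Real.finsetProd_rpow _ _ (fun l _ => (Zw_pos _ _ _ _).le)]
      refine Finset.prod_le_prod (fun l _ => Real.rpow_nonneg (Zw_pos _ _ _ _).le _) fun l _ => ?_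
      rw [← Real.rpow_natCast, ← Real.rpow_mul (Zw_pos _ _ _ _).le]
      refine Real.rpow_le_rpow_of_exponent_le (one_le_Zw _ _ _ _) ?_
      have : (0 : ℝ) < u := by exact_mod_cast hu
      push_cast
      rw [show (2 * (u : ℝ) * (20 * (u : ℝ))⁻¹) = 1 / 10 by field_simp; norm_num]
      norm_num
    · rw [Finset.sum_const, Finset.card_range, nsmul_eq_mul, mul_inv_cancel₀ hu'.ne']
  refine (Finset.expect_le_expect fun ω₁ _ => h1 ω₁).trans ?_
  rw [Finset.expect_sum_comm]
  have h2 : ∀ l ∈ range (20 * u), 𝔼 ω₁ : Bits D, ((20 * u : ℕ) : ℝ)⁻¹ *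
      Zw ω₁ ω₂ (X.map (sig ω₁ D)⁻¹.toEmbedding) l ^ (2 * u)
      ≤ ((20 * u : ℕ) : ℝ)⁻¹ * Real.exp (4 ^ u * (X.card : ℝ) ^ 2 / 2 ^ D) := by
    intro l _
    rw [← Finset.mul_expect]
    gcongr
    unfold Zw
    split_ifs with h
    · refine le_trans (Finset.expect_le_expect fun ω₁ _ => ?_)
        (edg_moment X ω₂ ⟨l, h⟩ (4 ^ u) (one_le_pow₀ (by norm_num)))
      have := card_Zset_le_edg (X.map (sig ω₁ D)⁻¹.toEmbedding) (mu ω₁ ⟨l, h⟩) ω₂ ⟨l, h⟩
      calc _ ≤ ((2 : ℝ) ^ (edg (X.map (sig ω₁ D)⁻¹.toEmbedding) (mu ω₂ ⟨l, h⟩) ⟨l, h⟩).card)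
            ^ (2 * u) := by
            gcongr
            exact_mod_cast this
        _ = _ := by
            rw [← pow_mul, ← pow_mul, show (4 : ℝ) = 2 ^ 2 by norm_num, ← pow_mul]
            congr 1; ring
    · simp only [one_pow, Finset.expect_const univ_nonempty]
      exact Real.one_le_exp (by positivity)
  refine (Finset.sum_le_sum h2).trans (le_of_eq ?_)
  rw [Finset.sum_const, Finset.card_range, nsmul_eq_mul, ← mul_assoc, mul_inv_cancel₀ hu'.ne',
    one_mul]

end Crest.Agent.R155
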