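import Mathlib
import Crest.Agent.R155.Cycle
import Crest.Agent.R155.Low
import Crest.Agent.R155.Loop

/-! Tail bounds for the total loop weight. -/

open Finset BigOperators

namespace Crest.Agent.R155

variable {D : ℕ}

lemma level_moment (ω₁ : Bits D) (U : Finset (Pos D)) (l : ℕ) (ω₀ : Bits D) :
    𝔼 ω' : Bits D, Zw ω₁ (mrg (fun s => (s.1 : ℕ) < l / 2) ω₀ ω') U l ^ ((l : ℝ) / 16)
      ≤ Real.exp (U.card / 2 ^ (l / 20) * (Real.log 2 * (l / 16) + 1)) := by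
  have hlog : 0 < Real.log 2 := Real.log_pos (by norm_num)
  unfold Zw
  split_ifs with h
  swap
  · simp only [Real.one_rpow, Finset.expect_const univ_nonempty]
    exact Real.one_le_exp (by positivity)
  set a : Fin D := ⟨l, h⟩ with ha
  set μ := mu ω₁ a with hμdef
  have hμ : ∀ u, μ u a = !u a := mu_self ω₁ a
  set g := l / 20 with hg
  set V := U.filter (fun u => u a = true) with hV
  have hVU : (V.card : ℝ) ≤ U.card := by exact_mod_cast Finset.card_filter_le _ _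
  have hθ : (l : ℝ) / 16 ≤ 1 + ((((a : ℕ) - l / 2 : ℕ) : ℝ) - g) / 4 - g := by
    have h1 : (l : ℝ) ≤ 2 * (((a : ℕ) - l / 2 : ℕ) : ℝ) := by
      have : l ≤ 2 * ((a : ℕ) - l / 2) := by simp only [ha]; omega
      exact_mod_cast this
    have h2 : 20 * (g : ℝ) ≤ l := by
      have : 20 * g ≤ l := by omega
      exact_mod_cast this
    linarith
  have hpt : ∀ ω : Bits D, ((Zset U μ (mu ω a)).card : ℝ) ^ ((l : ℝ) / 16) ≤
      Real.exp (U.card / 2 ^ g * (Real.log 2 * (l / 16))) *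
      ∑ c ∈ (V ×ˢ Icc 1 (2 ^ g)).powerset, ((4 : ℝ) ^ g)⁻¹ ^ c.card *
        (if Closes μ a c ω then (2 : ℝ) ^ (FreeS μ (l / 2) a c ω).card else 0) := by
    intro ω
    have h1 := card_Zset_le_cyc hμ ω U
    have h2 := cyc_long (piP μ ω a) V (2 ^ g)
    have h3 := Finset.card_filter_add_card_filter_not (s := cyc (piP μ ω a) V)
      (fun C => C.card ≤ 2 ^ g)
    have h4 := short_le_sum_codes (μ := μ) (a := a) (l / 2) (by simp only [ha]; omega) ω V g _ hθ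
    set N₁ := ((cyc (piP μ ω a) V).filter (fun C => C.card ≤ 2 ^ g)).card
    set N₂ := ((cyc (piP μ ω a) V).filter (fun C => ¬ C.card ≤ 2 ^ g)).card
    have h5 : (N₂ : ℝ) ≤ U.card / 2 ^ g := by
      rw [le_div_iff₀ (by positivity)]
      refine le_trans ?_ hVU
      exact_mod_cast h2
    calc ((Zset U μ (mu ω a)).card : ℝ) ^ ((l : ℝ) / 16)
        ≤ ((2 : ℝ) ^ (N₁ + N₂)) ^ ((l : ℝ) / 16) := by
          gcongr
          rw [h3]
          exact_mod_cast h1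
      _ = Real.exp (N₂ * (Real.log 2 * (l / 16))) * (2 : ℝ) ^ ((l : ℝ) / 16 * N₁) := by
          rw [← Real.rpow_natCast, ← Real.rpow_mul (by norm_num),
            Real.rpow_def_of_pos (by norm_num), Real.rpow_def_of_pos (by norm_num), ← Real.exp_add]
          congr 1
          push_cast
          ring
      _ ≤ _ := by gcongr
  refine (Finset.expect_le_expect fun ω' _ => hpt _).trans ?_
  rw [← Finset.mul_expect, Finset.expect_sum_comm, mul_add, Real.exp_add]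
  gcongr
  calc ∑ c ∈ (V ×ˢ Icc 1 (2 ^ g)).powerset, 𝔼 ω' : Bits D, ((4 : ℝ) ^ g)⁻¹ ^ c.card *
        (if Closes μ a c (mrg (fun s => (s.1 : ℕ) < l / 2) ω₀ ω') then
          (2 : ℝ) ^ (FreeS μ (l / 2) a c (mrg (fun s => (s.1 : ℕ) < l / 2) ω₀ ω')).card else 0)
      ≤ ∑ c ∈ (V ×ˢ Icc 1 (2 ^ g)).powerset, ((4 : ℝ) ^ g)⁻¹ ^ c.card := by
        refine Finset.sum_le_sum fun c hc => ?_
        rw [← Finset.mul_expect]
        refine mul_le_of_le_one_right (by positivity) (closing_kraft hμ (l / 2) ?_ ω₀)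
        intro p hp
        have := mem_product.1 (mem_powerset.1 hc hp)
        exact ⟨(mem_filter.1 this.1).2, (mem_Icc.1 this.2).1⟩
    _ = (1 + ((4 : ℝ) ^ g)⁻¹) ^ (V ×ˢ Icc 1 (2 ^ g)).card := by
        rw [← Finset.prod_const, Finset.prod_one_add]
        simp
    _ ≤ Real.exp (((4 : ℝ) ^ g)⁻¹) ^ (V ×ˢ Icc 1 (2 ^ g)).card := by
        gcongr
        have := Real.add_one_le_exp (((4 : ℝ) ^ g)⁻¹)
        linarith
    _ ≤ Real.exp (U.card / 2 ^ g * 1) := by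
        rw [← Real.exp_nat_mul, Finset.card_product, Nat.card_Icc]
        apply Real.exp_le_exp.2
        simp only [add_tsub_cancel_right]
        push_cast
        rw [show (4 : ℝ) ^ g = 2 ^ g * 2 ^ g by rw [← mul_pow]; norm_num]
        have : (0 : ℝ) < 2 ^ g := by positivity
        rw [mul_one, mul_inv, mul_assoc, ← mul_assoc (2 ^ g : ℝ), mul_inv_cancel₀ this.ne', one_mul,
          div_eq_mul_inv]
        gcongr

lemma sum_geom_blocks (u N : ℕ) : ∑ l ∈ Ico (20 * u) N, ((2 : ℝ) ^ (l / 20))⁻¹ ≤ 40 / 2 ^ u := by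
  have h1 : ∀ v : ℕ, ∑ l ∈ Ico (20 * u) (20 * (u + v)), ((2 : ℝ) ^ (l / 20))⁻¹
      = 40 / 2 ^ u - 40 / 2 ^ (u + v) := by
    intro v
    induction v with
    | zero => simp
    | succ v ih =>
      rw [← Finset.sum_Ico_consecutive _ (by omega : 20 * u ≤ 20 * (u + v))
        (by omega : 20 * (u + v) ≤ 20 * (u + (v + 1))), ih,
        Finset.sum_congr rfl (g := fun _ => ((2 : ℝ) ^ (u + v))⁻¹)]
      · rw [Finset.sum_const, Nat.card_Ico, show 20 * (u + (v + 1)) - 20 * (u + v) = 20 by omega,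
          ← add_assoc, pow_succ]
        simp only [nsmul_eq_mul]
        field_simp
        norm_num
        ring
      · intro l hl
        rw [mem_Ico] at hl
        rw [show l / 20 = u + v by omega]
  calc ∑ l ∈ Ico (20 * u) N, ((2 : ℝ) ^ (l / 20))⁻¹
      ≤ ∑ l ∈ Ico (20 * u) (20 * (u + N)), ((2 : ℝ) ^ (l / 20))⁻¹ :=
        Finset.sum_le_sum_of_subset_of_nonneg (Finset.Ico_subset_Ico_right (by omega))
          (fun _ _ _ => by positivity)
    _ ≤ 40 / 2 ^ u := by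
        rw [h1]
        have : (0 : ℝ) ≤ 40 / 2 ^ (u + N) := by positivity
        linarith

lemma high_moment (ω₁ : Bits D) (U : Finset (Pos D)) (u : ℕ) (hu : 1 ≤ u) :
    𝔼 ω₂ : Bits D, (∏ l ∈ Ico (20 * u) D, Zw ω₁ ω₂ U l) ^ (16⁻¹ : ℝ)
      ≤ Real.exp (U.card * (40 / 2 ^ u) * (Real.log 2 / 16 + 1 / (20 * u))) := by
  have hlog : 0 < Real.log 2 := Real.log_pos (by norm_num)
  let B : ℕ → ℝ := fun l => Real.exp (U.card / 2 ^ (l / 20) * (Real.log 2 * (l / 16) + 1))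
  have hB : ∀ l, 0 < B l := fun l => Real.exp_pos _
  have hw := window_holder (fun s : Fin D × Pos D => (s.1 : ℕ)) (Ico (20 * u) D)
    (fun l ω => Zw ω₁ ω U l ^ ((l : ℝ) / 16) / B l)
    (fun l ω => div_pos (Real.rpow_pos_of_pos (Zw_pos _ _ _ _) _) (hB l))
    (fun l hl => by have := (mem_Ico.1 hl).1; omega)
    (fun l _ ω ω' h => by rw [Zw_congr U l (fun _ _ => rfl) h])
    (fun l _ ω => by
      rw [← Finset.expect_div, div_le_one (hB l)]
      exact level_moment ω₁ U l ω)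
  have h1 : ∀ ω₂ : Bits D, (∏ l ∈ Ico (20 * u) D, Zw ω₁ ω₂ U l) ^ (16⁻¹ : ℝ)
      = (∏ l ∈ Ico (20 * u) D, B l ^ ((l : ℝ)⁻¹)) *
        ∏ l ∈ Ico (20 * u) D, (Zw ω₁ ω₂ U l ^ ((l : ℝ) / 16) / B l) ^ ((l : ℝ)⁻¹) := by
    intro ω₂
    rw [← Real.finsetProd_rpow _ _ (fun l _ => (Zw_pos _ _ _ _).le), ← Finset.prod_mul_distrib]
    refine Finset.prod_congr rfl fun l hl => ?_
    have hl0 : (l : ℝ) ≠ 0 := by
      have := (mem_Ico.1 hl).1
      exact_mod_cast (by omega : l ≠ 0)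
    rw [← Real.mul_rpow (hB l).le (div_pos (Real.rpow_pos_of_pos (Zw_pos _ _ _ _) _) (hB l)).le,
      mul_div_cancel₀ _ (hB l).ne', ← Real.rpow_mul (Zw_pos _ _ _ _).le]
    congr 1
    field_simp
  simp_rw [h1]
  rw [← Finset.mul_expect]
  refine (mul_le_of_le_one_right
    (Finset.prod_nonneg fun l _ => Real.rpow_nonneg (hB l).le _) hw).trans ?_
  simp only [B, ← Real.exp_mul]
  rw [← Real.exp_sum]
  gcongr
  have hu' : (0 : ℝ) < u := by exact_mod_cast hu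
  calc ∑ l ∈ Ico (20 * u) D, U.card / 2 ^ (l / 20) * (Real.log 2 * (l / 16) + 1) * (l : ℝ)⁻¹
      ≤ ∑ l ∈ Ico (20 * u) D, U.card * (Real.log 2 / 16 + 1 / (20 * u)) * ((2 : ℝ) ^ (l / 20))⁻¹ := by
        refine Finset.sum_le_sum fun l hl => ?_
        have hl1 : (20 * u : ℝ) ≤ l := by exact_mod_cast (mem_Ico.1 hl).1
        have hl0 : (0 : ℝ) < l := by linarith
        have e : U.card / 2 ^ (l / 20) * (Real.log 2 * (l / 16) + 1) * (l : ℝ)⁻¹
            = U.card * (Real.log 2 / 16 + 1 / l) * ((2 : ℝ) ^ (l / 20))⁻¹ := by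
          field_simp
        rw [e]
        gcongr
    _ ≤ _ := by
        rw [← Finset.mul_sum, mul_right_comm]
        gcongr
        exact sum_geom_blocks u D

lemma Wt_le_split (ω₁ ω₂ : Bits D) (U : Finset (Pos D)) (l₀ : ℕ) :
    Wt ω₁ ω₂ U D ≤ (∏ l ∈ range l₀, Zw ω₁ ω₂ U l) * ∏ l ∈ Ico l₀ D, Zw ω₁ ω₂ U l := by
  rw [← Finset.prod_union]
  · unfold Wt
    refine Finset.prod_le_prod_of_subset_of_one_le ?_ (fun l _ => (Zw_pos _ _ _ _).le)
      (fun l _ _ => one_le_Zw _ _ _ _)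
    intro l hl
    simp only [mem_union, mem_range, mem_Ico] at hl ⊢
    omega
  · rw [Finset.disjoint_left]
    intro l h1 h2
    simp only [mem_range, mem_Ico] at h1 h2
    omega

/-- Uniform tail bound for the loop weight of sets of size `j`. -/
def TailOK (D j : ℕ) (M : ℝ) : Prop :=
  ∀ X : Finset (Pos D), X.card = j → ∀ s : ℕ,
    𝔼 ω₁ : Bits D, 𝔼 ω₂ : Bits D,
      (if M * 2 ^ (32 * (s + 3)) < Wt ω₁ ω₂ (X.map (sig ω₁ D)⁻¹.toEmbedding) D then (1 : ℝ) else 0)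
      ≤ (2 ^ (s + 2))⁻¹

lemma tail_of_moments {j l₀ : ℕ} {A B : ℝ} (hA : 0 < A) (hB : 0 < B)
    (h₁ : ∀ X : Finset (Pos D), X.card = j → 𝔼 ω₁ : Bits D, 𝔼 ω₂ : Bits D,
      (∏ l ∈ range l₀, Zw ω₁ ω₂ (X.map (sig ω₁ D)⁻¹.toEmbedding) l) ^ (16⁻¹ : ℝ) ≤ A)
    (h₂ : ∀ X : Finset (Pos D), X.card = j → 𝔼 ω₁ : Bits D, 𝔼 ω₂ : Bits D,
      (∏ l ∈ Ico l₀ D, Zw ω₁ ω₂ (X.map (sig ω₁ D)⁻¹.toEmbedding) l) ^ (16⁻¹ : ℝ) ≤ B)
    {M : ℝ} (hM : (A * B) ^ 16 ≤ M) : TailOK D j M := by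
  intro X hX s
  have hpt : ∀ ω₁ ω₂ : Bits D,
      (if M * 2 ^ (32 * (s + 3)) < Wt ω₁ ω₂ (X.map (sig ω₁ D)⁻¹.toEmbedding) D then (1 : ℝ) else 0)
      ≤ (∏ l ∈ range l₀, Zw ω₁ ω₂ (X.map (sig ω₁ D)⁻¹.toEmbedding) l) ^ (16⁻¹ : ℝ)
          / (A * 2 ^ (s + 3)) +
        (∏ l ∈ Ico l₀ D, Zw ω₁ ω₂ (X.map (sig ω₁ D)⁻¹.toEmbedding) l) ^ (16⁻¹ : ℝ)
          / (B * 2 ^ (s + 3)) := by
    intro ω₁ ω₂
    have hW := Wt_le_split ω₁ ω₂ (X.map (sig ω₁ D)⁻¹.toEmbedding) l₀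
    set x := ∏ l ∈ range l₀, Zw ω₁ ω₂ (X.map (sig ω₁ D)⁻¹.toEmbedding) l
    set y := ∏ l ∈ Ico l₀ D, Zw ω₁ ω₂ (X.map (sig ω₁ D)⁻¹.toEmbedding) l
    have hx : 0 < x := Finset.prod_pos fun _ _ => Zw_pos _ _ _ _
    have hy : 0 < y := Finset.prod_pos fun _ _ => Zw_pos _ _ _ _
    have hx' : 0 ≤ x ^ (16⁻¹ : ℝ) / (A * 2 ^ (s + 3)) := by positivity
    have hy' : 0 ≤ y ^ (16⁻¹ : ℝ) / (B * 2 ^ (s + 3)) := by positivity
    split_ifs with h
    · by_contra hcon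
      have e1 : x ^ (16⁻¹ : ℝ) ≤ A * 2 ^ (s + 3) := by
        rw [← div_le_one (by positivity)]; linarith
      have e2 : y ^ (16⁻¹ : ℝ) ≤ B * 2 ^ (s + 3) := by
        rw [← div_le_one (by positivity)]; linarith
      have e3 : x ≤ (A * 2 ^ (s + 3)) ^ 16 := by
        calc x = (x ^ (16⁻¹ : ℝ)) ^ 16 := by
              rw [← Real.rpow_natCast, ← Real.rpow_mul hx.le]; norm_num
          _ ≤ _ := by gcongr
      have e4 : y ≤ (B * 2 ^ (s + 3)) ^ 16 := by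
        calc y = (y ^ (16⁻¹ : ℝ)) ^ 16 := by
              rw [← Real.rpow_natCast, ← Real.rpow_mul hy.le]; norm_num
          _ ≤ _ := by gcongr
      have e5 : x * y ≤ (A * B) ^ 16 * 2 ^ (32 * (s + 3)) := by
        calc x * y ≤ (A * 2 ^ (s + 3)) ^ 16 * (B * 2 ^ (s + 3)) ^ 16 := by gcongr
          _ = _ := by ring
      have e6 : (A * B) ^ 16 * 2 ^ (32 * (s + 3)) ≤ M * 2 ^ (32 * (s + 3)) := by gcongr
      linarith
    · linarith
  refine (Finset.expect_le_expect fun ω₁ _ => Finset.expect_le_expect fun ω₂ _ =>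
    hpt ω₁ ω₂).trans ?_
  simp_rw [Finset.expect_add_distrib, ← Finset.expect_div]
  have e1 := h₁ X hX
  have e2 := h₂ X hX
  calc _ ≤ A / (A * 2 ^ (s + 3)) + B / (B * 2 ^ (s + 3)) := by gcongr
    _ = _ := by field_simp; ring

lemma tail_dense (D j : ℕ) : TailOK D j (Real.exp (25 * j)) := by
  have hlog : Real.log 2 < 0.6931471808 := Real.log_two_lt_d9
  refine tail_of_moments (l₀ := 20 * 2) (A := Real.exp (j * (5 / 4 * Real.log 2)))
    (B := Real.exp (j * (40 / 2 ^ 2) * (Real.log 2 / 16 + 1 / (20 * (2 : ℕ)))))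
    (Real.exp_pos _) (Real.exp_pos _) ?_ ?_ ?_
  · intro X hX
    refine Finset.expect_le univ_nonempty fun ω₁ _ => Finset.expect_le univ_nonempty fun ω₂ _ => ?_
    set U := X.map (sig ω₁ D)⁻¹.toEmbedding
    have hU : U.card = j := by simp [U, hX]
    have h1 : (∏ l ∈ range (20 * 2), Zw ω₁ ω₂ U l) ^ 2 ≤ (2 ^ j) ^ 40 := by
      rw [← Finset.prod_pow]
      refine (Finset.prod_le_prod (fun l _ => by positivity) (g := fun _ => (2 : ℝ) ^ j)
        fun l _ => ?_).trans (by simp)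
      rw [← hU]
      exact Zw_sq_le _ _ _ _
    have h2 : ∏ l ∈ range (20 * 2), Zw ω₁ ω₂ U l ≤ (2 ^ j) ^ 20 := by
      refine (pow_le_pow_iff_left₀ (Finset.prod_nonneg fun l _ => (Zw_pos _ _ _ _).le)
        (by positivity) (by norm_num : 2 ≠ 0)).1 (h1.trans (le_of_eq (by ring)))
    calc _ ≤ (((2 : ℝ) ^ j) ^ 20) ^ (16⁻¹ : ℝ) := by
          gcongr
          exact Finset.prod_nonneg fun l _ => (Zw_pos _ _ _ _).le
      _ = _ := by
          rw [← pow_mul, ← Real.rpow_natCast, ← Real.rpow_mul (by norm_num),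
            Real.rpow_def_of_pos (by norm_num)]
          congr 1
          push_cast
          ring
  · intro X hX
    refine Finset.expect_le univ_nonempty fun ω₁ _ => ?_
    have := high_moment ω₁ (X.map (sig ω₁ D)⁻¹.toEmbedding) 2 (by norm_num)
    rwa [Finset.card_map, hX] at this
  · rw [← Real.exp_add, ← Real.exp_nat_mul]
    apply Real.exp_le_exp.2
    push_cast
    have : (0 : ℝ) ≤ j := by positivity
    nlinarith

lemma tail_sparse (D j u : ℕ) (hu : 6 ≤ u) :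
    TailOK D j (Real.exp (16 * 4 ^ u * (j : ℝ) ^ 2 / 2 ^ D + 64 * j / 2 ^ u)) := by
  have hlog : Real.log 2 < 0.6931471808 := Real.log_two_lt_d9
  refine tail_of_moments (l₀ := 20 * u) (A := Real.exp (4 ^ u * (j : ℝ) ^ 2 / 2 ^ D))
    (B := Real.exp (j * (40 / 2 ^ u) * (Real.log 2 / 16 + 1 / (20 * u))))
    (Real.exp_pos _) (Real.exp_pos _) ?_ ?_ ?_
  · intro X hX
    rw [Finset.expect_comm]
    refine Finset.expect_le univ_nonempty fun ω₂ _ => ?_
    have := low_moment X ω₂ u (by omega)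
    rwa [hX] at this
  · intro X hX
    refine Finset.expect_le univ_nonempty fun ω₁ _ => ?_
    have := high_moment ω₁ (X.map (sig ω₁ D)⁻¹.toEmbedding) u (by omega)
    rwa [Finset.card_map, hX] at this
  · rw [← Real.exp_add, ← Real.exp_nat_mul]
    apply Real.exp_le_exp.2
    push_cast
    have h0 : (0 : ℝ) ≤ j / 2 ^ u := by positivity
    have h1 : (1 : ℝ) / (20 * u) ≤ 1 / 120 := by
      have : (6 : ℝ) ≤ u := by exact_mod_cast hu
      gcongr
      linarith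
    have e1 : 16 * (4 ^ u * (j : ℝ) ^ 2 / 2 ^ D + j * (40 / 2 ^ u) * (Real.log 2 / 16 + 1 / (20 * u)))
        = 16 * 4 ^ u * (j : ℝ) ^ 2 / 2 ^ D
          + (j / 2 ^ u) * (40 * Real.log 2 + 640 * (1 / (20 * u))) := by ring
    have e2 : 64 * (j : ℝ) / 2 ^ u = (j / 2 ^ u) * 64 := by ring
    rw [e1, e2]
    gcongr
    linarith

end Crest.Agent.R155
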