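import Mathlib
import Crest.Agent.R155.Net

/-! The transition matrix of one pass through the butterfly network. -/

open Finset BigOperators

namespace Crest.Agent.R155

/-- The transition matrix of one pass through the network, on a set `Ω` acted on by
permutations of the positions. -/
noncomputable def Tmat (D : ℕ) (Ω : Type*) [MulAction (Equiv.Perm (Pos D)) Ω] [DecidableEq Ω] :
    Matrix Ω Ω ℝ :=
  fun y x => 𝔼 ω : Bits D, if sig ω D • x = y then (1 : ℝ) else 0

end Crest.Agent.R155
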