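import Mathlib

/-! Spectral tools for symmetric operators on finite function spaces. -/

open Finset BigOperators Matrix
open scoped InnerProductSpace

namespace Crest.Agent.R155

variable {Ω : Type*} [Fintype Ω]

/-- Orthonormal families for the dot product. -/
def ON {ι : Type*} [DecidableEq ι] (e : ι → Ω → ℝ) : Prop :=
  ∀ a a', e a ⬝ᵥ e a' = if a = a' then 1 else 0

lemma dot_self_nonneg (v : Ω → ℝ) : 0 ≤ v ⬝ᵥ v :=
  Finset.sum_nonneg fun _ _ => mul_self_nonneg _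

lemma ON.self {ι : Type*} [DecidableEq ι] {e : ι → Ω → ℝ} (he : ON e) (a : ι) :
    e a ⬝ᵥ e a = 1 := by simpa using he a a

lemma ON.dot_sum {ι : Type*} [DecidableEq ι] {e : ι → Ω → ℝ} (he : ON e) (A : Finset ι)
    (c : ι → ℝ) {a : ι} (ha : a ∈ A) : e a ⬝ᵥ (∑ a' ∈ A, c a' • e a') = c a := by
  rw [dotProduct_sum]
  simp_rw [dotProduct_smul, he a, smul_eq_mul, mul_ite, mul_one, mul_zero]
  simp [ha]

lemma ON.bessel {ι : Type*} [DecidableEq ι] {e : ι → Ω → ℝ} (he : ON e) (A : Finset ι)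
    (c : Ω → ℝ) : ∑ a ∈ A, (c ⬝ᵥ e a) ^ 2 ≤ c ⬝ᵥ c := by
  set p := ∑ a ∈ A, (c ⬝ᵥ e a) • e a with hp
  have h1 : c ⬝ᵥ p = ∑ a ∈ A, (c ⬝ᵥ e a) ^ 2 := by
    rw [hp, dotProduct_sum]
    simp_rw [dotProduct_smul, smul_eq_mul, sq]
  have h2 : p ⬝ᵥ p = ∑ a ∈ A, (c ⬝ᵥ e a) ^ 2 := by
    conv_lhs => rw [hp, sum_dotProduct]
    refine Finset.sum_congr rfl fun a ha => ?_
    rw [smul_dotProduct, he.dot_sum A _ ha, smul_eq_mul, sq]
  have h3 := dot_self_nonneg (c - p)
  rw [sub_dotProduct, dotProduct_sub, dotProduct_sub, dotProduct_comm p c, h1, h2] at h3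
  linarith

lemma ON.expand {ι : Type*} [DecidableEq ι] [Fintype ι] {e : ι → Ω → ℝ} (he : ON e)
    {v : Ω → ℝ} (hv : v ∈ Submodule.span ℝ (Set.range e)) : v = ∑ a, (e a ⬝ᵥ v) • e a := by
  obtain ⟨c, rfl⟩ := (Submodule.mem_span_range_iff_exists_fun ℝ).1 hv
  exact Finset.sum_congr rfl fun a _ => by rw [he.dot_sum univ c (mem_univ a)]

lemma ON.linearIndependent {ι : Type*} [DecidableEq ι] {e : ι → Ω → ℝ} (he : ON e) :
    LinearIndependent ℝ e := by
  rw [linearIndependent_iff']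
  intro s g h i hi
  rw [← he.dot_sum s g hi, h, dotProduct_zero]

theorem exists_eigen_family (B : (Ω → ℝ) →ₗ[ℝ] (Ω → ℝ)) (hB : ∀ u v, B u ⬝ᵥ v = u ⬝ᵥ B v)
    (U : Submodule ℝ (Ω → ℝ)) (hU : ∀ u ∈ U, B u ∈ U) :
    ∃ (m : ℕ) (e : Fin m → Ω → ℝ) (κ : Fin m → ℝ), ON e ∧ (∀ s, e s ∈ U) ∧
      (∀ s, B (e s) = κ s • e s) ∧ U ≤ Submodule.span ℝ (Set.range e) := by
  let L : EuclideanSpace ℝ Ω ≃ₗ[ℝ] (Ω → ℝ) := WithLp.linearEquiv 2 ℝ (Ω → ℝ)
  have hin : ∀ u v : EuclideanSpace ℝ Ω, ⟪u, v⟫_ℝ = L u ⬝ᵥ L v := by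
    intro u v
    rw [EuclideanSpace.inner_eq_star_dotProduct, dotProduct_comm]
    rfl
  let B' : EuclideanSpace ℝ Ω →ₗ[ℝ] EuclideanSpace ℝ Ω := L.symm.toLinearMap ∘ₗ B ∘ₗ L.toLinearMap
  have hB' : B'.IsSymmetric := by
    intro u v
    rw [hin, hin]
    simp [B', hB]
  let U' : Submodule ℝ (EuclideanSpace ℝ Ω) := U.comap L.toLinearMap
  have hU' : ∀ u ∈ U', B' u ∈ U' := by
    intro u hu
    simpa [U', B'] using hU _ hu
  have hr := hB'.restrict_invariant hU'
  let b := hr.eigenvectorBasis rfl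
  refine ⟨_, fun s => L (b s), hr.eigenvalues rfl, ?_, ?_, ?_, ?_⟩
  · intro a a'
    rw [← hin]
    have := orthonormal_iff_ite.1 b.orthonormal a a'
    simpa using this
  · intro s
    exact (b s).2
  · intro s
    have h1 : B' (b s).1 = hr.eigenvalues rfl s • (b s).1 :=
      congrArg Subtype.val (hr.apply_eigenvectorBasis rfl s)
    have h2 := congrArg L h1
    rw [map_smul] at h2
    exact h2
  · intro u hu
    let u' : U' := ⟨L.symm u, by simpa [U'] using hu⟩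
    have := congrArg (fun z : U' => L z.1) (b.sum_repr u')
    simp only [u', LinearEquiv.apply_symm_apply, Submodule.coe_sum, Submodule.coe_smul, map_sum,
      map_smul] at this
    rw [← this]
    exact Submodule.sum_mem _ fun s _ => Submodule.smul_mem _ _ (Submodule.subset_span ⟨s, rfl⟩)

/-- The orthogonal complement for the dot product. -/
def perp (U : Submodule ℝ (Ω → ℝ)) : Submodule ℝ (Ω → ℝ) where
  carrier := {v | ∀ u ∈ U, u ⬝ᵥ v = 0}
  add_mem' := by
    intro a b ha hb u hu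
    rw [dotProduct_add, ha u hu, hb u hu, add_zero]
  zero_mem' := by intro u _; simp
  smul_mem' := by
    intro c a ha u hu
    rw [dotProduct_smul, ha u hu, smul_zero]

lemma mem_perp {U : Submodule ℝ (Ω → ℝ)} {v : Ω → ℝ} : v ∈ perp U ↔ ∀ u ∈ U, u ⬝ᵥ v = 0 := Iff.rfl

lemma eq_zero_of_mem_perp {U : Submodule ℝ (Ω → ℝ)} {v : Ω → ℝ} (h : v ∈ U) (h' : v ∈ perp U) :
    v = 0 := dotProduct_self_eq_zero.1 (h' v h)

lemma exists_perp_decomp (U : Submodule ℝ (Ω → ℝ)) (v : Ω → ℝ) : ∃ u ∈ U, v - u ∈ perp U := by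
  obtain ⟨m, e, κ, he, hU, -, hs⟩ := exists_eigen_family 0 (by simp) U (by simp)
  refine ⟨∑ a, (e a ⬝ᵥ v) • e a, Submodule.sum_mem _ fun s _ => Submodule.smul_mem _ _ (hU s), ?_⟩
  intro u hu
  rw [he.expand (hs hu), sum_dotProduct]
  refine Finset.sum_eq_zero fun a _ => ?_
  rw [smul_dotProduct, dotProduct_sub, he.dot_sum univ _ (mem_univ a), sub_self, smul_zero]

lemma perp_invariant {B B' : (Ω → ℝ) →ₗ[ℝ] (Ω → ℝ)} (hB : ∀ u v, B' u ⬝ᵥ v = u ⬝ᵥ B v)
    {U : Submodule ℝ (Ω → ℝ)} (hU : ∀ u ∈ U, B' u ∈ U) : ∀ v ∈ perp U, B v ∈ perp U := by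
  intro v hv u hu
  rw [← hB, hv _ (hU u hu)]

lemma trace_eq_sum_ON [DecidableEq Ω] {ι : Type*} [DecidableEq ι] [Fintype ι] {e : ι → Ω → ℝ}
    (he : ON e) (hs : ⊤ ≤ Submodule.span ℝ (Set.range e)) (M : Matrix Ω Ω ℝ) :
    M.trace = ∑ a, e a ⬝ᵥ (M *ᵥ e a) := by
  have h1 : ∀ x, M x x = ∑ a, e a x * (M *ᵥ e a) x := by
    intro x
    have h := he.expand (hs (Submodule.mem_top (x := Pi.single x (1 : ℝ))))
    have h2 := congrFun (congrArg (fun v => M *ᵥ v) h) x
    simp only [mulVec_single_one, col_apply, mulVec_sum, mulVec_smul, Finset.sum_apply,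
      Pi.smul_apply, dotProduct_single, mul_one, smul_eq_mul] at h2
    exact h2
  unfold Matrix.trace
  simp only [diag_apply, h1]
  rw [Finset.sum_comm]
  rfl

lemma pow_mulVec_eigen [DecidableEq Ω] {M : Matrix Ω Ω ℝ} {v : Ω → ℝ} {t : ℝ}
    (h : M *ᵥ v = t • v) (p : ℕ) : (M ^ p) *ᵥ v = t ^ p • v := by
  induction p with
  | zero => simp
  | succ p ih => rw [pow_succ, ← mulVec_mulVec, h, mulVec_smul, ih, smul_smul, pow_succ, mul_comm]

lemma trace_pow_eq_sum [DecidableEq Ω] {ι : Type*} [DecidableEq ι] [Fintype ι] {e : ι → Ω → ℝ}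
    (he : ON e) (hs : ⊤ ≤ Submodule.span ℝ (Set.range e)) {M : Matrix Ω Ω ℝ} {κ : ι → ℝ}
    (h : ∀ a, M *ᵥ e a = κ a • e a) (p : ℕ) : (M ^ p).trace = ∑ a, κ a ^ p := by
  rw [trace_eq_sum_ON he hs]
  refine Finset.sum_congr rfl fun a _ => ?_
  rw [pow_mulVec_eigen (h a), dotProduct_smul, he.self, smul_eq_mul, mul_one]

lemma symm_mulVec_dot {M : Matrix Ω Ω ℝ} (hM : Mᵀ = M) (u v : Ω → ℝ) :
    (M *ᵥ u) ⬝ᵥ v = u ⬝ᵥ (M *ᵥ v) := by
  rw [dotProduct_mulVec, ← mulVec_transpose, hM]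

/-- Counting eigenvalues: orthonormal eigenvectors in the span of another eigenvector family. -/
theorem count_eigen (B : (Ω → ℝ) →ₗ[ℝ] (Ω → ℝ)) (hB : ∀ u v, B u ⬝ᵥ v = u ⬝ᵥ B v)
    {ι σ : Type*} [DecidableEq ι] [Fintype σ] {v : ι → Ω → ℝ} (hv : ON v) {lam : ι → ℝ}
    (hlam : ∀ a, B (v a) = lam a • v a) {u : σ → Ω → ℝ} {κ : σ → ℝ}
    (hκ : ∀ s, B (u s) = κ s • u s) (A : Finset ι)
    (hA : ∀ a ∈ A, v a ∈ Submodule.span ℝ (Set.range u)) (f : ℝ → ℝ) (hf : ∀ s, 0 ≤ f (κ s)) :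
    ∑ a ∈ A, f (lam a) ≤ ∑ s, f (κ s) := by
  classical
  have key : ∀ t : ℝ, (A.filter (fun a => lam a = t)).card ≤
      (univ.filter (fun s => κ s = t)).card := by
    intro t
    have h1 : ∀ a ∈ A.filter (fun a => lam a = t),
        v a ∈ Submodule.span ℝ (((univ.filter (fun s => κ s = t)).image u : Finset _) : Set _) := by
      intro a ha
      obtain ⟨haA, hat⟩ := mem_filter.1 ha
      obtain ⟨c, hc⟩ := (Submodule.mem_span_range_iff_exists_fun ℝ).1 (hA a haA)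
      rw [← Finset.sum_filter_add_sum_filter_not univ (fun s => κ s = t)] at hc
      set p := ∑ s ∈ univ.filter (fun s => κ s = t), c s • u s with hp
      set q := ∑ s ∈ univ.filter (fun s => ¬ κ s = t), c s • u s with hq
      have hBp : B p = t • p := by
        rw [hp, map_sum, Finset.smul_sum]
        refine Finset.sum_congr rfl fun s hs => ?_
        rw [map_smul, hκ, (mem_filter.1 hs).2, smul_comm]
      have hBq : B q = t • q := by
        have : q = v a - p := by rw [← hc]; abel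
        rw [this, map_sub, hlam, hat, hBp, smul_sub]
      have hq0 : q ⬝ᵥ q = 0 := by
        conv_lhs => rw [hq, sum_dotProduct]
        refine Finset.sum_eq_zero fun s hs => ?_
        have h2 := hB (u s) q
        rw [hκ, hBq, smul_dotProduct, dotProduct_smul, smul_eq_mul, smul_eq_mul] at h2
        have h3 : u s ⬝ᵥ q = 0 := by
          have h4 : (κ s - t) * (u s ⬝ᵥ q) = 0 := by linarith
          rcases mul_eq_zero.1 h4 with h5 | h5
          · exact absurd (sub_eq_zero.1 h5) (mem_filter.1 hs).2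
          · exact h5
        rw [smul_dotProduct, h3, smul_zero]
      rw [dotProduct_self_eq_zero.1 hq0, add_zero] at hc
      rw [← hc]
      refine Submodule.sum_mem _ fun s hs => Submodule.smul_mem _ _ (Submodule.subset_span ?_)
      exact Finset.mem_coe.2 (Finset.mem_image_of_mem _ hs)
    have h2 : LinearIndependent ℝ (fun a : (A.filter (fun a => lam a = t)) => v a) :=
      hv.linearIndependent.comp _ Subtype.val_injective
    have h3 := linearIndependent_le_span_aux' _ h2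
      (((univ.filter (fun s => κ s = t)).image u : Finset _) : Set _) (by
        rintro _ ⟨a, rfl⟩
        exact h1 a a.2)
    simp only [Fintype.card_coe, Finset.coe_sort_coe] at h3
    exact h3.trans Finset.card_image_le
  set T := univ.image κ with hT
  have hAT : ∀ a ∈ A, lam a ∈ T := by
    intro a ha
    have := key (lam a)
    have h0 : 0 < (A.filter (fun a' => lam a' = lam a)).card :=
      Finset.card_pos.2 ⟨a, mem_filter.2 ⟨ha, rfl⟩⟩
    obtain ⟨s, hs⟩ := Finset.card_pos.1 (h0.trans_le this)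
    exact Finset.mem_image.2 ⟨s, mem_univ _, (mem_filter.1 hs).2⟩
  rw [← Finset.sum_fiberwise_of_maps_to hAT,
    ← Finset.sum_fiberwise_of_maps_to (s := univ) (t := T) (g := κ)
      (fun s _ => Finset.mem_image_of_mem _ (mem_univ s))]
  refine Finset.sum_le_sum fun t ht => ?_
  have hft : 0 ≤ f t := by
    obtain ⟨s, -, rfl⟩ := Finset.mem_image.1 ht
    exact hf s
  rw [Finset.sum_congr rfl (g := fun _ => f t) (fun a ha => by rw [(mem_filter.1 ha).2]),
    Finset.sum_congr rfl (s₁ := univ.filter _) (g := fun _ => f t)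
      (fun a ha => by rw [(mem_filter.1 ha).2])]
  simp only [Finset.sum_const, nsmul_eq_mul]
  gcongr
  exact_mod_cast key t

end Crest.Agent.R155
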