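import Mathlib
import Crest.Agent.R155.Moment
import Crest.Agent.R155.Op
import Crest.Agent.R155.Spec

/-! Counting the large eigenvalues of the symmetrized transition matrix. -/

open Finset BigOperators Matrix

namespace Crest.Agent.R155

section general

variable {Ω : Type*} [Fintype Ω]

lemma schur_test {M : Matrix Ω Ω ℝ} (hs : ∀ x y, M x y = M y x) (h0 : ∀ x y, 0 ≤ M x y) {r : ℝ}
    (hr : ∀ x, ∑ y, M x y ≤ r) (v : Ω → ℝ) : v ⬝ᵥ (M *ᵥ v) ≤ r * (v ⬝ᵥ v) := by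
  have h1 : v ⬝ᵥ (M *ᵥ v) ≤ ∑ x, ∑ y, (M x y * v x ^ 2 / 2 + M y x * v y ^ 2 / 2) := by
    unfold dotProduct mulVec dotProduct
    refine Finset.sum_le_sum fun x _ => ?_
    rw [Finset.mul_sum]
    refine Finset.sum_le_sum fun y _ => ?_
    rw [← hs x y]
    have := h0 x y
    nlinarith [mul_nonneg this (sq_nonneg (v x - v y))]
  have h2 : ∑ x, ∑ y, M x y * v x ^ 2 / 2 ≤ r * (v ⬝ᵥ v) / 2 := by
    unfold dotProduct
    rw [Finset.mul_sum, Finset.sum_div]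
    refine Finset.sum_le_sum fun x _ => ?_
    rw [← Finset.sum_div, ← Finset.sum_mul, ← sq]
    gcongr
    exact hr x
  simp_rw [Finset.sum_add_distrib] at h1
  rw [Finset.sum_comm (f := fun x y => M y x * v y ^ 2 / 2)] at h1
  linarith

lemma sum_sq_mulVec_le {ι : Type*} [DecidableEq ι] {e : ι → Ω → ℝ} (he : ON e) (A : Finset ι)
    {Ω' : Type*} [Fintype Ω'] (M : Matrix Ω' Ω ℝ) :
    ∑ a ∈ A, (M *ᵥ e a) ⬝ᵥ (M *ᵥ e a) ≤ ∑ x, ∑ y, M x y ^ 2 := by
  unfold dotProduct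
  rw [Finset.sum_comm]
  refine Finset.sum_le_sum fun x _ => ?_
  have := he.bessel A (M x)
  simp only [sq] at this ⊢
  exact this

lemma count_split {b₁ b₂ : Matrix Ω Ω ℝ} (hs : ∀ x y, b₂ x y = b₂ y x) (h0 : ∀ x y, 0 ≤ b₂ x y)
    {r t : ℝ} (hr0 : 0 ≤ r) (hr : ∀ x, ∑ y, b₂ x y ≤ r) (ht : ∑ x, ∑ y, b₁ x y ^ 2 ≤ t)
    {ι : Type*} [DecidableEq ι] {e : ι → Ω → ℝ} (he : ON e) {κ : ι → ℝ}
    (hκ : ∀ a, (b₁ + b₂) *ᵥ e a = κ a • e a) (A : Finset ι) (hA : ∀ a ∈ A, 2 * r ≤ κ a) :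
    A.card * r ^ 2 ≤ t := by
  refine le_trans ?_ ((sum_sq_mulVec_le he A b₁).trans ht)
  rw [← nsmul_eq_mul, ← Finset.sum_const]
  refine Finset.sum_le_sum fun a ha => ?_
  have h1 : e a ⬝ᵥ (b₁ *ᵥ e a) + e a ⬝ᵥ (b₂ *ᵥ e a) = κ a := by
    rw [← dotProduct_add, ← add_mulVec, hκ, dotProduct_smul, he.self, smul_eq_mul, mul_one]
  have h2 := schur_test hs h0 hr (e a)
  rw [he.self, mul_one] at h2
  have h3 : r ≤ e a ⬝ᵥ (b₁ *ᵥ e a) := by have := hA a ha; linarith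
  have h4 := he.bessel {a} (b₁ *ᵥ e a)
  rw [Finset.sum_singleton, dotProduct_comm] at h4
  exact (pow_le_pow_left₀ hr0 h3 2).trans h4

lemma dyadic_sum {ι : Type*} (A : Finset ι) {κ : ι → ℝ} (h0 : ∀ a, 0 ≤ κ a) (h1 : ∀ a, κ a ≤ 1)
    {C : ℝ} (hC : 0 ≤ C)
    (h : ∀ s : ℕ, ((A.filter (fun a => (2 ^ (s + 1) : ℝ)⁻¹ ≤ κ a)).card : ℝ) ≤ C * 2 ^ (34 * s)) :
    ∑ a ∈ A, κ a ^ 40 ≤ 2 * C := by
  have hex : ∀ a, ∃ s : ℕ, κ a = 0 ∨ ((2 ^ (s + 1) : ℝ)⁻¹ ≤ κ a ∧ κ a ≤ (2 ^ s : ℝ)⁻¹) := by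
    intro a
    rcases (h0 a).eq_or_lt with h | h
    · exact ⟨0, Or.inl h.symm⟩
    · obtain ⟨s, hs1, hs2⟩ := exists_nat_pow_near_of_lt_one h (h1 a)
        (by norm_num : (0 : ℝ) < 2⁻¹) (by norm_num)
      exact ⟨s, Or.inr ⟨by rw [← inv_pow]; exact hs1.le, by rw [← inv_pow]; exact hs2⟩⟩
  choose s hs using hex
  set S := A.sup s + 1 with hS
  have hpt : ∀ a ∈ A, κ a ^ 40 ≤ ∑ l ∈ range S,
      (if (2 ^ (l + 1) : ℝ)⁻¹ ≤ κ a then ((2 ^ l : ℝ)⁻¹) ^ 40 else 0) := by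
    intro a ha
    rcases hs a with h | h
    · rw [h, zero_pow (by norm_num)]
      exact Finset.sum_nonneg fun l _ => by split_ifs <;> positivity
    · have hm : s a ∈ range S := mem_range.2 (Nat.lt_succ_of_le (Finset.le_sup (f := s) ha))
      refine le_trans ?_ (Finset.single_le_sum (f := fun l =>
        if (2 ^ (l + 1) : ℝ)⁻¹ ≤ κ a then ((2 ^ l : ℝ)⁻¹) ^ 40 else 0)
        (fun l _ => by split_ifs <;> positivity) hm)
      simp only [if_pos h.1]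
      exact pow_le_pow_left₀ (h0 a) h.2 40
  refine (Finset.sum_le_sum hpt).trans ?_
  rw [Finset.sum_comm]
  calc _ ≤ ∑ l ∈ range S, C * (1 / 2) ^ l := by
        refine Finset.sum_le_sum fun l _ => ?_
        rw [← Finset.sum_filter, Finset.sum_const, nsmul_eq_mul]
        calc _ ≤ C * 2 ^ (34 * l) * ((2 ^ l : ℝ)⁻¹) ^ 40 := by gcongr; exact h l
          _ = C * (1 / 2) ^ l * ((2 : ℝ) ^ (5 * l))⁻¹ := by
              rw [one_div, inv_pow, inv_pow, ← pow_mul, show l * 40 = 34 * l + (l + 5 * l) by ring,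
                pow_add, pow_add]
              field_simp
          _ ≤ C * (1 / 2) ^ l := by
              refine mul_le_of_le_one_right (by positivity) (inv_le_one_of_one_le₀ ?_)
              exact one_le_pow₀ (by norm_num)
    _ ≤ 2 * C := by
        rw [← Finset.mul_sum, mul_comm]
        gcongr
        exact sum_geometric_two_le S

end general

variable {D : ℕ}

section action

variable (D) (Ω : Type*) [MulAction (Equiv.Perm (Pos D)) Ω] [DecidableEq Ω] [Fintype Ω]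

/-- The symmetrized transition matrix. -/
noncomputable def bmat : Matrix Ω Ω ℝ := Tmat D Ω * (Tmat D Ω)ᵀ

variable {D Ω}

lemma bmat_transpose : (bmat D Ω)ᵀ = bmat D Ω := by simp [bmat]

lemma bmat_apply (x y : Ω) : bmat D Ω x y =
    𝔼 ω₁ : Bits D, 𝔼 ω₂ : Bits D, if sig ω₂ D • (sig ω₁ D)⁻¹ • x = y then (1 : ℝ) else 0 := by
  rw [bmat, Matrix.mul_apply]
  simp only [transpose_apply, Tmat, Finset.expect_mul_expect]
  rw [← Finset.expect_sum_comm]
  refine Finset.expect_congr rfl fun ω₁ _ => ?_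
  rw [← Finset.expect_sum_comm]
  refine Finset.expect_congr rfl fun ω₂ _ => ?_
  rw [Finset.sum_eq_single ((sig ω₁ D)⁻¹ • x)]
  · simp
  · intro z _ hz
    rw [if_neg, zero_mul]
    rintro rfl
    simp at hz
  · simp

lemma bmat_nonneg (x y : Ω) : 0 ≤ bmat D Ω x y := by
  rw [bmat_apply]
  exact Finset.expect_nonneg fun _ _ => Finset.expect_nonneg fun _ _ => by split_ifs <;> norm_num

lemma bmat_row (x : Ω) : ∑ y, bmat D Ω x y = 1 := by
  simp_rw [bmat_apply]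
  rw [← Finset.expect_sum_comm]
  simp_rw [← Finset.expect_sum_comm]
  simp

lemma bmat_dot (v : Ω → ℝ) :
    v ⬝ᵥ (bmat D Ω *ᵥ v) = ((Tmat D Ω)ᵀ *ᵥ v) ⬝ᵥ ((Tmat D Ω)ᵀ *ᵥ v) := by
  rw [bmat, ← mulVec_mulVec, dotProduct_mulVec, ← mulVec_transpose]

lemma bmat_eigen_nonneg {v : Ω → ℝ} {t : ℝ} (hv : v ⬝ᵥ v = 1) (h : bmat D Ω *ᵥ v = t • v) :
    0 ≤ t := by
  have := bmat_dot (D := D) v
  rw [h, dotProduct_smul, hv, smul_eq_mul, mul_one] at this
  rw [this]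
  exact dot_self_nonneg _

lemma bmat_eigen_le_one {v : Ω → ℝ} {t : ℝ} (hv : v ⬝ᵥ v = 1) (h : bmat D Ω *ᵥ v = t • v) :
    t ≤ 1 := by
  have := schur_test (M := bmat D Ω)
    (fun x y => by rw [← transpose_apply (bmat D Ω), bmat_transpose]) bmat_nonneg
    (fun x => (bmat_row x).le) v
  rwa [h, dotProduct_smul, hv, smul_eq_mul, mul_one, mul_one] at this

end action

theorem count_main {ι : Type*} [Fintype ι] [DecidableEq ι] {M : ℝ} (hM : 0 < M)
    (hT : TailOK D (Fintype.card ι) M) {σ : Type*} [DecidableEq σ]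
    {e : σ → (ι ↪ Pos D) → ℝ} (he : ON e) {κ : σ → ℝ}
    (hκ : ∀ a, bmat D (ι ↪ Pos D) *ᵥ e a = κ a • e a) (A : Finset σ) :
    ∑ a ∈ A, κ a ^ 40 ≤ 2 ^ 101 * M := by
  rw [show (2 : ℝ) ^ 101 * M = 2 * (2 ^ 100 * M) by ring]
  refine dyadic_sum A (fun a => bmat_eigen_nonneg (he.self a) (hκ a))
    (fun a => bmat_eigen_le_one (he.self a) (hκ a)) (by positivity) fun s => ?_
  set t : ℝ := M * 2 ^ (32 * (s + 3)) with ht
  let W : (ι ↪ Pos D) → Bits D → Bits D → ℝ := fun x ω₁ ω₂ =>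
    Wt ω₁ ω₂ (univ.map ((sig ω₁ D)⁻¹ • x)) D
  let b₁ : Matrix (ι ↪ Pos D) (ι ↪ Pos D) ℝ := fun x y => 𝔼 ω₁ : Bits D, 𝔼 ω₂ : Bits D,
    if sig ω₂ D • (sig ω₁ D)⁻¹ • x = y ∧ W x ω₁ ω₂ ≤ t then (1 : ℝ) else 0
  let b₂ : Matrix (ι ↪ Pos D) (ι ↪ Pos D) ℝ := fun x y => 𝔼 ω₁ : Bits D, 𝔼 ω₂ : Bits D,
    if sig ω₂ D • (sig ω₁ D)⁻¹ • x = y ∧ t < W x ω₁ ω₂ then (1 : ℝ) else 0
  have hb : b₁ + b₂ = bmat D (ι ↪ Pos D) := by
    ext x y
    rw [Matrix.add_apply, bmat_apply]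
    simp only [b₁, b₂, ← Finset.expect_add_distrib]
    refine Finset.expect_congr rfl fun ω₁ _ => Finset.expect_congr rfl fun ω₂ _ => ?_
    by_cases h1 : sig ω₂ D • (sig ω₁ D)⁻¹ • x = y
    · rcases le_or_gt (W x ω₁ ω₂) t with h2 | h2
      · simp [h1, h2]
      · simp [h1, h2]
    · simp [h1]
  have hb₂0 : ∀ x y, 0 ≤ b₂ x y := fun x y =>
    Finset.expect_nonneg fun _ _ => Finset.expect_nonneg fun _ _ => by split_ifs <;> norm_num
  have hb₁0 : ∀ x y, 0 ≤ b₁ x y := fun x y =>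
    Finset.expect_nonneg fun _ _ => Finset.expect_nonneg fun _ _ => by split_ifs <;> norm_num
  have hs : ∀ x y, b₂ x y = b₂ y x := by
    intro x y
    simp only [b₂]
    rw [Finset.expect_comm]
    refine Finset.expect_congr rfl fun ω₂ _ => Finset.expect_congr rfl fun ω₁ _ => ?_
    refine if_congr ?_ rfl rfl
    constructor
    · rintro ⟨rfl, h⟩
      refine ⟨by simp, ?_⟩
      simpa [W, Wt_symm ω₂ ω₁] using h
    · rintro ⟨rfl, h⟩
      refine ⟨by simp, ?_⟩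
      simpa [W, Wt_symm ω₂ ω₁] using h
  have hr : ∀ x, ∑ y, b₂ x y ≤ (2 ^ (s + 2))⁻¹ := by
    intro x
    refine le_trans ?_ (hT (univ.map x) (by simp) s)
    simp only [b₂]
    rw [← Finset.expect_sum_comm]
    refine Finset.expect_le_expect fun ω₁ _ => ?_
    rw [← Finset.expect_sum_comm]
    refine Finset.expect_le_expect fun ω₂ _ => ?_
    have : (univ.map x).map (sig ω₁ D)⁻¹.toEmbedding = univ.map ((sig ω₁ D)⁻¹ • x) := by
      rw [Finset.map_map]; rfl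
    rw [this, Finset.sum_eq_single (sig ω₂ D • (sig ω₁ D)⁻¹ • x)]
    · simp [W, ht]
    · intro y _ hy
      rw [if_neg]
      rintro ⟨h, -⟩
      exact hy h.symm
    · simp
  have ht0 : 0 < t := by positivity
  have hb₁ : ∀ x y, b₁ x y ≤ t * ((2 ^ Fintype.card ι : ℝ)⁻¹) ^ D := by
    intro x y
    refine le_trans ?_ (mul_le_mul_of_nonneg_left (looping D le_rfl x y) ht0.le)
    rw [Finset.mul_expect]
    refine Finset.expect_le_expect fun ω₁ _ => ?_
    rw [Finset.mul_expect]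
    refine Finset.expect_le_expect fun ω₂ _ => ?_
    unfold loopF
    have hW := Wt_pos ω₁ ω₂ (univ.map ((sig ω₁ D)⁻¹ • x)) D
    split_ifs with h1 h2 h2
    · rw [← div_eq_mul_inv, one_le_div hW]
      exact h1.2
    · exact absurd h1.1 h2
    · positivity
    · simp
  have hHS : ∑ x, ∑ y, b₁ x y ^ 2 ≤ t := by
    calc ∑ x, ∑ y, b₁ x y ^ 2 ≤ ∑ x : ι ↪ Pos D, t * ((2 ^ Fintype.card ι : ℝ)⁻¹) ^ D := by
          refine Finset.sum_le_sum fun x _ => ?_
          calc ∑ y, b₁ x y ^ 2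
              ≤ ∑ y, t * ((2 ^ Fintype.card ι : ℝ)⁻¹) ^ D * bmat D (ι ↪ Pos D) x y := by
                refine Finset.sum_le_sum fun y _ => ?_
                rw [sq, ← hb, Matrix.add_apply]
                exact mul_le_mul (hb₁ x y) (le_add_of_nonneg_right (hb₂0 x y)) (hb₁0 x y)
                  (by positivity)
            _ = _ := by rw [← Finset.mul_sum, bmat_row, mul_one]
      _ ≤ t := by
          rw [Finset.sum_const, nsmul_eq_mul, mul_left_comm]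
          refine mul_le_of_le_one_right ht0.le ?_
          rw [inv_pow, ← div_eq_mul_inv, div_le_one (by positivity), Finset.card_univ,
            Fintype.card_embedding_eq, ← pow_mul, mul_comm, pow_mul]
          have := Nat.descFactorial_le_pow (Fintype.card (Pos D)) (Fintype.card ι)
          have h2 : Fintype.card (Pos D) = 2 ^ D := by simp
          rw [h2] at this ⊢
          exact_mod_cast this
  have := count_split hs hb₂0 (by positivity) hr hHS he (κ := κ) (by rw [hb]; exact hκ)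
    (A.filter (fun a => (2 ^ (s + 1) : ℝ)⁻¹ ≤ κ a)) (fun a ha => by
      refine le_trans (le_of_eq ?_) (mem_filter.1 ha).2
      rw [pow_succ _ (s + 1)]
      field_simp)
  rw [inv_pow, ← div_eq_mul_inv, div_le_iff₀ (by positivity)] at this
  refine this.trans (le_of_eq ?_)
  rw [ht]
  ring

end Crest.Agent.R155
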