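import Mathlib
import Crest.Agent.R155.Count

/-! Degenerate parts of the permutation modules and the centred second moment. -/

open Finset BigOperators Matrix

namespace Crest.Agent.R155

section act

variable {G : Type*} [Group G] [Fintype G] [DecidableEq G]

/-- The matrix of a weighted sum of group elements. -/
noncomputable def actM (Ω : Type*) [MulAction G Ω] [DecidableEq Ω] (κ : G → ℝ) : Matrix Ω Ω ℝ :=
  fun y x => ∑ g, κ g * if g • x = y then 1 else 0

variable {Ω : Type*} [MulAction G Ω] [DecidableEq Ω] [Fintype Ω]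

omit [DecidableEq G] in
lemma actM_mulVec (κ : G → ℝ) (h : Ω → ℝ) (y : Ω) :
    (actM Ω κ *ᵥ h) y = ∑ g, κ g * h (g⁻¹ • y) := by
  unfold mulVec dotProduct actM
  simp_rw [Finset.sum_mul]
  rw [Finset.sum_comm]
  refine Finset.sum_congr rfl fun g _ => ?_
  rw [Finset.sum_eq_single (g⁻¹ • y)]
  · simp
  · intro x _ hx
    rw [if_neg, mul_zero, zero_mul]
    rintro rfl
    simp at hx
  · simp

/-- Convolution. -/
noncomputable def conv (κ κ' : G → ℝ) : G → ℝ := fun g => ∑ h, κ h * κ' (h⁻¹ * g)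

omit [DecidableEq G] in
lemma actM_conv (κ κ' : G → ℝ) : actM Ω (conv κ κ') = actM Ω κ * actM Ω κ' := by
  ext y x
  have h1 : (actM Ω κ * actM Ω κ') y x = (actM Ω κ *ᵥ fun z => actM Ω κ' z x) y := rfl
  rw [h1, actM_mulVec]
  unfold actM conv
  simp_rw [Finset.sum_mul, Finset.mul_sum]
  rw [Finset.sum_comm]
  refine Finset.sum_congr rfl fun h _ => ?_
  refine (Fintype.sum_equiv (Equiv.mulLeft h) _ _ fun g => ?_).symm
  simp only [Equiv.coe_mulLeft, inv_mul_cancel_left, mul_assoc, mul_smul, eq_inv_smul_iff]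

/-- Convolution powers. -/
noncomputable def cpw (β : G → ℝ) : ℕ → G → ℝ
  | 0 => fun g => if g = 1 then 1 else 0
  | p + 1 => conv (cpw β p) β

lemma actM_cpw (β : G → ℝ) (p : ℕ) : actM Ω (cpw β p) = actM Ω β ^ p := by
  induction p with
  | zero =>
    ext y x
    simp only [actM, cpw, pow_zero, Matrix.one_apply, ite_mul, one_mul, zero_mul,
      Finset.sum_ite_eq', mem_univ, if_true, one_smul, eq_comm]
  | succ p ih => rw [cpw, actM_conv, ih, pow_succ]

omit [DecidableEq G] [DecidableEq Ω] in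
lemma sum_orbit (htr : ∀ x y : Ω, ∃ g : G, g • x = y) (F : Ω → ℝ) (x₀ : Ω) :
    (Fintype.card Ω : ℝ) * ∑ g : G, F (g • x₀) = Fintype.card G * ∑ x, F x := by
  have h1 : ∀ x, ∑ g : G, F (g • x₀) = ∑ g : G, F (g • x) := by
    intro x
    obtain ⟨h, rfl⟩ := htr x₀ x
    refine (Fintype.sum_equiv (Equiv.mulRight h) _ _ fun g => ?_).symm
    simp [mul_smul]
  calc (Fintype.card Ω : ℝ) * ∑ g : G, F (g • x₀) = ∑ x : Ω, ∑ g : G, F (g • x) := by
        rw [← Finset.sum_congr rfl fun x _ => h1 x]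
        simp
    _ = _ := by
        have h2 : ∀ g : G, ∑ x, F (g • x) = ∑ x, F x := fun g =>
          Fintype.sum_equiv (MulAction.toPerm g) _ _ fun x => rfl
        rw [Finset.sum_comm]
        simp [h2]

end act

variable {α : Type*} [Fintype α] [DecidableEq α]

lemma sum_restrict {ι ι' : Type*} [Fintype ι] [Fintype ι'] [DecidableEq ι] [DecidableEq ι']
    (φ : ι ↪ ι') (f : (ι ↪ α) → ℝ) :
    (Fintype.card (ι ↪ α) : ℝ) * ∑ x : ι' ↪ α, f (φ.trans x)
      = Fintype.card (ι' ↪ α) * ∑ y, f y := by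
  rcases isEmpty_or_nonempty (ι' ↪ α) with h | ⟨⟨x₀⟩⟩
  · simp
  have h1 := sum_orbit (G := Equiv.Perm α) Equiv.Perm.exists_smul_eq_embedding
    (fun x : ι' ↪ α => f (φ.trans x)) x₀
  have h2 := sum_orbit (G := Equiv.Perm α) Equiv.Perm.exists_smul_eq_embedding f (φ.trans x₀)
  have h3 : ∑ g : Equiv.Perm α, f (φ.trans (g • x₀)) = ∑ g : Equiv.Perm α, f (g • φ.trans x₀) := rfl
  have h4 : (0 : ℝ) < Fintype.card (Equiv.Perm α) := by exact_mod_cast Fintype.card_pos
  refine mul_left_cancel₀ h4.ne' ?_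
  rw [mul_left_comm, ← h1, mul_left_comm _ _ (∑ y, f y), ← h2, h3]
  ring

/-- The centred second moment attached to a family of positions. -/
noncomputable def cmom (κ : Equiv.Perm α → ℝ) {ι : Type*} [Fintype ι] (x : ι → α) : ℝ :=
  ∑ g, ∑ g', κ g * κ g' *
    ∏ i, ((if g (x i) = g' (x i) then (1 : ℝ) else 0) - (Fintype.card α : ℝ)⁻¹)

/-- The centred kernel. -/
noncomputable def cker (κ : Equiv.Perm α → ℝ) {ι : Type*} [Fintype ι] (z x : ι → α) : ℝ :=
  ∑ g, κ g * ∏ i, ((if g (x i) = z i then (1 : ℝ) else 0) - (Fintype.card α : ℝ)⁻¹)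

lemma cmom_eq [Nonempty α] (κ : Equiv.Perm α → ℝ) {ι : Type*} [Fintype ι] [DecidableEq ι]
    (x : ι → α) : cmom κ x = ∑ z : ι → α, cker κ z x ^ 2 := by
  have hn : (Fintype.card α : ℝ) ≠ 0 := by exact_mod_cast Fintype.card_ne_zero
  have h1 : ∀ a b : α, ∑ z : α, ((if a = z then (1 : ℝ) else 0) - (Fintype.card α : ℝ)⁻¹) *
      ((if b = z then (1 : ℝ) else 0) - (Fintype.card α : ℝ)⁻¹)
      = (if a = b then (1 : ℝ) else 0) - (Fintype.card α : ℝ)⁻¹ := by
    intro a b
    simp only [sub_mul, mul_sub, Finset.sum_sub_distrib, ite_mul, one_mul, zero_mul, mul_ite,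
      mul_one, mul_zero, Finset.sum_ite_eq, mem_univ, if_true, Finset.sum_const, card_univ,
      nsmul_eq_mul]
    rw [← mul_assoc, mul_inv_cancel₀ hn, one_mul, sub_self, sub_zero]
  unfold cmom cker
  simp_rw [sq, Finset.sum_mul_sum]
  rw [Finset.sum_comm (s := (univ : Finset (ι → α)))]
  refine Finset.sum_congr rfl fun g _ => ?_
  rw [Finset.sum_comm (s := (univ : Finset (ι → α)))]
  refine Finset.sum_congr rfl fun g' _ => ?_
  simp_rw [mul_mul_mul_comm (κ g), ← Finset.prod_mul_distrib]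
  rw [← Finset.mul_sum, Finset.prod_congr rfl fun i _ => (h1 (g (x i)) (g' (x i))).symm,
    Finset.prod_univ_sum, Fintype.piFinset_univ]

lemma cmom_nonneg [Nonempty α] (κ : Equiv.Perm α → ℝ) {ι : Type*} [Fintype ι] (x : ι → α) :
    0 ≤ cmom κ x := by
  classical
  rw [cmom_eq]
  positivity

/-- Functions of an injective tuple that ignore coordinate `i`. -/
def Ign (ι α : Type*) (i : ι) : Submodule ℝ ((ι ↪ α) → ℝ) where
  carrier := {h | ∀ x x' : ι ↪ α, (∀ i', i' ≠ i → x i' = x' i') → h x = h x'}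
  add_mem' := by
    intro a b ha hb x x' h
    simp [ha x x' h, hb x x' h]
  zero_mem' := by intro x x' _; rfl
  smul_mem' := by
    intro c a ha x x' h
    simp [ha x x' h]

/-- The degenerate part. -/
noncomputable def Deg (ι α : Type*) [Fintype ι] [Fintype α] [DecidableEq ι] [DecidableEq α] :
    Submodule ℝ ((ι ↪ α) → ℝ) :=
  perp (⨆ i, Ign ι α i)

variable {ι : Type*} [Fintype ι] [DecidableEq ι]

omit [DecidableEq ι] in
lemma actM_Ign (κ : Equiv.Perm α → ℝ) (i : ι) {h : (ι ↪ α) → ℝ} (hh : h ∈ Ign ι α i) :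
    actM (ι ↪ α) κ *ᵥ h ∈ Ign ι α i := by
  intro x x' hx
  rw [actM_mulVec, actM_mulVec]
  refine Finset.sum_congr rfl fun g _ => ?_
  rw [hh (g⁻¹ • x) (g⁻¹ • x') fun i' hi' => ?_]
  simp only [Function.Embedding.smul_apply, hx i' hi']

lemma actM_Deg {κ : Equiv.Perm α → ℝ} (hs : (actM (ι ↪ α) κ)ᵀ = actM (ι ↪ α) κ)
    {h : (ι ↪ α) → ℝ} (hh : h ∈ Deg ι α) : actM (ι ↪ α) κ *ᵥ h ∈ Deg ι α := by
  refine perp_invariant (B := (actM (ι ↪ α) κ).mulVecLin) (B' := (actM (ι ↪ α) κ).mulVecLin)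
    (fun u v => symm_mulVec_dot hs u v) ?_ h hh
  intro u hu
  refine Submodule.iSup_induction _ (motive := fun u => (actM (ι ↪ α) κ).mulVecLin u ∈ _) hu
    (fun i x hx => Submodule.mem_iSup_of_mem i (actM_Ign κ i hx)) (by simp) ?_
  intro x y hx hy
  rw [map_add]
  exact Submodule.add_mem _ hx hy

omit [DecidableEq ι] in
lemma actM_embed (κ : Equiv.Perm α → ℝ) (z x : ι ↪ α) :
    actM (ι ↪ α) κ z x = ∑ g, κ g * ∏ i, (if g (x i) = z i then (1 : ℝ) else 0) := by
  unfold actM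
  refine Finset.sum_congr rfl fun g _ => ?_
  simp [Finset.prod_boole, DFunLike.ext_iff]

lemma cker_dot (κ : Equiv.Perm α → ℝ) (z : ι ↪ α) {e : (ι ↪ α) → ℝ} (he : e ∈ Deg ι α) :
    (actM (ι ↪ α) κ *ᵥ e) z = (fun x : ι ↪ α => cker κ z x) ⬝ᵥ e := by
  have h1 : (fun x : ι ↪ α => cker κ z x) - actM (ι ↪ α) κ z ∈ ⨆ i, Ign ι α i := by
    have h2 : (fun x : ι ↪ α => cker κ z x) - actM (ι ↪ α) κ z =
        ∑ t ∈ univ.erase (univ : Finset ι), fun x : ι ↪ α => ∑ g, κ g *
          ((∏ i ∈ t, (if g (x i) = z i then (1 : ℝ) else 0)) *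
            ∏ _i ∈ tᶜ, (-(Fintype.card α : ℝ)⁻¹)) := by
      ext x
      rw [Pi.sub_apply, actM_embed, Finset.sum_apply, Finset.sum_comm, cker,
        ← Finset.sum_sub_distrib]
      refine Finset.sum_congr rfl fun g _ => ?_
      simp_rw [sub_eq_add_neg _ (Fintype.card α : ℝ)⁻¹]
      rw [Fintype.prod_add, ← Finset.mul_sum, ← mul_sub,
        ← Finset.sum_erase_add _ _ (mem_univ (univ : Finset ι))]
      simp
    rw [h2]
    refine Submodule.sum_mem _ fun t ht => ?_
    obtain ⟨i, hi⟩ : ∃ i, i ∉ t := by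
      by_contra hcon
      push Not at hcon
      exact (mem_erase.1 ht).1 (Finset.eq_univ_of_forall hcon)
    refine Submodule.mem_iSup_of_mem i ?_
    intro x x' hx
    refine Finset.sum_congr rfl fun g _ => ?_
    congr 2
    refine Finset.prod_congr rfl fun i' hi' => ?_
    rw [hx i' (fun h => hi (h ▸ hi'))]
  have h3 := he _ h1
  rw [sub_dotProduct, sub_eq_zero] at h3
  exact h3.symm

/-- Bessel bound on the degenerate part. -/
lemma deg_bessel [Nonempty α] (κ : Equiv.Perm α → ℝ) {σ : Type*} [DecidableEq σ]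
    {e : σ → (ι ↪ α) → ℝ} (he : ON e) (hd : ∀ s, e s ∈ Deg ι α) (A : Finset σ) :
    ∑ s ∈ A, (actM (ι ↪ α) κ *ᵥ e s) ⬝ᵥ (actM (ι ↪ α) κ *ᵥ e s) ≤ ∑ x : ι ↪ α, cmom κ x := by
  have h1 : ∀ s, actM (ι ↪ α) κ *ᵥ e s
      = (Matrix.of fun (z x : ι ↪ α) => cker κ z x) *ᵥ e s := by
    intro s
    ext z
    exact cker_dot κ z (hd s)
  simp_rw [h1]
  refine (sum_sq_mulVec_le he A _).trans ?_
  rw [Finset.sum_comm]
  refine Finset.sum_le_sum fun x _ => ?_
  rw [cmom_eq]
  simp only [of_apply]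
  refine (Finset.sum_map (f := fun z : ι → α => cker κ z x ^ 2) univ
    ⟨fun z : ι ↪ α => (z : ι → α), DFunLike.coe_injective⟩).symm.trans_le ?_
  exact Finset.sum_le_sum_of_subset_of_nonneg (subset_univ _) fun _ _ _ => sq_nonneg _

lemma hs_expand (κ : Equiv.Perm α → ℝ) :
    ∑ z, ∑ x, actM (ι ↪ α) κ z x ^ 2 =
      ∑ t : Finset ι, ((Fintype.card α : ℝ)⁻¹) ^ tᶜ.card *
        ∑ x : ι ↪ α, cmom κ (fun i : t => x i) := by
  rw [Finset.sum_comm]
  simp_rw [Finset.mul_sum]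
  rw [Finset.sum_comm (s := (univ : Finset (Finset ι)))]
  refine Finset.sum_congr rfl fun x _ => ?_
  have h1 : ∑ z, actM (ι ↪ α) κ z x ^ 2 =
      ∑ g, ∑ g', κ g * κ g' * ∏ i, (if g (x i) = g' (x i) then (1 : ℝ) else 0) := by
    unfold actM
    simp_rw [sq, Finset.sum_mul_sum]
    rw [Finset.sum_comm]
    refine Finset.sum_congr rfl fun g _ => ?_
    rw [Finset.sum_comm]
    refine Finset.sum_congr rfl fun g' _ => ?_
    rw [Finset.sum_eq_single (g • x)]
    · simp [Finset.prod_boole, DFunLike.ext_iff, eq_comm]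
    · intro z _ hz
      rw [if_neg (Ne.symm hz), mul_zero, zero_mul]
    · simp
  rw [h1]
  unfold cmom
  simp_rw [Finset.mul_sum]
  rw [Finset.sum_comm (s := (univ : Finset (Finset ι)))]
  refine Finset.sum_congr rfl fun g _ => ?_
  rw [Finset.sum_comm (s := (univ : Finset (Finset ι)))]
  refine Finset.sum_congr rfl fun g' _ => ?_
  have h2 : ∀ i, (if g (x i) = g' (x i) then (1 : ℝ) else 0) =
      ((if g (x i) = g' (x i) then (1 : ℝ) else 0) - (Fintype.card α : ℝ)⁻¹)
        + (Fintype.card α : ℝ)⁻¹ := fun i => by ring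
  rw [Finset.prod_congr rfl fun i _ => h2 i, Fintype.prod_add, Finset.mul_sum]
  refine Finset.sum_congr rfl fun t _ => ?_
  rw [Finset.prod_const, Finset.prod_coe_sort t
    (fun i => (if g (x i) = g' (x i) then (1 : ℝ) else 0) - (Fintype.card α : ℝ)⁻¹)]
  ring

omit [DecidableEq ι] in
lemma cmom_equiv (κ : Equiv.Perm α → ℝ) {ι' : Type*} [Fintype ι'] (φ : ι' ≃ ι) (x : ι → α) :
    cmom κ (fun i => x (φ i)) = cmom κ x := by
  unfold cmom
  refine Finset.sum_congr rfl fun g _ => Finset.sum_congr rfl fun g' _ => ?_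
  congr 1
  exact Fintype.prod_equiv φ _ _ fun _ => rfl

theorem cmom_le_hs [Nonempty α] (κ : Equiv.Perm α → ℝ) {ι' : Type*} [Fintype ι'] [DecidableEq ι']
    (hk : Fintype.card ι ≤ Fintype.card ι') (hj : Fintype.card ι' ≤ Fintype.card α) :
    ((Fintype.card ι').choose (Fintype.card ι) : ℝ) *
      (1 - (Fintype.card ι' : ℝ) / Fintype.card α) ^ (Fintype.card ι') * ∑ x : ι ↪ α, cmom κ x
      ≤ ∑ z, ∑ x, actM (ι' ↪ α) κ z x ^ 2 := by
  set n := Fintype.card α with hn
  set j := Fintype.card ι' with hjd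
  set k := Fintype.card ι with hkd
  have hn0 : (0 : ℝ) < n := by exact_mod_cast Fintype.card_pos
  have hS : 0 ≤ ∑ x : ι ↪ α, cmom κ x := Finset.sum_nonneg fun x _ => cmom_nonneg κ _
  have hq0 : 0 ≤ 1 - (j : ℝ) / n := by
    rw [sub_nonneg, div_le_one hn0]; exact_mod_cast hj
  rw [hs_expand]
  refine le_trans ?_ (Finset.sum_le_sum_of_subset_of_nonneg
    (subset_univ (powersetCard k univ)) fun t _ _ =>
      mul_nonneg (by positivity) (Finset.sum_nonneg fun x _ => cmom_nonneg κ _))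
  have hc : j.choose k = (powersetCard k (univ : Finset ι')).card := by
    rw [Finset.card_powersetCard, Finset.card_univ]
  rw [hc, mul_assoc, ← nsmul_eq_mul, ← Finset.sum_const]
  refine Finset.sum_le_sum fun t ht => ?_
  have htk : t.card = k := (mem_powersetCard.1 ht).2
  let φ : ι ≃ t := Fintype.equivOfCardEq (by simp [htk, hkd])
  have h1 := sum_restrict (φ.toEmbedding.trans (Function.Embedding.subtype _))
    (fun y : ι ↪ α => cmom κ y)
  have h2 : ∀ x : ι' ↪ α, cmom κ ((φ.toEmbedding.trans (Function.Embedding.subtype _)).trans x)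
      = cmom κ (fun i : t => x i) := fun x => cmom_equiv κ φ (fun i : t => x i)
  simp_rw [h2] at h1
  rw [Fintype.card_embedding_eq, Fintype.card_embedding_eq, ← hn, ← hjd, ← hkd,
    ← Nat.descFactorial_mul_descFactorial hk, Nat.cast_mul, mul_comm _ (n.descFactorial k : ℝ),
    mul_assoc] at h1
  have h3 : (0 : ℝ) < n.descFactorial k := by
    exact_mod_cast Nat.descFactorial_pos.2 (hk.trans hj)
  rw [mul_left_cancel₀ h3.ne' h1, ← mul_assoc, Finset.card_compl, htk, ← hjd]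
  refine mul_le_mul_of_nonneg_right ?_ hS
  calc (1 - (j : ℝ) / n) ^ j ≤ (1 - (j : ℝ) / n) ^ (j - k) :=
        pow_le_pow_of_le_one hq0 (by have : (0 : ℝ) ≤ j / n := by positivity
                                     linarith) (by omega)
    _ = ((n : ℝ)⁻¹) ^ (j - k) * (((n - j) ^ (j - k) : ℕ) : ℝ) := by
        rw [Nat.cast_pow, Nat.cast_sub hj, ← mul_pow]
        congr 1
        field_simp
    _ ≤ _ := by
        gcongr
        refine le_trans ?_ (Nat.pow_sub_le_descFactorial _ _)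
        have h5 : ∀ n j k : ℕ, k ≤ j → j ≤ n → n - j ≤ n - k + 1 - (j - k) := by omega
        exact Nat.pow_le_pow_left (h5 n j k hk hj) _

end Crest.Agent.R155
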