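import Mathlib

set_option autoImplicit false

open Finset BigOperators Matrix
open scoped InnerProductSpace

namespace Crest.Agent.R155

theorem level_gap {α E : Type*} [Fintype α] [DecidableEq α] [Nonempty α] [NormedAddCommGroup E]
    [InnerProductSpace ℝ E] (ρ : Equiv.Perm α →* (E →L[ℝ] E)) (W : Submodule ℝ E)
    (hW : ∀ g, ∀ w ∈ W, ρ g w ∈ W) (hne : W ≠ ⊥) :
    ∃ w ∈ W, w ≠ 0 ∧ ∃ I : Finset α, (∀ h : Equiv.Perm α, (∀ x ∈ I, h x = x) → ρ h w = w) ∧
      (I.card : ℝ) * ‖w‖ ^ 2 ≤
        ⟪w, ((Fintype.card α : ℝ)⁻¹ • ∑ x : α, ∑ y : α, (1 - ρ (Equiv.swap x y))) w⟫_ℝ := by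
  classical
  let blk : (α → α) → α → Finset α := fun col x => univ.filter fun z => col z = col x
  let wt : (α → α) → ℕ := fun col => ∑ x, (blk col x).card
  let good : (α → α) → Prop := fun col =>
    ∃ w ∈ W, w ≠ 0 ∧ ∀ h : Equiv.Perm α, (∀ x, col (h x) = col x) → ρ h w = w
  have hid : good id := by
    obtain ⟨w, hw, hw0⟩ := (Submodule.ne_bot_iff W).mp hne
    refine ⟨w, hw, hw0, fun h hh => ?_⟩
    have : h = 1 := Equiv.ext hh
    simp [this]
  obtain ⟨col, hcol, hmax⟩ := (univ.filter good).exists_max_image wt ⟨id, by simpa using hid⟩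
  obtain ⟨w, hwW, hw0, hinv⟩ : good col := by simpa using hcol
  have hblk : ∀ x z, z ∈ blk col x ↔ col z = col x := fun x z => by simp [blk]
  have hblk_eq : ∀ x z, col z = col x → blk col z = blk col x := fun x z h => by
    simp only [blk, h]
  -- key vanishing
  have key : ∀ x y, col x ≠ col y → (blk col y).card ≤ (blk col x).card →
      ∑ z ∈ blk col x, ⟪w, ρ (Equiv.swap y z) w⟫_ℝ ≤ 0 := by
    intro x y hxy hcard
    have hy : y ∉ blk col x := fun h => hxy ((hblk x y).mp h).symm
    let col' := Function.update col y (col x)
    have hc' : ∀ z, col' z = col x ↔ z ∈ insert y (blk col x) := by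
      intro z
      by_cases hz : z = y
      · subst hz; simp [col']
      · simp [col', hz, hblk]
    have hw' : ∑ z ∈ insert y (blk col x), ρ (Equiv.swap y z) w = 0 := by
      by_contra hne'
      have hg : good col' := by
        refine ⟨_, W.sum_mem fun z _ => hW _ _ hwW, hne', fun h hh => ?_⟩
        rw [map_sum]
        have hmem : ∀ z, z ∈ insert y (blk col x) ↔ h z ∈ insert y (blk col x) := fun z => by
          rw [← hc', ← hc', hh]
        refine Finset.sum_equiv h hmem fun z hz => ?_
        have hz' := (hmem z).mp hz
        have e : h * Equiv.swap y z =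
            Equiv.swap y (h z) * (Equiv.swap y (h z) * h * Equiv.swap y z) := by
          simp [← mul_assoc]
        rw [← mul_apply_eq_comp, ← map_mul, e, map_mul, mul_apply_eq_comp, hinv]
        intro t
        have sw : ∀ a, a ∈ insert y (blk col x) → ∀ t, col' (Equiv.swap y a t) = col' t := by
          intro a ha t
          have h1 := (hc' a).mpr ha
          have h2 := (hc' y).mpr (mem_insert_self _ _)
          rw [Equiv.swap_apply_def]
          split_ifs with t1 t2
          · rw [t1, h1, h2]
          · rw [t2, h1, h2]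
          · rfl
        have h1 : col' ((Equiv.swap y (h z) * h * Equiv.swap y z) t) = col' t := by
          simp only [Equiv.Perm.mul_apply]
          rw [sw _ hz', hh, sw _ hz]
        have h2 : (Equiv.swap y (h z) * h * Equiv.swap y z) y = y := by simp
        by_cases ht : t = y
        · rw [ht, h2]
        · have h3 : (Equiv.swap y (h z) * h * Equiv.swap y z) t ≠ y := fun h3 =>
            ht ((Equiv.swap y (h z) * h * Equiv.swap y z).injective (h3.trans h2.symm))
          simpa only [col', Function.update_of_ne ht, Function.update_of_ne h3] using h1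
      have hle := hmax col' (by simpa using hg)
      have hcnt : ∀ z, (blk col z).card + (if z ∈ blk col x then 1 else 0) +
          (if z = y then (blk col x).card + 1 else 0) =
          (blk col' z).card + (if z ∈ blk col y then 1 else 0) +
          (if z = y then (blk col y).card - 1 else 0) := by
        intro z
        have hyy : y ∈ blk col y := (hblk y y).mpr rfl
        have hpos : 0 < (blk col y).card := card_pos.mpr ⟨y, hyy⟩
        by_cases hz : z = y
        · subst hz
          have : blk col' z = insert z (blk col x) := by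
            ext t
            rw [← hc']
            simp [blk, col']
          rw [this, card_insert_of_notMem hy]
          simp only [hy, hyy, if_true, if_false]
          omega
        · by_cases hzx : z ∈ blk col x
          · have hzy : z ∉ blk col y := fun h => hxy (((hblk x z).mp hzx).symm.trans ((hblk y z).mp h))
            have : blk col' z = insert y (blk col x) := by
              ext t
              rw [← hc', ← (hc' z).mpr (mem_insert_of_mem hzx)]
              simp [blk]
            rw [this, card_insert_of_notMem hy, hblk_eq x z ((hblk x z).mp hzx)]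
            simp [hz, hzx, hzy]
          · have hzc : col z ≠ col x := fun h => hzx ((hblk x z).mpr h)
            have : blk col' z = (blk col z).erase y := by
              ext t
              by_cases ht : t = y
              · subst ht
                simp [blk, col', hz, hzc.symm]
              · simp [blk, col', hz, ht]
            rw [this]
            by_cases hzy : z ∈ blk col y
            · rw [hblk_eq y z ((hblk y z).mp hzy), card_erase_of_mem hyy]
              simp only [hz, hzx, hzy, if_true, if_false]
              omega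
            · rw [erase_eq_of_notMem (fun h => hzy ((hblk y z).mpr ((hblk z y).mp h).symm))]
              simp [hz, hzx, hzy]
      have hsum := Finset.sum_congr rfl fun z (_ : z ∈ (univ : Finset α)) => hcnt z
      simp only [Finset.sum_add_distrib, Finset.sum_ite_mem, univ_inter, Finset.sum_const,
        smul_eq_mul, mul_one, Finset.sum_ite_eq', mem_univ, if_true] at hsum
      have hpos : 0 < (blk col y).card := card_pos.mpr ⟨y, (hblk y y).mpr rfl⟩
      simp only [wt] at hle
      omega
    have h1 := congrArg (fun v => ⟪w, v⟫_ℝ) hw'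
    simp only [Finset.sum_insert hy, inner_add_right, inner_sum, inner_zero_right, Equiv.swap_self,
      ← Equiv.Perm.one_def, map_one, one_apply_eq_self] at h1
    linarith [real_inner_self_nonneg (x := w)]
  -- summation
  let f : α → α → ℝ := fun x y => ⟪w, ρ (Equiv.swap x y) w⟫_ℝ
  have fsymm : ∀ x y, f x y = f y x := fun x y => by simp only [f, Equiv.swap_comm x y]
  have fsame : ∀ x y, col x = col y → f x y = ‖w‖ ^ 2 := by
    intro x y h
    simp only [f]
    rw [hinv, real_inner_self_eq_norm_sq]
    intro t
    rw [Equiv.swap_apply_def]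
    split_ifs with t1 t2
    · rw [t1, h]
    · rw [t2, h]
    · rfl
  have hfib : ∀ (y : α) (P : α → Prop) [DecidablePred P],
      (∀ x, P x → col x ≠ col y ∧ (blk col y).card ≤ (blk col x).card) →
      (∀ x z, col z = col x → P x → P z) → ∑ x, (if P x then f y x else 0) ≤ 0 := by
    intro y P _ h1 h2
    rw [← Finset.sum_fiberwise (s := univ) (g := col)]
    refine Finset.sum_nonpos fun c _ => ?_
    by_cases hc : ∃ x, col x = c ∧ P x
    · obtain ⟨x, rfl, hx⟩ := hc
      refine le_of_eq_of_le (Finset.sum_congr rfl fun z hz => ?_) (key x y (h1 x hx).1 (h1 x hx).2)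
      rw [if_pos (h2 x z ((hblk x z).mp hz) hx)]
    · refine le_of_eq (Finset.sum_eq_zero fun z hz => if_neg fun hP => hc ⟨z, ?_, hP⟩)
      simpa using hz
  obtain ⟨x0, -, hx0⟩ := (univ : Finset α).exists_max_image (fun x => (blk col x).card)
    univ_nonempty
  have s1 : ∑ y, ∑ x, (if col x ≠ col y ∧ (blk col y).card ≤ (blk col x).card then f y x else 0)
      ≤ 0 := Finset.sum_nonpos fun y _ => hfib y _ (fun x h => h) fun x z h hx => by
    rw [hblk_eq x z h, h]; exact hx
  have s2 : ∑ y, ∑ x, (if col x ≠ col y ∧ (blk col y).card < (blk col x).card then f y x else 0)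
      ≤ 0 := Finset.sum_nonpos fun y _ => hfib y _ (fun x h => ⟨h.1, h.2.le⟩) fun x z h hx => by
    rw [hblk_eq x z h, h]; exact hx
  have s3 : ∑ y, ∑ x, (if col x = col y then ‖w‖ ^ 2 else 0) ≤
      (Fintype.card α : ℝ) * ((blk col x0).card * ‖w‖ ^ 2) := by
    rw [← nsmul_eq_mul, ← Finset.card_univ]
    refine Finset.sum_le_card_nsmul _ _ _ fun y _ => ?_
    rw [← Finset.sum_filter, Finset.sum_const, nsmul_eq_mul]
    exact mul_le_mul_of_nonneg_right (by exact_mod_cast hx0 y (mem_univ _)) (sq_nonneg _)
  rw [Finset.sum_comm] at s2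
  have s4 : ∑ y, ∑ x, f y x ≤ (Fintype.card α : ℝ) * ((blk col x0).card * ‖w‖ ^ 2) := by
    refine le_trans (le_of_eq ?_) ((add_le_add (add_le_add s1 s2) s3).trans (le_of_eq (by ring)))
    simp only [← Finset.sum_add_distrib]
    refine Finset.sum_congr rfl fun y _ => Finset.sum_congr rfl fun x _ => ?_
    by_cases h : col x = col y
    · simp [h, fsame y x h.symm]
    · by_cases h' : (blk col y).card ≤ (blk col x).card
      · simp [h, h', not_lt.mpr h']
      · simp [h, h', Ne.symm h, not_le.mp h', fsymm x y]
  refine ⟨w, hwW, hw0, (blk col x0)ᶜ, fun h hh => hinv h fun t => ?_, ?_⟩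
  · by_cases ht : t ∈ blk col x0
    · by_cases ht' : h t ∈ blk col x0
      · rw [(hblk _ _).mp ht, (hblk _ _).mp ht']
      · have := h.injective (hh _ (mem_compl.mpr ht'))
        rw [this]
    · rw [hh t (mem_compl.mpr ht)]
  · have hn : (0 : ℝ) < Fintype.card α := by exact_mod_cast Fintype.card_pos
    have e : ⟪w, ((Fintype.card α : ℝ)⁻¹ • ∑ x : α, ∑ y : α, (1 - ρ (Equiv.swap x y))) w⟫_ℝ =
        (Fintype.card α : ℝ)⁻¹ * ((Fintype.card α : ℝ) * ((Fintype.card α : ℝ) * ‖w‖ ^ 2) -
          ∑ y, ∑ x, f y x) := by
      simp only [_root_.smul_apply, _root_.sum_apply, _root_.sub_apply, one_apply_eq_self,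
        inner_smul_right, inner_sum, inner_sub_right, real_inner_self_eq_norm_sq]
      simp only [Finset.sum_sub_distrib, Finset.sum_const, Finset.card_univ, nsmul_eq_mul, f]
    rw [e, card_compl, Nat.cast_sub (card_le_univ _), ← div_eq_inv_mul, le_div_iff₀ hn]
    nlinarith

end Crest.Agent.R155
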