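import Mathlib
import Crest.Agent.R155.Deg

/-! Lifting functions of injective tuples to functions on the symmetric group. -/

open Finset BigOperators Matrix

namespace Crest.Agent.R155

variable {α : Type*} [Fintype α] [DecidableEq α]

/-- Functions of a permutation that depend only on its values on `I`. -/
def VI (I : Finset α) : Submodule ℝ (Equiv.Perm α → ℝ) where
  carrier := {f | ∀ h : Equiv.Perm α, (∀ x ∈ I, h x = x) → ∀ g, f (g * h) = f g}
  add_mem' := by
    intro a b ha hb h hh g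
    simp [ha h hh g, hb h hh g]
  zero_mem' := by intro h _ g; rfl
  smul_mem' := by
    intro c a ha h hh g
    simp [ha h hh g]

omit [Fintype α] [DecidableEq α] in
lemma VI_mono {I J : Finset α} (h : I ⊆ J) : VI I ≤ VI J :=
  fun _ hf k hk g => hf k (fun x hx => hk x (h hx)) g

/-- The inclusion of a finite set. -/
def incl (J : Finset α) : J ↪ α := Function.Embedding.subtype _

/-- The lift of a function of tuples indexed by `J`. -/
def liftF (J : Finset α) : ((J ↪ α) → ℝ) →ₗ[ℝ] (Equiv.Perm α → ℝ) where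
  toFun h g := h (g • incl J)
  map_add' _ _ := rfl
  map_smul' _ _ := rfl

lemma actM_liftF (κ : Equiv.Perm α → ℝ) (J : Finset α) (h : (J ↪ α) → ℝ) :
    actM (Equiv.Perm α) κ *ᵥ liftF J h = liftF J (actM (J ↪ α) κ *ᵥ h) := by
  ext g
  rw [actM_mulVec]
  change _ = (actM (J ↪ α) κ *ᵥ h) (g • incl J)
  rw [actM_mulVec]
  rfl

omit [Fintype α] [DecidableEq α] in
lemma VI_le_range (I : Finset α) : VI I ≤ Submodule.map (liftF I) ⊤ := by
  intro f hf
  choose σ hσ using fun x : I ↪ α => Equiv.Perm.exists_smul_eq_embedding (incl I) x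
  refine ⟨fun x => f (σ x), Submodule.mem_top, ?_⟩
  ext g
  change f (σ (g • incl I)) = f g
  have := hf (g⁻¹ * σ (g • incl I)) (fun x hx => by
    have h1 := DFunLike.congr_fun (hσ (g • incl I)) ⟨x, hx⟩
    change σ (g • incl I) x = g x at h1
    rw [Equiv.Perm.mul_apply, h1]
    simp) g
  rwa [mul_inv_cancel_left] at this

lemma VI_le_deg (I : Finset α) :
    VI I ≤ ⨆ J ∈ I.powerset, Submodule.map (liftF J) (Deg J α) := by
  induction I using Finset.strongInduction with
  | H I ih =>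
    intro f hf
    obtain ⟨h, -, rfl⟩ := VI_le_range I hf
    obtain ⟨u, hu, hd⟩ := exists_perp_decomp (⨆ i, Ign I α i) h
    have h1 : liftF I h = liftF I u + liftF I (h - u) := by rw [← map_add]; simp
    rw [h1]
    refine Submodule.add_mem _ ?_ ?_
    · refine Submodule.iSup_induction _ (motive := fun u => liftF I u ∈ _) hu ?_ (by simp) ?_
      · intro i x hx
        have h2 : liftF I x ∈ VI (I.erase i) := by
          intro k hk g
          refine hx _ _ fun i' hi' => ?_
          change g (k i') = g i'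
          rw [hk i' (mem_erase.2 ⟨fun h => hi' (Subtype.ext h), i'.2⟩)]
        have h3 := ih (I.erase i) (Finset.erase_ssubset i.2) h2
        refine (biSup_mono ?_ : (⨆ J ∈ (I.erase i).powerset,
          Submodule.map (liftF J) (Deg J α)) ≤ _) h3
        intro J hJ
        exact mem_powerset.2 ((mem_powerset.1 hJ).trans (erase_subset _ _))
      · intro x y hx hy
        rw [map_add]
        exact Submodule.add_mem _ hx hy
    · exact (le_biSup (f := fun J : Finset α => Submodule.map (liftF J) (Deg J α))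
        (mem_powerset_self I)) ⟨h - u, hd, rfl⟩

theorem count_lift {κ : Equiv.Perm α → ℝ}
    (hG : (actM (Equiv.Perm α) κ)ᵀ = actM (Equiv.Perm α) κ)
    (hs : ∀ J : Finset α, (actM (J ↪ α) κ)ᵀ = actM (J ↪ α) κ)
    (𝒥 : Finset (Finset α)) (U : ∀ J : Finset α, Submodule ℝ ((J ↪ α) → ℝ))
    (hU : ∀ J, ∀ u ∈ U J, actM (J ↪ α) κ *ᵥ u ∈ U J)
    {σ : Type*} [DecidableEq σ] {v : σ → Equiv.Perm α → ℝ} (hv : ON v) {lam : σ → ℝ}
    (hlam : ∀ a, actM (Equiv.Perm α) κ *ᵥ v a = lam a • v a) (A : Finset σ)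
    (hA : ∀ a ∈ A, v a ∈ ⨆ J ∈ 𝒥, Submodule.map (liftF J) (U J))
    (p : ℕ) (hp : Even p) (bd : Finset α → ℝ)
    (hbd : ∀ J ∈ 𝒥, ∀ (m : ℕ) (e : Fin m → (J ↪ α) → ℝ) (t : Fin m → ℝ), ON e → (∀ s, e s ∈ U J) →
      (∀ s, actM (J ↪ α) κ *ᵥ e s = t s • e s) → ∑ s, t s ^ p ≤ bd J) :
    ∑ a ∈ A, lam a ^ p ≤ ∑ J ∈ 𝒥, bd J := by
  choose m e t he heU het hsp using fun J : Finset α =>
    exists_eigen_family (actM (J ↪ α) κ).mulVecLin (fun u v => symm_mulVec_dot (hs J) u v)
      (U J) (hU J)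
  have h1 := count_eigen (actM (Equiv.Perm α) κ).mulVecLin (fun u v => symm_mulVec_dot hG u v)
    hv hlam (σ := Σ J : 𝒥, Fin (m J)) (u := fun s => liftF s.1 (e s.1 s.2))
    (κ := fun s => t s.1 s.2) (fun s => by
      rw [mulVecLin_apply, actM_liftF, ← map_smul]
      exact congrArg _ (het s.1 s.2)) A (fun a ha => by
      refine (iSup₂_le ?_ : (⨆ J ∈ 𝒥, Submodule.map (liftF J) (U J)) ≤ _) (hA a ha)
      intro J hJ
      refine (Submodule.map_mono (hsp J)).trans ?_
      rw [Submodule.map_span]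
      refine Submodule.span_mono ?_
      rintro _ ⟨_, ⟨s, rfl⟩, rfl⟩
      exact ⟨⟨⟨J, hJ⟩, s⟩, rfl⟩) (fun x => x ^ p) (fun s => hp.pow_nonneg _)
  refine h1.trans ?_
  rw [Fintype.sum_sigma, ← Finset.sum_coe_sort 𝒥]
  exact Finset.sum_le_sum fun J _ => hbd J J.2 _ _ _ (he J) (heU J) (het J)

end Crest.Agent.R155
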