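import Mathlib
import Crest.Agent.R155.Block

/-! Operator exponentials: the one-block contraction. -/

open Finset BigOperators NormedSpace
open scoped InnerProductSpace

namespace Crest.Agent.R155

variable {E : Type*} [NormedAddCommGroup E] [InnerProductSpace ℝ E] [CompleteSpace E]

lemma exp_add_comm {A B : E →L[ℝ] E} (h : Commute A B) : exp (A + B) = exp A * exp B :=
  exp_add_of_commute_of_mem_ball (𝕂 := ℝ) h
    ((expSeries_radius_eq_top ℝ (E →L[ℝ] E)).symm ▸ edist_lt_top _ _)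
    ((expSeries_radius_eq_top ℝ (E →L[ℝ] E)).symm ▸ edist_lt_top _ _)

/-- Symmetric operators. -/
def Sym (A : E →L[ℝ] E) : Prop := ∀ u w, ⟪A u, w⟫_ℝ = ⟪u, A w⟫_ℝ

lemma Sym.exp {A : E →L[ℝ] E} (h : Sym A) : Sym (exp A) := by
  have h1 : IsSelfAdjoint A := ContinuousLinearMap.isSelfAdjoint_iff_isSymmetric.2 h
  exact ContinuousLinearMap.isSelfAdjoint_iff_isSymmetric.1 h1.exp

omit [CompleteSpace E] in
lemma Sym.smul {A : E →L[ℝ] E} (h : Sym A) (c : ℝ) : Sym (c • A) := fun u w => by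
  simp only [_root_.smul_apply, inner_smul_left, inner_smul_right, h u w, conj_trivial]

omit [CompleteSpace E] in
lemma Sym.sub {A B : E →L[ℝ] E} (h : Sym A) (h' : Sym B) : Sym (A - B) := fun u w => by
  simp only [_root_.sub_apply, inner_sub_left, inner_sub_right, h u w, h' u w]

omit [CompleteSpace E] in
lemma Sym.one : Sym (1 : E →L[ℝ] E) := fun _ _ => rfl

omit [CompleteSpace E] in
lemma Sym.sum {ι : Type*} (s : Finset ι) {A : ι → E →L[ℝ] E} (h : ∀ i, Sym (A i)) :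
    Sym (∑ i ∈ s, A i) := fun u w => by
  simp only [_root_.sum_apply, sum_inner, inner_sum, h _ u w]

lemma exp_apply_eigen {A : E →L[ℝ] E} {v : E} {t : ℝ} (h : A v = t • v) :
    exp A v = Real.exp t • v := by
  have h1 : ∀ n : ℕ, (A ^ n) v = t ^ n • v := by
    intro n
    induction n with
    | zero => simp
    | succ n ih =>
      rw [pow_succ, mul_apply_eq_comp, h, map_smul, ih, smul_smul, pow_succ, mul_comm]
  have h2 := (ContinuousLinearMap.apply ℝ E v).hasSum (exp_series_hasSum_exp' (𝕂 := ℝ) A)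
  simp only [ContinuousLinearMap.apply_apply, _root_.smul_apply, h1, smul_smul] at h2
  have h3 := (exp_series_hasSum_exp' (𝕂 := ℝ) t).smul_const v
  simp only [smul_eq_mul] at h3
  rw [h2.unique h3, Real.exp_eq_exp_ℝ]

lemma one_add_le_exp {A : E →L[ℝ] E} (hs : Sym A) (hp : ∀ u, 0 ≤ ⟪u, A u⟫_ℝ) (v : E) :
    ‖v‖ ^ 2 + ⟪v, A v⟫_ℝ ≤ ⟪v, exp A v⟫_ℝ := by
  have h1 : ∀ n : ℕ, ∀ u, 0 ≤ ⟪u, (A ^ n) u⟫_ℝ := by
    intro n
    induction n using Nat.twoStepInduction with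
    | zero => intro u; simp
    | one => simpa using hp
    | more n ih _ =>
      intro u
      rw [pow_succ, pow_succ', mul_apply_eq_comp, mul_apply_eq_comp, ← hs]
      exact ih _
  have h2 := ((innerSL ℝ v).comp (ContinuousLinearMap.apply ℝ E v)).hasSum
    (exp_series_hasSum_exp' (𝕂 := ℝ) A)
  simp only [ContinuousLinearMap.comp_apply, ContinuousLinearMap.apply_apply,
    innerSL_apply_apply, _root_.smul_apply, inner_smul_right] at h2
  have h3 := sum_le_hasSum (range 2) (fun n _ => mul_nonneg (by positivity) (h1 n v)) h2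
  simpa [Finset.sum_range_succ] using h3

variable {α : Type*} [DecidableEq α] (ρ : Equiv.Perm α →* (E →L[ℝ] E))

omit [CompleteSpace E] in
lemma sym_swap (hρ : ∀ g u v, ⟪ρ g u, ρ g v⟫_ℝ = ⟪u, v⟫_ℝ) (x y : α) :
    Sym (ρ (Equiv.swap x y)) := by
  intro u w
  rw [← hρ (Equiv.swap x y) u, ← mul_apply_eq_comp, ← map_mul, Equiv.swap_mul_self,
    map_one]
  rfl

omit [CompleteSpace E] [DecidableEq α] in
lemma norm_rho (hρ : ∀ g u v, ⟪ρ g u, ρ g v⟫_ℝ = ⟪u, v⟫_ℝ) (g : Equiv.Perm α) (u : E) :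
    ‖ρ g u‖ = ‖u‖ := by
  have := hρ g u u
  rw [real_inner_self_eq_norm_sq, real_inner_self_eq_norm_sq] at this
  exact (sq_eq_sq₀ (norm_nonneg _) (norm_nonneg _)).1 this

omit [CompleteSpace E] [DecidableEq α] in
lemma inner_one_sub_nonneg (hρ : ∀ g u v, ⟪ρ g u, ρ g v⟫_ℝ = ⟪u, v⟫_ℝ) (g : Equiv.Perm α)
    (u : E) : 0 ≤ ⟪u, (1 - ρ g) u⟫_ℝ := by
  rw [_root_.sub_apply, one_apply_eq_self, inner_sub_right, real_inner_self_eq_norm_sq, sub_nonneg]
  refine (real_inner_le_norm _ _).trans (le_of_eq ?_)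
  rw [norm_rho ρ hρ, sq]

omit [CompleteSpace E] in
lemma rho_mul_swap (g : Equiv.Perm α) (x y : α) :
    ρ g * ρ (Equiv.swap x y) = ρ (Equiv.swap (g x) (g y)) * ρ g := by
  rw [← map_mul, ← map_mul, Equiv.mul_swap_eq_swap_mul]

variable {κ : Type*} [Fintype κ] (e : κ × Bool ↪ α)

/-- The Laplacian of one block. -/
noncomputable def PhiB : E →L[ℝ] E :=
  (2 * (Fintype.card κ : ℝ))⁻¹ • ∑ x : κ × Bool, ∑ y : κ × Bool, (1 - ρ (Equiv.swap (e x) (e y)))

/-- The signed sum of one block. -/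
noncomputable def DelB : E →L[ℝ] E :=
  (2 * (Fintype.card κ : ℝ))⁻¹ • ∑ x : κ × Bool, ∑ y : κ × Bool,
    (chi x.2 * chi y.2) • ρ (Equiv.swap (e x) (e y))

omit [CompleteSpace E] in
lemma comm_PhiB (g : Equiv.Perm α) (π : Equiv.Perm (κ × Bool)) (h : ∀ p, g (e p) = e (π p)) :
    Commute (ρ g) (PhiB ρ e) := by
  refine Commute.smul_right ?_ _
  change _ * _ = _ * _
  simp only [Finset.mul_sum, Finset.sum_mul, mul_sub, sub_mul, mul_one, one_mul, rho_mul_swap, h]
  exact Fintype.sum_equiv π _ _ fun x => Fintype.sum_equiv π _ _ fun y => rfl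

omit [CompleteSpace E] in
lemma comm_DelB (g : Equiv.Perm α) (h : ∀ p, g (e p) = e p) : Commute (ρ g) (DelB ρ e) := by
  refine Commute.smul_right (Commute.sum_right _ _ _ fun x _ => Commute.sum_right _ _ _
    fun y _ => Commute.smul_right ?_ _) _
  change _ * _ = _ * _
  rw [rho_mul_swap, h, h]

omit [CompleteSpace E] in
lemma comm_of_swaps {A : E →L[ℝ] E} (h : ∀ p q, Commute (ρ (Equiv.swap (e p) (e q))) A) :
    Commute (PhiB ρ e) A ∧ Commute (DelB ρ e) A :=
  ⟨Commute.smul_left (Commute.sum_left _ _ _ fun x _ => Commute.sum_left _ _ _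
      fun y _ => (Commute.one_left _).sub_left (h x y)) _,
    Commute.smul_left (Commute.sum_left _ _ _ fun x _ => Commute.sum_left _ _ _
      fun y _ => (h x y).smul_left _) _⟩

theorem block_norm [DecidableEq κ] [Nonempty κ] (hρ : ∀ g u v, ⟪ρ g u, ρ g v⟫_ℝ = ⟪u, v⟫_ℝ) (v : E)
    (hv : ∀ η : κ → Bool, ∃ h : Equiv.Perm α,
      (∀ k b, h (e (k, b)) = e (k, xor b (η k))) ∧ ρ h v = v)
    (hv' : ∀ k, ρ (Equiv.swap (e (k, false)) (e (k, true))) v = v) {c a : ℝ} (hc0 : 0 ≤ c)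
    (hc : c < 1 / 4) (ha0 : 0 ≤ a)
    (ha : 4 * c ^ 2 / (1 - 4 * c) / (Fintype.card κ : ℝ) ≤ a ∨ Fintype.card κ = 1) :
    ‖exp ((c / 2) • DelB ρ e - (a / 2) • PhiB ρ e) v‖ ≤ ‖v‖ := by
  have hsw : ∀ p q, Commute (ρ (Equiv.swap (e p) (e q))) (PhiB ρ e) := fun p q =>
    comm_PhiB ρ e _ (Equiv.swap p q) fun r => e.injective.swap_apply p q r
  have hDP : Commute (DelB ρ e) (PhiB ρ e) := (comm_of_swaps ρ e hsw).2
  have hsP : Sym (PhiB ρ e) :=
    (Sym.sum _ fun x => Sym.sum _ fun y => Sym.one.sub (sym_swap ρ hρ _ _)).smul _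
  have hsD : Sym (DelB ρ e) :=
    (Sym.sum _ fun x => Sym.sum _ fun y => (sym_swap ρ hρ _ _).smul _).smul _
  have hpP : ∀ u, 0 ≤ ⟪u, PhiB ρ e u⟫_ℝ := by
    intro u
    simp only [PhiB, _root_.smul_apply, _root_.sum_apply, inner_smul_right, inner_sum]
    exact mul_nonneg (by positivity) (Finset.sum_nonneg fun x _ => Finset.sum_nonneg fun y _ =>
      inner_one_sub_nonneg ρ hρ _ u)
  set Φ := PhiB ρ e with hΦ
  set Δ := DelB ρ e with hΔ
  set F := exp ((-(a / 2)) • Φ) with hF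
  have hsF : Sym F := (hsP.smul _).exp
  have hinv : ∀ g, Commute (ρ g) Φ → ρ g v = v → ρ g (F v) = F v := by
    intro g hg hgv
    have : Commute (ρ g) F := (hg.smul_right _).exp_right
    rw [← mul_apply_eq_comp, this.eq, mul_apply_eq_comp, hgv]
  have hw' : ∀ k, ρ (Equiv.swap (e (k, false)) (e (k, true))) (F v) = F v := fun k =>
    hinv _ (hsw _ _) (hv' k)
  have h1 := block_exp_bound ρ hρ e (F v) (fun η => by
    obtain ⟨h, hh, hhv⟩ := hv η
    refine ⟨h, hh, hinv h (comm_PhiB ρ e h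
      (Function.Involutive.toPerm (fun x : κ × Bool => (x.1, xor x.2 (η x.1))) fun x => by simp)
      fun p => hh p.1 p.2) hhv⟩) hw' c hc0 hc
  change ⟪F v, exp (c • Δ) (F v)⟫_ℝ ≤ ‖F v‖ ^ 2 + _ * ⟪F v, Φ (F v)⟫_ℝ at h1
  have h2 : 4 * c ^ 2 / (1 - 4 * c) / (Fintype.card κ : ℝ) * ⟪F v, Φ (F v)⟫_ℝ
      ≤ ⟪F v, (a • Φ) (F v)⟫_ℝ := by
    rw [_root_.smul_apply, inner_smul_right]
    rcases ha with ha | ha
    · exact mul_le_mul_of_nonneg_right ha (hpP _)
    · have hz : Φ (F v) = 0 := by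
        have := Fintype.card_le_one_iff_subsingleton.1 ha.le
        simp only [hΦ, PhiB, _root_.smul_apply, _root_.sum_apply]
        rw [Finset.sum_eq_zero, smul_zero]
        rintro ⟨k, b⟩ _
        refine Finset.sum_eq_zero ?_
        rintro ⟨k', b'⟩ _
        obtain rfl : k = k' := Subsingleton.elim _ _
        rw [_root_.sub_apply, one_apply_eq_self, sub_eq_zero]
        cases b <;> cases b'
        · simp [← Equiv.Perm.one_def]
        · exact (hw' k).symm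
        · rw [Equiv.swap_comm]; exact (hw' k).symm
        · simp [← Equiv.Perm.one_def]
      rw [hz, inner_zero_right, mul_zero, mul_zero]
  have h3 := one_add_le_exp (hsP.smul a) (fun u => by
    rw [_root_.smul_apply, inner_smul_right]; exact mul_nonneg ha0 (hpP u)) (F v)
  have hΦΦ : ∀ s t : ℝ, Commute (s • Φ) (t • Φ) := fun s t =>
    ((Commute.refl Φ).smul_left s).smul_right t
  have h4 : ⟪F v, exp (a • Φ) (F v)⟫_ℝ = ‖v‖ ^ 2 := by
    rw [hsF, ← mul_apply_eq_comp, ← mul_apply_eq_comp, hF,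
      ← exp_add_comm (hΦΦ _ _), ← add_smul, ← exp_add_comm (hΦΦ _ _), ← add_smul,
      show -(a / 2) + a + -(a / 2) = 0 by ring, zero_smul, exp_zero, one_apply_eq_self,
      real_inner_self_eq_norm_sq]
  set X := (c / 2) • Δ - (a / 2) • Φ with hX
  have h5 : ‖exp X v‖ ^ 2 = ⟪F v, exp (c • Δ) (F v)⟫_ℝ := by
    have hsX : Sym (exp X) := ((hsD.smul _).sub (hsP.smul _)).exp
    have hc1 : Commute ((-(a / 2)) • Φ) (c • Δ) := (hDP.symm.smul_left _).smul_right _
    rw [← real_inner_self_eq_norm_sq, hsX, hsF, ← mul_apply_eq_comp,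
      ← mul_apply_eq_comp, ← mul_apply_eq_comp, hF,
      ← exp_add_comm (Commute.refl X), ← exp_add_comm hc1,
      ← exp_add_comm ((hΦΦ _ _).add_left hc1.symm)]
    congr 3
    rw [hX]
    module
  refine (pow_le_pow_iff_left₀ (norm_nonneg _) (norm_nonneg _) two_ne_zero).1 ?_
  linarith

end Crest.Agent.R155
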