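import Mathlib
import Crest.Agent.R155.Net
import Crest.Agent.R155.PhiA

/-! The comparison of one pass through the network with the transposition Laplacian. -/

open Finset BigOperators NormedSpace
open scoped InnerProductSpace

namespace Crest.Agent.R155

variable {D : ℕ}

/-- Coordinates below `a`. -/
abbrev Lo (a : Fin D) : Type := {i : Fin D // i < a} → Bool

/-- Coordinates above `a`. -/
abbrev Hi (a : Fin D) : Type := {i : Fin D // a < i} → Bool

/-- Splitting the coordinates at `a`. -/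
def splitE (a : Fin D) : Hi a × (Lo a × Bool) ≃ Pos D where
  toFun s := fun i => if h : i < a then s.2.1 ⟨i, h⟩ else if h' : a < i then s.1 ⟨i, h'⟩ else s.2.2
  invFun x := (fun i => x i, fun i => x i, x a)
  left_inv := by
    rintro ⟨t, k, b⟩
    refine Prod.ext ?_ (Prod.ext ?_ ?_)
    · ext i
      simp [i.2, not_lt.2 i.2.le]
    · ext i
      simp [i.2]
    · simp
  right_inv := by
    intro x
    ext i
    simp only
    split_ifs with h h'
    · rfl
    · rfl
    · rw [le_antisymm (not_lt.1 h') (not_lt.1 h)]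

lemma splitE_lo (a : Fin D) (t : Hi a) (p : Lo a × Bool) (i : {i : Fin D // i < a}) :
    splitE a (t, p) i = p.1 i := by simp [splitE, i.2]

lemma splitE_hi (a : Fin D) (t : Hi a) (p : Lo a × Bool) (i : {i : Fin D // a < i}) :
    splitE a (t, p) i = t i := by simp [splitE, i.2, not_lt.2 i.2.le]

lemma splitE_self (a : Fin D) (t : Hi a) (p : Lo a × Bool) : splitE a (t, p) a = p.2 := by
  simp [splitE]

lemma card_Lo (a : Fin D) : Fintype.card (Lo a) = 2 ^ (a : ℕ) := by
  simp [Fintype.card_subtype, Finset.filter_gt_eq_Iio]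

/-- The block with prescribed upper coordinates. -/
def emb (a : Fin D) (t : Hi a) : Lo a × Bool ↪ Pos D :=
  ⟨fun p => splitE a (t, p), fun _ _ h => (Prod.ext_iff.1 ((splitE a).injective h)).2⟩

lemma emb_apply (a : Fin D) (t : Hi a) (p : Lo a × Bool) : emb a t p = splitE a (t, p) := rfl

lemma update_splitE (a : Fin D) (t : Hi a) (k : Lo a) (b b' : Bool) :
    Function.update (splitE a (t, k, b)) a b' = splitE a (t, k, b') := by
  ext i
  by_cases h : i = a
  · subst h
    rw [Function.update_self, splitE_self]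
  · rw [Function.update_of_ne h]
    rcases lt_or_gt_of_ne h with h1 | h1
    · exact (splitE_lo a t _ ⟨i, h1⟩).trans (splitE_lo a t (k, b') ⟨i, h1⟩).symm
    · exact (splitE_hi a t _ ⟨i, h1⟩).trans (splitE_hi a t (k, b') ⟨i, h1⟩).symm

lemma layer_splitE (a : Fin D) (c : Pos D → Bool) (t : Hi a) (k : Lo a) (b : Bool) :
    layer a c (splitE a (t, k, b)) = splitE a (t, k, xor b (c (splitE a (t, k, false)))) := by
  rw [layer_apply, canon, update_splitE, flp, update_splitE, splitE_self]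
  cases c (splitE a (t, k, false)) <;> simp

/-- Agreement on the coordinates from `l` on. -/
def same (l : ℕ) (x y : Pos D) : Prop := ∀ i : Fin D, l ≤ i → x i = y i

instance (l : ℕ) (x y : Pos D) : Decidable (same l x y) := by unfold same; infer_instance

lemma same_succ_iff (a : Fin D) (t t' : Hi a) (p q : Lo a × Bool) :
    same (a + 1) (splitE a (t, p)) (splitE a (t', q)) ↔ t = t' := by
  constructor
  · intro h
    ext i
    rw [← splitE_hi a t p, ← splitE_hi a t' q]
    exact h i i.2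
  · rintro rfl i hi
    exact (splitE_hi a t p ⟨i, hi⟩).trans (splitE_hi a t q ⟨i, hi⟩).symm

lemma same_iff (a : Fin D) (t t' : Hi a) (p q : Lo a × Bool) :
    same a (splitE a (t, p)) (splitE a (t', q)) ↔ t = t' ∧ p.2 = q.2 := by
  rw [← same_succ_iff a t t' p q, ← splitE_self a t p, ← splitE_self a t' q]
  constructor
  · exact fun h => ⟨fun i hi => h i (by omega), h a le_rfl⟩
  · rintro ⟨h1, h2⟩ i hi
    rcases hi.eq_or_lt with h | h
    · rw [← Fin.ext h]; exact h2
    · exact h1 i h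

variable {E : Type*} [NormedAddCommGroup E] [InnerProductSpace ℝ E] [CompleteSpace E]
  (ρ : Equiv.Perm (Pos D) →* (E →L[ℝ] E))

/-- The sum of the block Laplacians at level `l`. -/
noncomputable def Psi (l : ℕ) : E →L[ℝ] E :=
  ((2 : ℝ) ^ l)⁻¹ • ∑ x : Pos D, ∑ y : Pos D, if same l x y then 1 - ρ (Equiv.swap x y) else 0

omit [CompleteSpace E] in
lemma Psi_zero : Psi ρ 0 = 0 := by
  unfold Psi
  rw [Finset.sum_eq_zero, smul_zero]
  intro x _
  refine Finset.sum_eq_zero fun y _ => ?_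
  split_ifs with h
  · obtain rfl : x = y := funext fun i => h i (Nat.zero_le _)
    simp [← Equiv.Perm.one_def]
  · rfl

omit [CompleteSpace E] in
lemma Psi_top : Psi ρ D =
    (Fintype.card (Pos D) : ℝ)⁻¹ • ∑ x : Pos D, ∑ y : Pos D, (1 - ρ (Equiv.swap x y)) := by
  unfold Psi
  have : ∀ x y : Pos D, same D x y := fun x y i hi => absurd i.2 (not_lt.2 hi)
  simp [this]

omit [CompleteSpace E] in
lemma comm_Psi (l : ℕ) (g : Equiv.Perm (Pos D)) (h : ∀ z, same l (g z) z) :
    Commute (ρ g) (Psi ρ l) := by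
  refine Commute.smul_right ?_ _
  change _ * _ = _ * _
  simp only [Finset.mul_sum, Finset.sum_mul]
  refine Fintype.sum_equiv g _ _ fun x => Fintype.sum_equiv g _ _ fun y => ?_
  have : same l (g x) (g y) ↔ same l x y :=
    forall₂_congr fun i hi => by rw [h x i hi, h y i hi]
  simp only [this]
  split_ifs
  · rw [mul_sub, sub_mul, mul_one, one_mul, rho_mul_swap]
  · simp

omit [CompleteSpace E] in
lemma comm_Psi_Psi (l : ℕ) : Commute (Psi ρ l) (Psi ρ (l + 1)) := by
  refine Commute.smul_left (Commute.sum_left _ _ _ fun x _ => Commute.sum_left _ _ _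
    fun y _ => ?_) _
  split_ifs with h
  · refine (Commute.one_left _).sub_left (comm_Psi ρ _ _ fun z i hi => ?_)
    rw [Equiv.swap_apply_def]
    split_ifs with h1 h2
    · rw [h1, h i (by omega)]
    · rw [h2, h i (by omega)]
    · rfl
  · exact Commute.zero_left _

omit [CompleteSpace E] in
lemma Psi_succ_eq (a : Fin D) : Psi ρ (a + 1) = ∑ t : Hi a, PhiB ρ (emb a t) := by
  unfold Psi PhiB
  rw [← Finset.smul_sum, card_Lo, ← (splitE a).sum_comp, Fintype.sum_prod_type]
  congr 1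
  · push_cast; ring
  refine Finset.sum_congr rfl fun t _ => Finset.sum_congr rfl fun p _ => ?_
  rw [← (splitE a).sum_comp, Fintype.sum_prod_type, Finset.sum_comm]
  refine Finset.sum_congr rfl fun q _ => ?_
  simp only [same_succ_iff, Finset.sum_ite_eq, mem_univ, if_true, emb_apply]

omit [CompleteSpace E] in
lemma Psi_eq (a : Fin D) : Psi ρ a = ∑ t : Hi a, (PhiB ρ (emb a t) - DelB ρ (emb a t)) := by
  unfold Psi PhiB DelB
  simp only [← smul_sub]
  rw [← Finset.smul_sum, card_Lo, ← (splitE a).sum_comp, Fintype.sum_prod_type]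
  have h2 : ((2 : ℝ) ^ (a : ℕ))⁻¹ = (2 * ((2 ^ (a : ℕ) : ℕ) : ℝ))⁻¹ * 2 := by
    push_cast
    field_simp
  rw [h2, mul_smul, Finset.smul_sum]
  congr 1
  refine Finset.sum_congr rfl fun t _ => ?_
  have h0 : ∑ p : Lo a × Bool, ∑ q : Lo a × Bool, (chi p.2 * chi q.2) • (1 : E →L[ℝ] E) = 0 := by
    refine Finset.sum_eq_zero fun p _ => ?_
    rw [← Finset.sum_smul, ← Finset.mul_sum, Fintype.sum_prod_type]
    simp [chi]
  refine Eq.trans ?_ (add_eq_left.2 h0)
  rw [← Finset.sum_sub_distrib, ← Finset.sum_add_distrib, Finset.smul_sum]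
  refine Finset.sum_congr rfl fun p _ => ?_
  rw [← (splitE a).sum_comp, Fintype.sum_prod_type, Finset.sum_comm, ← Finset.sum_sub_distrib,
    ← Finset.sum_add_distrib, Finset.smul_sum]
  refine Finset.sum_congr rfl fun q _ => ?_
  simp only [same_iff, ite_and, Finset.sum_ite_eq, mem_univ, if_true, emb_apply]
  obtain ⟨k, b⟩ := p
  obtain ⟨k', b'⟩ := q
  cases b <;> cases b' <;> simp [chi] <;> module

lemma step_norm (hρ : ∀ g u v, ⟪ρ g u, ρ g v⟫_ℝ = ⟪u, v⟫_ℝ) (a : Fin D) (v : E)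
    (hv : ∀ c, ρ (layer a c) v = v) {c s : ℝ} (hc0 : 0 ≤ c) (hc : c < 1 / 4) (hs0 : 0 ≤ s)
    (hs : 4 * c ^ 2 / (1 - 4 * c) / 2 ^ (a : ℕ) ≤ s ∨ (a : ℕ) = 0) :
    ‖exp (((c - s) / 2) • Psi ρ (a + 1) - (c / 2) • Psi ρ a) v‖ ≤ ‖v‖ := by
  let X : Hi a → E →L[ℝ] E := fun t => (c / 2) • DelB ρ (emb a t) - (s / 2) • PhiB ρ (emb a t)
  have hX : ((c - s) / 2) • Psi ρ (a + 1) - (c / 2) • Psi ρ a = ∑ t, X t := by
    rw [Psi_succ_eq, Psi_eq, Finset.smul_sum, Finset.smul_sum, ← Finset.sum_sub_distrib]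
    refine Finset.sum_congr rfl fun t _ => ?_
    simp only [X]
    module
  have hfix : ∀ (t : Hi a) (g : Equiv.Perm (Pos D)), (∀ p, g (emb a t p) = emb a t p) →
      Commute (ρ g) (X t) := fun t g h =>
    ((comm_DelB ρ _ g h).smul_right _).sub_right ((comm_PhiB ρ _ g 1 h).smul_right _)
  have hne : ∀ {t t' : Hi a}, t' ≠ t → ∀ p q, emb a t' p ≠ emb a t q := fun h p q h' =>
    h (Prod.ext_iff.1 ((splitE a).injective h')).1
  have hXX : ∀ t t', t' ≠ t → Commute (X t) (X t') := by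
    intro t t' h
    have := comm_of_swaps ρ (emb a t) (A := X t') fun p q => hfix t' _ fun r =>
      Equiv.swap_apply_of_ne_of_ne (hne h _ _) (hne h _ _)
    exact (this.2.smul_left _).sub_left (this.1.smul_left _)
  rw [hX]
  induction (univ : Finset (Hi a)) using Finset.induction_on with
  | empty => simp
  | insert t S ht ih =>
    rw [Finset.sum_insert ht, exp_add_comm (Commute.sum_right _ _ _ fun t' ht' =>
      hXX t t' (by rintro rfl; exact ht ht')), mul_apply_eq_comp]
    refine le_trans ?_ ih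
    have key : ∀ η : Lo a → Bool, ∃ h : Equiv.Perm (Pos D),
        (∀ k b, h (emb a t (k, b)) = emb a t (k, xor b (η k))) ∧
        (∀ t', t' ≠ t → ∀ p, h (emb a t' p) = emb a t' p) ∧
        ρ h (exp (∑ t' ∈ S, X t') v) = exp (∑ t' ∈ S, X t') v := by
      intro η
      let c : Pos D → Bool := fun x =>
        decide (((splitE a).symm x).1 = t) && η ((splitE a).symm x).2.1
      have h1 : ∀ t', t' ≠ t → ∀ p, layer a c (emb a t' p) = emb a t' p := by
        rintro t' h ⟨k, b⟩
        rw [emb_apply, layer_splitE]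
        simp [c, h]
      refine ⟨layer a c, fun k b => ?_, h1, ?_⟩
      · rw [emb_apply, layer_splitE]
        simp [c, emb_apply]
      · have : Commute (ρ (layer a c)) (exp (∑ t' ∈ S, X t')) :=
          (Commute.sum_right _ _ _ fun t' ht' =>
            hfix t' _ (h1 t' (by rintro rfl; exact ht ht'))).exp_right
        rw [← mul_apply_eq_comp, this.eq, mul_apply_eq_comp, hv]
    refine block_norm ρ (emb a t) hρ _ (fun η => ?_) (fun k => ?_) hc0 hc hs0 ?_
    · obtain ⟨h, h1, -, h3⟩ := key η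
      exact ⟨h, h1, h3⟩
    · obtain ⟨h, h1, h2, h3⟩ := key (fun k' => decide (k' = k))
      suffices hsw : Equiv.swap (emb a t (k, false)) (emb a t (k, true)) = h by rw [hsw, h3]
      ext1 x
      obtain ⟨⟨t', k', b⟩, rfl⟩ := (splitE a).surjective x
      by_cases htt : t' = t
      · subst htt
        rw [← emb_apply, h1, (emb a t').injective.swap_apply]
        congr 1
        by_cases hk : k' = k
        · subst hk
          cases b <;> simp
        · rw [Equiv.swap_apply_of_ne_of_ne] <;> simp [hk]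
      · rw [← emb_apply, h2 t' htt, Equiv.swap_apply_of_ne_of_ne (hne htt _ _) (hne htt _ _)]
    · rw [card_Lo]
      rcases hs with hs | hs
      · left
        exact_mod_cast hs
      · right
        rw [hs, pow_zero]

/-- The average over the bit tables. -/
noncomputable def avg (F : Bits D → E →L[ℝ] E) : E →L[ℝ] E :=
  (Fintype.card (Bits D) : ℝ)⁻¹ • ∑ ω, F ω

omit [CompleteSpace E] in
lemma inner_avg (F : Bits D → E →L[ℝ] E) (u w : E) : ⟪u, avg F w⟫_ℝ = 𝔼 ω, ⟪u, F ω w⟫_ℝ := by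
  simp only [avg, _root_.smul_apply, _root_.sum_apply, inner_smul_right, inner_sum]
  rw [Finset.expect_eq_sum_div_card, div_eq_inv_mul, card_univ]

omit [CompleteSpace E] in
lemma avg_succ (a : Fin D) : avg (fun ω => ρ (sig ω (a + 1))⁻¹)
    = avg (fun ω => ρ (sig ω a)⁻¹) * avg (fun ω => ρ (lay ω a)) := by
  ext w
  refine ext_inner_left ℝ fun u => ?_
  rw [mul_apply_eq_comp, inner_avg, inner_avg, expect_mrg (fun s : Fin D × Pos D => (s.1 : ℕ) < a)]
  refine Finset.expect_congr rfl fun ω _ => ?_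
  have h1 : ρ (sig ω a)⁻¹ (avg (fun ω => ρ (lay ω a)) w)
      = avg (fun ω' => ρ (sig ω a)⁻¹ * ρ (lay ω' a)) w := by
    simp only [avg, _root_.smul_apply, _root_.sum_apply, map_smul, map_sum, mul_apply_eq_comp]
  rw [h1, inner_avg]
  refine Finset.expect_congr rfl fun ω' _ => ?_
  rw [sig_succ', mul_inv_rev, lay_inv, map_mul, sig_congr (ω' := ω) a fun s hs => by simp [mrg, hs]]
  congr 4
  unfold lay
  congr 1
  ext x
  simp [mrg]

lemma layer_mul_layer (a : Fin D) (c c' : Pos D → Bool) :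
    layer a c * layer a c' = layer a (fun x => xor (c' x) (c x)) := by
  ext1 x
  simp only [Equiv.Perm.mul_apply, layer_apply]
  cases h : c (canon a x) <;> cases h' : c' (canon a x) <;> simp [h]

omit [CompleteSpace E] in
lemma layer_avg (a : Fin D) (c : Pos D → Bool) (w : E) :
    ρ (layer a c) (avg (fun ω => ρ (lay ω a)) w) = avg (fun ω => ρ (lay ω a)) w := by
  simp only [avg, _root_.smul_apply, _root_.sum_apply, map_smul, map_sum]
  congr 1
  refine Fintype.sum_equiv (Function.Involutive.toPerm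
    (fun (ω : Bits D) s => xor (ω s) (c s.2)) fun ω => by ext s; simp) _ _ fun ω => ?_
  rw [← mul_apply_eq_comp, ← map_mul, lay, layer_mul_layer]
  rfl

omit [CompleteSpace E] in
lemma norm_avg_le (hρ : ∀ g u v, ⟪ρ g u, ρ g v⟫_ℝ = ⟪u, v⟫_ℝ) (g : Bits D → Equiv.Perm (Pos D))
    (w : E) : ‖avg (fun ω => ρ (g ω)) w‖ ≤ ‖w‖ := by
  simp only [avg, _root_.smul_apply, _root_.sum_apply, norm_smul, norm_inv, Real.norm_natCast]
  rw [inv_mul_le_iff₀ (by exact_mod_cast Fintype.card_pos)]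
  refine (norm_sum_le _ _).trans (le_of_eq ?_)
  simp [norm_rho ρ hρ]

lemma tele (hρ : ∀ g u v, ⟪ρ g u, ρ g v⟫_ℝ = ⟪u, v⟫_ℝ) (l : ℕ) (hl : l ≤ D) (u : E) :
    ‖avg (fun ω => ρ (sig ω l)⁻¹) (exp (((1 / 24 + 1 / 24 / 2 ^ l : ℝ) / 2) • Psi ρ l) u)‖
      ≤ ‖u‖ := by
  induction l generalizing u with
  | zero =>
    rw [Psi_zero, smul_zero, exp_zero]
    exact norm_avg_le ρ hρ _ u
  | succ l ih =>
    let a : Fin D := ⟨l, hl⟩
    set c : ℝ := 1 / 24 + 1 / 24 / 2 ^ l with hc
    have h2 : (1 : ℝ) ≤ 2 ^ l := one_le_pow₀ (by norm_num)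
    have h3 : (1 : ℝ) / 24 / 2 ^ l ≤ 1 / 24 := div_le_self (by norm_num) h2
    have hc' : (1 / 24 + 1 / 24 / 2 ^ (l + 1) : ℝ) = c - 1 / 48 / 2 ^ l := by
      rw [hc, pow_succ]
      field_simp
      ring
    have hP : Commute (avg (fun ω => ρ (lay ω a))) (Psi ρ (l + 1)) :=
      Commute.smul_left (Commute.sum_left _ _ _ fun ω _ => comm_Psi ρ _ _ fun z i hi =>
        layer_ne (by rintro rfl; simp [a] at hi) _ _) _
    have hst := step_norm ρ hρ a (avg (fun ω => ρ (lay ω a)) u) (fun c => layer_avg ρ a c u)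
      (c := c) (s := 1 / 48 / 2 ^ l) (by positivity) (by linarith) (by positivity) (by
        rcases Nat.eq_zero_or_pos l with h | h
        · exact Or.inr h
        · left
          have h4 : (2 : ℝ) ≤ 2 ^ l := by
            calc (2 : ℝ) = 2 ^ 1 := by norm_num
              _ ≤ _ := pow_le_pow_right₀ (by norm_num) h
          have h5 : (1 : ℝ) / 24 / 2 ^ l ≤ 1 / 24 / 2 := by gcongr
          have h6 : 0 ≤ c := by positivity
          change _ / (2 : ℝ) ^ l ≤ _
          refine div_le_div_of_nonneg_right ?_ (by positivity)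
          rw [div_le_iff₀ (by linarith)]
          nlinarith)
    have hcomm := comm_Psi_Psi ρ l
    have e1 := avg_succ ρ a
    change avg (fun ω => ρ (sig ω (l + 1))⁻¹) = avg (fun ω => ρ (sig ω l)⁻¹) * _ at e1
    change ‖exp (((c - 1 / 48 / 2 ^ l) / 2) • Psi ρ (l + 1) - (c / 2) • Psi ρ l) _‖ ≤ _ at hst
    rw [hc', e1, mul_apply_eq_comp, ← mul_apply_eq_comp (avg fun ω => ρ (lay ω a)),
      (hP.smul_right _).exp_right.eq, mul_apply_eq_comp]
    have e2 : exp (((c - 1 / 48 / 2 ^ l) / 2) • Psi ρ (l + 1)) = exp ((c / 2) • Psi ρ l) *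
        exp (((c - 1 / 48 / 2 ^ l) / 2) • Psi ρ (l + 1) - (c / 2) • Psi ρ l) := by
      rw [← exp_add_comm (((hcomm.smul_left _).smul_right _).sub_right (Commute.refl _)),
        add_sub_cancel]
    rw [e2, mul_apply_eq_comp]
    exact (ih (by omega) _).trans (hst.trans (norm_avg_le ρ hρ _ u))

theorem phi_bound {D : ℕ} {E : Type*} [NormedAddCommGroup E] [InnerProductSpace ℝ E]
    [CompleteSpace E] (ρ : Equiv.Perm (Pos D) →* (E →L[ℝ] E))
    (hρ : ∀ g u v, ⟪ρ g u, ρ g v⟫_ℝ = ⟪u, v⟫_ℝ) (v : E) (φ : ℝ)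
    (hv : ((Fintype.card (Pos D) : ℝ)⁻¹ • ∑ x : Pos D, ∑ y : Pos D, (1 - ρ (Equiv.swap x y))) v
      = φ • v) :
    ‖(Fintype.card (Bits D) : ℝ)⁻¹ • ∑ ω : Bits D, ρ (sig ω D)⁻¹ v‖ ^ 2
      ≤ Real.exp (-φ / 24) * ‖v‖ ^ 2 := by
  by_cases h0 : v = 0
  · simp [h0]
  have hφ : 0 ≤ φ := by
    have h1 : 0 ≤ ⟪v, φ • v⟫_ℝ := by
      rw [← hv]
      simp only [_root_.smul_apply, _root_.sum_apply, inner_smul_right, inner_sum]
      exact mul_nonneg (by positivity) (Finset.sum_nonneg fun x _ => Finset.sum_nonneg fun y _ =>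
        inner_one_sub_nonneg ρ hρ _ v)
    rw [inner_smul_right, real_inner_self_eq_norm_sq] at h1
    exact nonneg_of_mul_nonneg_left h1 (by positivity)
  have h1 := tele ρ hρ D le_rfl v
  set c : ℝ := 1 / 24 + 1 / 24 / 2 ^ D with hc
  rw [exp_apply_eigen (t := c / 2 * φ) (by
    rw [_root_.smul_apply, Psi_top, hv, smul_smul]), map_smul, norm_smul, Real.norm_eq_abs,
    abs_of_pos (Real.exp_pos _)] at h1
  have h2 : (Fintype.card (Bits D) : ℝ)⁻¹ • ∑ ω : Bits D, ρ (sig ω D)⁻¹ v
      = avg (fun ω => ρ (sig ω D)⁻¹) v := by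
    simp only [avg, _root_.smul_apply, _root_.sum_apply]
  rw [h2]
  have h3 : ‖avg (fun ω => ρ (sig ω D)⁻¹) v‖ ≤ Real.exp (-φ / 48) * ‖v‖ := by
    rw [← le_inv_mul_iff₀ (Real.exp_pos _), ← Real.exp_neg] at h1
    refine h1.trans (mul_le_mul_of_nonneg_right (Real.exp_le_exp.2 ?_) (norm_nonneg _))
    have : (0 : ℝ) ≤ 1 / 24 / 2 ^ D := by positivity
    nlinarith
  refine (pow_le_pow_left₀ (norm_nonneg _) h3 2).trans (le_of_eq ?_)
  rw [mul_pow, ← Real.exp_nat_mul]
  congr 2
  push_cast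
  ring

end Crest.Agent.R155
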