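import Mathlib
import Crest.Agent.R155.Lift
import Crest.Agent.R155.Level
import Crest.Agent.R155.Phi

/-! Eigenvectors with a large eigenvalue have low level. -/

open Finset BigOperators Matrix
open scoped InnerProductSpace

namespace Crest.Agent.R155

/-- A representation on Euclidean space by precomposition. -/
noncomputable def prep {G Ω : Type*} [Group G] [Fintype Ω] (act : G → Ω → Ω)
    (h1 : ∀ x, act 1 x = x) (hm : ∀ g h x, act (g * h) x = act h (act g x)) :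
    G →* (EuclideanSpace ℝ Ω →L[ℝ] EuclideanSpace ℝ Ω) where
  toFun g := LinearMap.toContinuousLinearMap
    { toFun := fun f => WithLp.toLp 2 (fun x => f.ofLp (act g x))
      map_add' := fun _ _ => rfl
      map_smul' := fun _ _ => rfl }
  map_one' := by
    ext f x
    simp [h1]
  map_mul' g h := by
    ext f x
    exact congrArg f.ofLp (hm g h x)

lemma prep_apply {G Ω : Type*} [Group G] [Fintype Ω] (act : G → Ω → Ω)
    (h1 : ∀ x, act 1 x = x) (hm : ∀ g h x, act (g * h) x = act h (act g x)) (g : G)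
    (f : EuclideanSpace ℝ Ω) : (prep act h1 hm g f).ofLp = fun x => f.ofLp (act g x) := rfl

lemma inner_eq_dot {Ω : Type*} [Fintype Ω] (u v : EuclideanSpace ℝ Ω) :
    ⟪u, v⟫_ℝ = u.ofLp ⬝ᵥ v.ofLp := by
  rw [EuclideanSpace.inner_eq_star_dotProduct, dotProduct_comm]
  rfl

variable {α : Type*} [Fintype α] [DecidableEq α]

/-- The left regular representation. -/
noncomputable def rhoL (α : Type*) [Fintype α] [DecidableEq α] :=
  prep (G := Equiv.Perm α) (Ω := Equiv.Perm α) (fun g x => g⁻¹ * x) (by simp)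
    (fun g h x => by simp [mul_assoc])

/-- The right regular representation. -/
noncomputable def rhoR (α : Type*) [Fintype α] [DecidableEq α] :=
  prep (G := Equiv.Perm α) (Ω := Equiv.Perm α) (fun g x => x * g) (by simp)
    (fun g h x => by simp [mul_assoc])

/-- The transposition Laplacian. -/
noncomputable def PhiF (α : Type*) [Fintype α] [DecidableEq α] :
    (Equiv.Perm α → ℝ) →ₗ[ℝ] (Equiv.Perm α → ℝ) where
  toFun f g := (Fintype.card α : ℝ)⁻¹ * ∑ x : α, ∑ y : α, (f g - f (Equiv.swap x y * g))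
  map_add' f f' := by
    ext g
    simp only [Pi.add_apply, ← mul_add, ← Finset.sum_add_distrib]
    congr 1
    exact Finset.sum_congr rfl fun x _ => Finset.sum_congr rfl fun y _ => by ring
  map_smul' c f := by
    ext g
    simp only [Pi.smul_apply, smul_eq_mul, RingHom.id_apply, ← mul_sub, ← Finset.mul_sum]
    ring

lemma PhiF_left (f : Equiv.Perm α → ℝ) (g : Equiv.Perm α) :
    PhiF α f g = (Fintype.card α : ℝ)⁻¹ * ∑ x : α, ∑ y : α, (f g - f (Equiv.swap x y * g)) := rfl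

lemma PhiF_right (f : Equiv.Perm α → ℝ) (g : Equiv.Perm α) :
    PhiF α f g = (Fintype.card α : ℝ)⁻¹ * ∑ x : α, ∑ y : α, (f g - f (g * Equiv.swap x y)) := by
  rw [PhiF_left]
  congr 1
  refine (Fintype.sum_equiv g _ _ fun x => Fintype.sum_equiv g _ _ fun y => ?_).symm
  rw [Equiv.mul_swap_eq_swap_mul]

lemma PhiF_symm (u v : Equiv.Perm α → ℝ) : PhiF α u ⬝ᵥ v = u ⬝ᵥ PhiF α v := by
  have h1 : ∀ x y : α, ∑ g, (u g - u (Equiv.swap x y * g)) * v g
      = ∑ g, u g * (v g - v (Equiv.swap x y * g)) := by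
    intro x y
    simp only [sub_mul, mul_sub, Finset.sum_sub_distrib]
    congr 1
    refine Fintype.sum_equiv (Equiv.mulLeft (Equiv.swap x y)) _ _ fun g => ?_
    simp [← mul_assoc]
  unfold dotProduct
  simp only [PhiF_left, mul_assoc, mul_left_comm (u _) (Fintype.card α : ℝ)⁻¹, ← Finset.mul_sum]
  congr 1
  simp only [Finset.sum_mul, Finset.mul_sum]
  rw [Finset.sum_comm, Finset.sum_comm (s := (univ : Finset (Equiv.Perm α)))]
  refine Finset.sum_congr rfl fun x _ => ?_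
  rw [Finset.sum_comm, Finset.sum_comm (s := (univ : Finset (Equiv.Perm α)))]
  exact Finset.sum_congr rfl fun y _ => h1 x y

lemma actM_PhiF (κ : Equiv.Perm α → ℝ) (f : Equiv.Perm α → ℝ) :
    actM (Equiv.Perm α) κ *ᵥ PhiF α f = PhiF α (actM (Equiv.Perm α) κ *ᵥ f) := by
  ext g
  rw [PhiF_right]
  simp only [actM_mulVec, PhiF_right, smul_eq_mul, mul_assoc, ← Finset.sum_sub_distrib, ← mul_sub,
    mul_left_comm (κ _) (Fintype.card α : ℝ)⁻¹, ← Finset.mul_sum]
  congr 1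
  simp only [Finset.mul_sum]
  rw [Finset.sum_comm]
  refine Finset.sum_congr rfl fun x _ => ?_
  rw [Finset.sum_comm]

/-- Right translation. -/
def Rt (h : Equiv.Perm α) : (Equiv.Perm α → ℝ) →ₗ[ℝ] (Equiv.Perm α → ℝ) where
  toFun f g := f (g * h)
  map_add' _ _ := rfl
  map_smul' _ _ := rfl

lemma Rt_adj (h : Equiv.Perm α) (u v : Equiv.Perm α → ℝ) : Rt h⁻¹ u ⬝ᵥ v = u ⬝ᵥ Rt h v := by
  refine (Fintype.sum_equiv (Equiv.mulRight h) _ _ fun g => ?_).symm
  simp [Rt]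

lemma actM_Rt (κ : Equiv.Perm α → ℝ) (h : Equiv.Perm α) (f : Equiv.Perm α → ℝ) :
    actM (Equiv.Perm α) κ *ᵥ Rt h f = Rt h (actM (Equiv.Perm α) κ *ᵥ f) := by
  ext g
  change _ = (actM (Equiv.Perm α) κ *ᵥ f) (g * h)
  simp only [actM_mulVec, smul_eq_mul, ← mul_assoc]
  rfl

lemma PhiF_Rt (h : Equiv.Perm α) (f : Equiv.Perm α → ℝ) :
    PhiF α (Rt h f) = Rt h (PhiF α f) := by
  ext g
  change _ = PhiF α f (g * h)
  simp only [PhiF_left, ← mul_assoc]
  rfl

/-- Functions of level at most `k`. -/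
def Vle (α : Type*) (k : ℕ) : Submodule ℝ (Equiv.Perm α → ℝ) :=
  ⨆ I : {I : Finset α // I.card ≤ k}, VI I.1

omit [Fintype α] [DecidableEq α] in
lemma Vle_invariant {k : ℕ} (B : (Equiv.Perm α → ℝ) →ₗ[ℝ] (Equiv.Perm α → ℝ))
    (hB : ∀ I : Finset α, ∀ f ∈ VI I, ∃ J : Finset α, J.card = I.card ∧ B f ∈ VI J) :
    ∀ f ∈ Vle α k, B f ∈ Vle α k := by
  intro f hf
  refine Submodule.iSup_induction _ (motive := fun f => B f ∈ Vle α k) hf ?_ (by simp) ?_
  · intro I x hx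
    obtain ⟨J, hJ, h⟩ := hB I.1 x hx
    exact Submodule.mem_iSup_of_mem (⟨J, hJ ▸ I.2⟩ : {I : Finset α // I.card ≤ k}) h
  · intro x y hx hy
    rw [map_add]
    exact Submodule.add_mem _ hx hy

lemma Vle_actM (κ : Equiv.Perm α → ℝ) (k : ℕ) :
    ∀ f ∈ Vle α k, (actM (Equiv.Perm α) κ).mulVecLin f ∈ Vle α k := by
  refine Vle_invariant _ fun I f hf => ⟨I, rfl, fun h hh g => ?_⟩
  simp only [mulVecLin_apply, actM_mulVec, smul_eq_mul, ← mul_assoc, hf h hh]

lemma Vle_PhiF (k : ℕ) : ∀ f ∈ Vle α k, PhiF α f ∈ Vle α k := by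
  refine Vle_invariant _ fun I f hf => ⟨I, rfl, fun h hh g => ?_⟩
  simp only [PhiF_left, ← mul_assoc, hf h hh]

omit [Fintype α] [DecidableEq α] in
lemma Vle_Rt (h : Equiv.Perm α) (k : ℕ) : ∀ f ∈ Vle α k, Rt h f ∈ Vle α k := by
  refine Vle_invariant _ fun I f hf => ⟨I.map h.toEmbedding, by simp, fun k hk g => ?_⟩
  change f (g * k * h) = f (g * h)
  have := hf (h⁻¹ * k * h) (fun x hx => by
    have := hk (h x) (Finset.mem_map_of_mem _ hx)
    simp [this]) (g * h)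
  rw [← this]
  congr 1
  group

variable {D : ℕ}

/-- The law of the symmetrized step. -/
noncomputable def betaD (D : ℕ) : Equiv.Perm (Pos D) → ℝ := fun g =>
  𝔼 ω₁ : Bits D, 𝔼 ω₂ : Bits D, if sig ω₂ D * (sig ω₁ D)⁻¹ = g then (1 : ℝ) else 0

lemma actM_betaD {Ω : Type*} [MulAction (Equiv.Perm (Pos D)) Ω] [DecidableEq Ω] [Fintype Ω] :
    actM Ω (betaD D) = bmat D Ω := by
  ext y x
  rw [← bmat_transpose, transpose_apply, bmat_apply]
  simp only [actM, betaD, Finset.expect_mul]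
  rw [← Finset.expect_sum_comm]
  refine Finset.expect_congr rfl fun ω₁ _ => ?_
  rw [← Finset.expect_sum_comm]
  refine Finset.expect_congr rfl fun ω₂ _ => ?_
  simp only [ite_mul, one_mul, zero_mul, Finset.sum_ite_eq, mem_univ, if_true, mul_smul]

lemma exists_gap {k : ℕ} {lam : ℝ} {w₀ : Equiv.Perm (Pos D) → ℝ} (h0 : w₀ ≠ 0)
    (hp : w₀ ∈ perp (Vle (Pos D) k))
    (hw : bmat D (Equiv.Perm (Pos D)) *ᵥ w₀ = lam • w₀) :
    lam ≤ Real.exp (-((k : ℝ) + 1) / 24) := by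
  rw [← actM_betaD] at hw
  set b := actM (Equiv.Perm (Pos D)) (betaD D) with hb
  have hbs : bᵀ = b := by rw [hb, actM_betaD, bmat_transpose]
  let X : Submodule ℝ (Equiv.Perm (Pos D) → ℝ) :=
    perp (Vle (Pos D) k) ⊓ Module.End.eigenspace b.mulVecLin lam
  have hX : ∀ w, w ∈ X ↔ w ∈ perp (Vle (Pos D) k) ∧ b *ᵥ w = lam • w := fun w => by
    simp [X]
  obtain ⟨m, e, φ, he, heX, hφ, hsp⟩ := exists_eigen_family (PhiF (Pos D)) PhiF_symm X (by
    intro u hu
    rw [hX] at hu ⊢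
    refine ⟨perp_invariant PhiF_symm (Vle_PhiF k) u hu.1, ?_⟩
    rw [hb, actM_PhiF, ← hb, hu.2, map_smul])
  have hm : Nonempty (Fin m) := by
    by_contra hcon
    rw [not_nonempty_iff] at hcon
    have := hsp ((hX w₀).2 ⟨hp, hw⟩)
    rw [Set.range_eq_empty, Submodule.span_empty, Submodule.mem_bot] at this
    exact h0 this
  obtain ⟨s⟩ := hm
  let L : EuclideanSpace ℝ (Equiv.Perm (Pos D)) ≃ₗ[ℝ] (Equiv.Perm (Pos D) → ℝ) :=
    WithLp.linearEquiv 2 ℝ _
  let W : Submodule ℝ (EuclideanSpace ℝ (Equiv.Perm (Pos D))) :=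
    (X ⊓ Module.End.eigenspace (PhiF (Pos D)) (φ s)).comap L.toLinearMap
  have hW : ∀ w, w ∈ W ↔ (w.ofLp ∈ perp (Vle (Pos D) k) ∧ b *ᵥ w.ofLp = lam • w.ofLp) ∧
      PhiF (Pos D) w.ofLp = φ s • w.ofLp := fun w => by
    rw [← hX, ← Module.End.mem_eigenspace_iff]
    rfl
  obtain ⟨w, hwW, hw0, I, hI, hgap⟩ := level_gap (rhoR (Pos D)) W (by
    intro g w hw
    rw [hW] at hw ⊢
    have h1 : (rhoR (Pos D) g w).ofLp = Rt g w.ofLp := rfl
    rw [h1]
    refine ⟨⟨perp_invariant (Rt_adj g) (Vle_Rt g⁻¹ k) _ hw.1.1, ?_⟩, ?_⟩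
    · rw [hb, actM_Rt, ← hb, hw.1.2, map_smul]
    · rw [PhiF_Rt, hw.2, map_smul]) (by
    rw [Submodule.ne_bot_iff]
    refine ⟨WithLp.toLp 2 (e s), (hW _).2 ⟨(hX _).1 (heX s), hφ s⟩, fun h => ?_⟩
    have h1 : e s = 0 := congrArg WithLp.ofLp h
    have h2 := he.self s
    rw [h1] at h2
    simp at h2)
  obtain ⟨⟨hwp, hwb⟩, hwφ⟩ := (hW w).1 hwW
  have hnorm : 0 < ‖w‖ ^ 2 := by positivity
  have hR : ((Fintype.card (Pos D) : ℝ)⁻¹ •
      ∑ x : Pos D, ∑ y : Pos D, (1 - rhoR (Pos D) (Equiv.swap x y))) w = φ s • w := by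
    ext g
    have := congrFun hwφ g
    rw [PhiF_right] at this
    simp only [_root_.smul_apply, _root_.sum_apply,
      _root_.sub_apply, one_apply_eq_self, PiLp.smul_apply,
      WithLp.ofLp_sum, Finset.sum_apply, WithLp.ofLp_sub, Pi.sub_apply, smul_eq_mul]
    exact this
  have hL : ((Fintype.card (Pos D) : ℝ)⁻¹ •
      ∑ x : Pos D, ∑ y : Pos D, (1 - rhoL (Pos D) (Equiv.swap x y))) w = φ s • w := by
    ext g
    have := congrFun hwφ g
    rw [PhiF_left] at this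
    simp only [_root_.smul_apply, _root_.sum_apply,
      _root_.sub_apply, one_apply_eq_self, PiLp.smul_apply,
      WithLp.ofLp_sum, Finset.sum_apply, WithLp.ofLp_sub, Pi.sub_apply, smul_eq_mul]
    exact this
  have hIk : k + 1 ≤ I.card := by
    by_contra hcon
    have h1 : w.ofLp ∈ Vle (Pos D) k := by
      refine Submodule.mem_iSup_of_mem
        (⟨I, by omega⟩ : {I : Finset (Pos D) // I.card ≤ k}) fun h hh g => ?_
      exact congrFun (congrArg WithLp.ofLp (hI h hh)) g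
    exact hw0 (by
      have := eq_zero_of_mem_perp h1 hwp
      ext g
      exact congrFun this g)
  rw [hR, inner_smul_right, real_inner_self_eq_norm_sq] at hgap
  have hφk : (k : ℝ) + 1 ≤ φ s := by
    have h1 := le_of_mul_le_mul_right hgap hnorm
    have h2 : (k : ℝ) + 1 ≤ I.card := by exact_mod_cast hIk
    linarith
  have hphi := phi_bound (rhoL (Pos D)) (by
    intro g u v
    rw [inner_eq_dot, inner_eq_dot]
    exact Fintype.sum_equiv (Equiv.mulLeft g⁻¹) _ _ fun x => rfl) w (φ s) hL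
  have hT : ((Fintype.card (Bits D) : ℝ)⁻¹ • ∑ ω : Bits D, rhoL (Pos D) (sig ω D)⁻¹ w).ofLp
      = (Tmat D (Equiv.Perm (Pos D)))ᵀ *ᵥ w.ofLp := by
    ext g
    simp only [WithLp.ofLp_smul, WithLp.ofLp_sum, Pi.smul_apply, Finset.sum_apply, smul_eq_mul,
      mulVec, dotProduct, transpose_apply, Tmat, Finset.expect_mul]
    rw [← Finset.expect_sum_comm, Finset.expect_eq_sum_div_card, div_eq_inv_mul, card_univ]
    congr 1
    refine Finset.sum_congr rfl fun ω _ => ?_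
    simp [rhoL, prep_apply]
  rw [← real_inner_self_eq_norm_sq, inner_eq_dot, hT, ← bmat_dot, ← actM_betaD, ← hb, hwb,
    dotProduct_smul, ← inner_eq_dot, real_inner_self_eq_norm_sq, smul_eq_mul] at hphi
  refine (le_of_mul_le_mul_right hphi hnorm).trans (Real.exp_le_exp.2 ?_)
  linarith

theorem level_mem {k : ℕ} {lam : ℝ} {v : Equiv.Perm (Pos D) → ℝ}
    (hv : bmat D (Equiv.Perm (Pos D)) *ᵥ v = lam • v)
    (hlam : Real.exp (-((k : ℝ) + 1) / 24) < lam) : v ∈ Vle (Pos D) k := by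
  obtain ⟨u, hu, hp⟩ := exists_perp_decomp (Vle (Pos D) k) v
  have hbs := bmat_transpose (D := D) (Ω := Equiv.Perm (Pos D))
  have hbu : bmat D (Equiv.Perm (Pos D)) *ᵥ u ∈ Vle (Pos D) k := by
    rw [← actM_betaD]
    exact Vle_actM _ k u hu
  have hbp : bmat D (Equiv.Perm (Pos D)) *ᵥ (v - u) ∈ perp (Vle (Pos D) k) := by
    refine perp_invariant (B := (bmat D (Equiv.Perm (Pos D))).mulVecLin)
      (B' := (bmat D (Equiv.Perm (Pos D))).mulVecLin) (symm_mulVec_dot hbs) ?_ _ hp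
    rw [← actM_betaD]
    exact Vle_actM _ k
  have h1 : bmat D (Equiv.Perm (Pos D)) *ᵥ (v - u) - lam • (v - u) = 0 := by
    refine eq_zero_of_mem_perp (U := Vle (Pos D) k) ?_
      (Submodule.sub_mem _ hbp (Submodule.smul_mem _ _ hp))
    have : bmat D (Equiv.Perm (Pos D)) *ᵥ (v - u) - lam • (v - u)
        = lam • u - bmat D (Equiv.Perm (Pos D)) *ᵥ u := by
      rw [mulVec_sub, hv, smul_sub]; abel
    rw [this]
    exact Submodule.sub_mem _ (Submodule.smul_mem _ _ hu) hbu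
  by_contra hcon
  have h0 : v - u ≠ 0 := by
    intro h
    rw [sub_eq_zero] at h
    exact hcon (h ▸ hu)
  exact absurd (exists_gap h0 hp (sub_eq_zero.1 h1)) (not_le.2 hlam)

end Crest.Agent.R155
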