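import Mathlib
import Crest.Agent.R155.Mem
import Crest.Agent.R155.Chess

/-! The trace bound. -/

open Finset BigOperators Matrix

namespace Crest.Agent.R155

variable {D : ℕ}

lemma choose_le_exp (n k : ℕ) {c : ℝ} (hc : 0 ≤ c) (h : (n : ℝ) ≤ c * k) :
    (n.choose k : ℝ) ≤ (c * Real.exp 1) ^ k := by
  calc (n.choose k : ℝ) ≤ (n : ℝ) ^ k / k.factorial := Nat.choose_le_pow_div k n
    _ ≤ (c * k) ^ k / k.factorial := by gcongr
    _ = c ^ k * ((k : ℝ) ^ k / k.factorial) := by rw [mul_pow, mul_div_assoc]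
    _ ≤ c ^ k * Real.exp k := by
        gcongr
        exact Real.pow_div_factorial_le_exp _ (by positivity) k
    _ = _ := by rw [mul_pow, ← Real.exp_nat_mul, mul_one]

lemma hs_bound {ι : Type*} [Fintype ι] [DecidableEq ι] {M : ℝ} (hM : 0 < M)
    (hT : TailOK D (Fintype.card ι) M) :
    ∑ z, ∑ x, actM (ι ↪ Pos D) (cpw (betaD D) 20) z x ^ 2 ≤ 2 ^ 101 * M := by
  have hbs := bmat_transpose (D := D) (Ω := ι ↪ Pos D)
  obtain ⟨m, e, t, he, -, het, hsp⟩ := exists_eigen_family (bmat D (ι ↪ Pos D)).mulVecLin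
    (symm_mulVec_dot hbs) ⊤ (by simp)
  refine le_trans (le_of_eq ?_) (count_main hM hT he het univ)
  rw [← trace_pow_eq_sum he hsp het, actM_cpw, actM_betaD, show 40 = 20 + 20 from rfl, pow_add]
  nth_rewrite 3 [← hbs]
  rw [← transpose_pow, Chess.trace_mul_transpose, Fintype.sum_prod_type]

lemma cmom_bound {ι : Type*} [Fintype ι] [DecidableEq ι] {k s : ℕ} (hk : Fintype.card ι = k)
    (hk1 : 1 ≤ k) (hs : 1 ≤ s) (hn : 2 ^ (4 * s + 16) * k ≤ 2 ^ D) :
    ∑ x : ι ↪ Pos D, cmom (cpw (betaD D) 20) x ≤ 2 ^ 101 * (16 / 2 ^ s) ^ k := by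
  set S := ∑ x : ι ↪ Pos D, cmom (cpw (betaD D) 20) x with hS
  have hS0 : 0 ≤ S := Finset.sum_nonneg fun x _ => cmom_nonneg _ _
  have hcard : Fintype.card (Pos D) = 2 ^ D := by simp
  have hq : 2 ≤ 2 ^ s := by
    calc 2 = 2 ^ 1 := rfl
      _ ≤ 2 ^ s := Nat.pow_le_pow_right (by norm_num) hs
  have hjn : 2 ^ s * k ≤ 2 ^ D :=
    le_trans (Nat.mul_le_mul_right _ (Nat.pow_le_pow_right (by norm_num) (by omega))) hn
  have h1 := cmom_le_hs (ι := ι) (ι' := Fin (2 ^ s * k)) (cpw (betaD D) 20)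
    (by rw [hk, Fintype.card_fin]; nlinarith) (by rw [Fintype.card_fin, hcard]; exact hjn)
  have h2 := hs_bound (D := D) (ι := Fin (2 ^ s * k)) (Real.exp_pos _)
    (tail_sparse D _ (s + 6) (by omega))
  rw [Fintype.card_fin] at h1 h2
  rw [hk, hcard, ← hS] at h1
  have hnR : (2 : ℝ) ^ (4 * s + 16) * k ≤ 2 ^ D := by exact_mod_cast hn
  have hkR : (1 : ℝ) ≤ k := by exact_mod_cast hk1
  have hqR : (2 : ℝ) ≤ 2 ^ s := by exact_mod_cast hq
  have hD : (0 : ℝ) < 2 ^ D := by positivity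
  have h3 : Real.exp (16 * 4 ^ (s + 6) * ((2 ^ s * k : ℕ) : ℝ) ^ 2 / 2 ^ D
      + 64 * ((2 ^ s * k : ℕ) : ℝ) / 2 ^ (s + 6)) ≤ (15 / 2) ^ k := by
    have e1 : 16 * 4 ^ (s + 6) * ((2 ^ s * k : ℕ) : ℝ) ^ 2 / 2 ^ D ≤ k := by
      rw [div_le_iff₀ hD]
      calc 16 * 4 ^ (s + 6) * ((2 ^ s * k : ℕ) : ℝ) ^ 2 = k * (2 ^ (4 * s + 16) * k) := by
            push_cast
            rw [show (4 : ℝ) = 2 ^ 2 by norm_num, ← pow_mul]
            ring
        _ ≤ _ := by gcongr
    have e2 : 64 * ((2 ^ s * k : ℕ) : ℝ) / 2 ^ (s + 6) = k := by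
      push_cast
      field_simp
      ring
    calc _ ≤ Real.exp (k * 2) := Real.exp_le_exp.2 (by linarith)
      _ = (Real.exp 1 ^ 2) ^ k := by rw [Real.exp_nat_mul, ← Real.exp_nat_mul 1 2]; norm_num
      _ ≤ _ := by
          gcongr
          have := Real.exp_one_lt_d9
          have := Real.exp_pos 1
          nlinarith
  have h4 : ((2 : ℝ) ^ s / 2) ^ k ≤ ((2 ^ s * k).choose k : ℝ) := by
    refine le_trans ?_ (Nat.pow_le_choose k (2 ^ s * k))
    rw [le_div_iff₀ (by positivity)]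
    calc ((2 : ℝ) ^ s / 2) ^ k * k.factorial ≤ ((2 : ℝ) ^ s / 2) ^ k * (k : ℝ) ^ k := by
          gcongr
          exact_mod_cast Nat.factorial_le_pow k
      _ ≤ _ := by
          rw [← mul_pow]
          gcongr
          rw [Nat.cast_sub (by nlinarith)]
          push_cast
          nlinarith
  have h5 : ((15 : ℝ) / 16) ^ k ≤ (1 - ((2 ^ s * k : ℕ) : ℝ) / ((2 ^ D : ℕ) : ℝ)) ^ (2 ^ s * k) := by
    rw [pow_mul]
    gcongr
    have e0 : ((2 ^ s * k : ℕ) : ℝ) / ((2 ^ D : ℕ) : ℝ) ≤ 1 := by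
      rw [div_le_one (by positivity)]
      exact_mod_cast hjn
    have e1 := one_add_mul_le_pow (a := -(((2 ^ s * k : ℕ) : ℝ) / ((2 ^ D : ℕ) : ℝ)))
      (by linarith) (2 ^ s)
    rw [← sub_eq_add_neg] at e1
    refine le_trans ?_ e1
    have e2 : ((2 ^ s : ℕ) : ℝ) * (((2 ^ s * k : ℕ) : ℝ) / ((2 ^ D : ℕ) : ℝ)) ≤ 1 / 16 := by
      push_cast
      rw [← mul_div_assoc, div_le_iff₀ hD]
      have e3 : (2 : ℝ) ^ (2 * s + 4) * k ≤ 2 ^ (4 * s + 16) * k := by
        exact mul_le_mul_of_nonneg_right (pow_le_pow_right₀ (by norm_num) (by omega))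
          (by positivity)
      have e4 : (2 : ℝ) ^ (2 * s + 4) * k = 16 * (2 ^ s * (2 ^ s * k)) := by ring
      linarith
    linarith
  have h6 : ((2 : ℝ) ^ s / 2) ^ k * ((15 : ℝ) / 16) ^ k * S ≤ 2 ^ 101 * (15 / 2) ^ k := by
    refine le_trans ?_ (h1.trans (h2.trans ?_))
    · gcongr
    · gcongr
  have h7 : ((15 : ℝ) / 2) ^ k = (16 / 2 ^ s) ^ k * (((2 : ℝ) ^ s / 2) ^ k * ((15 : ℝ) / 16) ^ k) := by
    rw [← mul_pow, ← mul_pow]
    congr 1
    field_simp
  rw [h7, ← mul_assoc, mul_comm _ S] at h6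
  exact le_of_mul_le_mul_right h6 (by positivity)

lemma sparse_bound {ι : Type*} [Fintype ι] [DecidableEq ι] {k : ℕ} (hk : Fintype.card ι = k)
    (hk1 : 1 ≤ k) (hn : 2 ^ 40 * k ≤ 2 ^ D) {m : ℕ} {e : Fin m → (ι ↪ Pos D) → ℝ}
    {t : Fin m → ℝ} (he : ON e) (hd : ∀ s, e s ∈ Deg ι (Pos D))
    (ht : ∀ s, actM (ι ↪ Pos D) (betaD D) *ᵥ e s = t s • e s) :
    ((2 ^ D).choose k : ℝ) * ∑ s, t s ^ 1600 ≤ 2 ^ 4052 / 2 ^ D * (1 / 2) ^ k := by
  obtain ⟨r, hr1, hr2⟩ : ∃ r : ℕ, 2 ^ (4 * (r + 6) + 16) * k ≤ 2 ^ D ∧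
      2 ^ D < 2 ^ (4 * (r + 1 + 6) + 16) * k := by
    have hex : ∃ r : ℕ, 2 ^ D < 2 ^ (4 * (r + 6) + 16) * k := by
      refine ⟨D, lt_of_lt_of_le (Nat.pow_lt_pow_right (by norm_num) (by omega :
        D < 4 * (D + 6) + 16)) (Nat.le_mul_of_pos_right _ hk1)⟩
    have h0 : Nat.find hex ≠ 0 := by
      intro h
      have := Nat.find_spec hex
      rw [h] at this
      exact absurd hn (not_le.2 this)
    obtain ⟨r, hr⟩ := Nat.exists_eq_succ_of_ne_zero h0
    refine ⟨r, not_lt.1 (Nat.find_min hex (by omega)), ?_⟩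
    have := Nat.find_spec hex
    rwa [hr] at this
  have h1 := cmom_bound (D := D) hk hk1 (by omega : 1 ≤ r + 6) hr1
  have h2 := deg_bessel (cpw (betaD D) 20) he hd univ
  have h3 : ∑ s, t s ^ 40 ≤ 2 ^ 101 * (16 / 2 ^ (r + 6)) ^ k := by
    refine le_trans (le_of_eq ?_) (h2.trans h1)
    refine Finset.sum_congr rfl fun s _ => ?_
    rw [actM_cpw, pow_mulVec_eigen (ht s), smul_dotProduct, dotProduct_smul, he.self]
    simp only [smul_eq_mul]
    ring
  have h40 : ∀ s, 0 ≤ t s ^ 40 := fun s => Even.pow_nonneg (by decide) _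
  have h4 : ∑ s, t s ^ 1600 ≤ (∑ s, t s ^ 40) ^ 40 := by
    rw [pow_succ _ 39, Finset.mul_sum]
    refine Finset.sum_le_sum fun s _ => ?_
    rw [show t s ^ 1600 = (t s ^ 40) ^ 39 * t s ^ 40 by rw [← pow_mul, ← pow_add]]
    refine mul_le_mul_of_nonneg_right (pow_le_pow_left₀ (h40 s) ?_ _) (h40 s)
    exact Finset.single_le_sum (f := fun s => t s ^ 40) (fun s _ => h40 s) (mem_univ s)
  have h5 : ∑ s, t s ^ 1600 ≤ (2 ^ 101 * (16 / 2 ^ (r + 6)) ^ k) ^ 40 :=
    h4.trans (pow_le_pow_left₀ (Finset.sum_nonneg fun s _ => h40 s) h3 _)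
  have hr2R : ((2 ^ D : ℕ) : ℝ) ≤ 2 ^ (4 * r + 44) * k := by
    rw [show 4 * r + 44 = 4 * (r + 1 + 6) + 16 by ring]
    exact_mod_cast hr2.le
  have h6 : ((2 ^ D).choose k : ℝ) ≤ (2 ^ (4 * r + 46)) ^ k := by
    refine (choose_le_exp _ k (by positivity) hr2R).trans ?_
    gcongr
    have := Real.exp_one_lt_d9
    rw [show 4 * r + 46 = 4 * r + 44 + 2 by ring, pow_add (2 : ℝ) (4 * r + 44) 2]
    exact mul_le_mul_of_nonneg_left (by linarith) (by positivity)
  have h7 : ((2 : ℝ) ^ (4 * r + 46)) ^ k * (2 ^ 101 * (16 / 2 ^ (r + 6)) ^ k) ^ 40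
      = 2 ^ 4040 / 2 ^ ((34 + 36 * r) * k) := by
    have e1 : (16 : ℝ) / 2 ^ (r + 6) = 1 / 2 ^ (r + 2) := by
      field_simp
      ring
    rw [e1, mul_pow, ← pow_mul (2 : ℝ) 101, div_pow, div_pow, one_pow, one_pow, ← pow_mul,
      ← pow_mul, ← pow_mul, show (r + 2) * (k * 40) = (4 * r + 46) * k + (34 + 36 * r) * k by ring,
      pow_add]
    field_simp
  have h8 : (2 : ℝ) ^ D * 2 ^ k ≤ 2 ^ 12 * 2 ^ ((34 + 36 * r) * k) := by
    have e1 : (k : ℝ) ≤ 2 ^ k := by exact_mod_cast Nat.lt_two_pow_self.le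
    push_cast at hr2R
    calc (2 : ℝ) ^ D * 2 ^ k ≤ 2 ^ (4 * r + 44) * 2 ^ k * 2 ^ k := by
          gcongr
          exact hr2R.trans (by gcongr)
      _ ≤ _ := by
          rw [← pow_add, ← pow_add, ← pow_add]
          exact pow_le_pow_right₀ (by norm_num) (by nlinarith)
  calc _ ≤ ((2 : ℝ) ^ (4 * r + 46)) ^ k * (2 ^ 101 * (16 / 2 ^ (r + 6)) ^ k) ^ 40 := by
        refine mul_le_mul h6 h5 (Finset.sum_nonneg fun s _ => Even.pow_nonneg (by decide) _)
          (by positivity)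
    _ ≤ _ := by
        rw [h7, one_div, inv_pow, ← div_eq_mul_inv, div_div, show 4052 = 4040 + 12 from rfl, pow_add,
          mul_div_assoc, div_eq_mul_inv]
        gcongr
        rw [inv_eq_one_div, div_le_div_iff₀ (by positivity) (by positivity), one_mul]
        exact h8

lemma dense_numeric {k : ℕ} (hn : 2 ^ D < 2 ^ 40 * k) :
    Real.exp (-(k : ℝ) / 24) ^ 1560 * (((2 ^ D).choose k : ℝ) * (2 ^ 101 * Real.exp (25 * k)))
      ≤ 2 ^ 141 / 2 ^ D * (1 / 2) ^ k := by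
  have hnR : ((2 ^ D : ℕ) : ℝ) ≤ 2 ^ 40 * k := by exact_mod_cast hn.le
  have hlog : Real.log 2 < 0.6931471808 := Real.log_two_lt_d9
  have h2 : ∀ a : ℕ, (2 : ℝ) ^ a = Real.exp (a * Real.log 2) := fun a => by
    rw [Real.exp_nat_mul, Real.exp_log (by norm_num)]
  have h1 := choose_le_exp _ k (by positivity) hnR
  have hk : (0 : ℝ) ≤ k := by positivity
  calc _ ≤ Real.exp (-(k : ℝ) / 24) ^ 1560 *
        ((2 ^ 40 * Real.exp 1) ^ k * (2 ^ 101 * Real.exp (25 * k))) := by gcongr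
    _ = 2 ^ 101 * Real.exp (k * (40 * Real.log 2 - 39)) := by
        rw [h2 40, ← Real.exp_add, ← Real.exp_nat_mul, ← Real.exp_nat_mul, mul_left_comm _ (2 ^ 101),
          mul_left_comm _ (2 ^ 101), ← Real.exp_add, ← Real.exp_add]
        congr 2
        push_cast
        ring
    _ ≤ 2 ^ 101 * ((1 / 2) ^ k * (1 / 2) ^ k) := by
        gcongr
        rw [← pow_add, one_div, inv_pow, h2, ← Real.exp_neg]
        refine Real.exp_le_exp.2 ?_
        push_cast
        nlinarith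
    _ ≤ _ := by
        rw [← mul_assoc]
        gcongr
        have e1 : (k : ℝ) ≤ 2 ^ k := by exact_mod_cast Nat.lt_two_pow_self.le
        push_cast at hnR
        rw [one_div, inv_pow, ← div_eq_mul_inv, div_le_div_iff₀ (by positivity) (by positivity),
          show 141 = 101 + 40 from rfl, pow_add, mul_assoc]
        gcongr
        exact hnR.trans (by gcongr)

theorem trace_bound (D : ℕ) :
    (bmat D (Equiv.Perm (Pos D)) ^ 1600).trace ≤ 1 + 2 ^ 4054 / 2 ^ D := by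
  classical
  have hbs := bmat_transpose (D := D) (Ω := Equiv.Perm (Pos D))
  obtain ⟨m, v, lam, hv, -, hlam, hsp⟩ :=
    exists_eigen_family (bmat D (Equiv.Perm (Pos D))).mulVecLin (symm_mulVec_dot hbs) ⊤ (by simp)
  have hlam' : ∀ a, bmat D (Equiv.Perm (Pos D)) *ᵥ v a = lam a • v a := hlam
  have hl0 : ∀ a, 0 ≤ lam a := fun a => bmat_eigen_nonneg (hv.self a) (hlam' a)
  have hcard : Fintype.card (Pos D) = 2 ^ D := by simp
  rw [trace_pow_eq_sum hv hsp hlam']
  set K := 2 ^ D / 2 ^ 40 with hK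
  have hKn : K + 1 ≤ 2 ^ D := Nat.div_lt_self (by positivity) (by norm_num)
  let A₀ : Finset (Fin m) := univ.filter fun a => v a ∈ Vle (Pos D) K
  let A : ℕ → Finset (Fin m) := fun k =>
    univ.filter fun a => lam a ≤ Real.exp (-(k : ℝ) / 24) ∧ v a ∈ Vle (Pos D) k
  have hG : (actM (Equiv.Perm (Pos D)) (betaD D))ᵀ = actM (Equiv.Perm (Pos D)) (betaD D) := by
    rw [actM_betaD, bmat_transpose]
  have hs : ∀ J : Finset (Pos D), (actM (J ↪ Pos D) (betaD D))ᵀ = actM (J ↪ Pos D) (betaD D) :=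
    fun J => by rw [actM_betaD, bmat_transpose]
  have hsplit : ∑ a, lam a ^ 1600 ≤ ∑ a ∈ A₀, lam a ^ 1600 +
      ∑ k ∈ Icc (K + 1) (2 ^ D), ∑ a ∈ A k, lam a ^ 1600 := by
    simp only [A₀, A, Finset.sum_filter]
    rw [Finset.sum_comm, ← Finset.sum_add_distrib]
    refine Finset.sum_le_sum fun a _ => ?_
    have hp : 0 ≤ lam a ^ 1600 := pow_nonneg (hl0 a) _
    have hnn : ∀ k ∈ Icc (K + 1) (2 ^ D), 0 ≤
        if lam a ≤ Real.exp (-(k : ℝ) / 24) ∧ v a ∈ Vle (Pos D) k then lam a ^ 1600 else 0 :=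
      fun k _ => by split_ifs <;> simp [hp]
    split_ifs with h
    · exact le_add_of_nonneg_right (Finset.sum_nonneg hnn)
    rw [zero_add]
    have h1 : lam a ≤ Real.exp (-((K + 1 : ℕ) : ℝ) / 24) := by
      by_contra hcon
      push_cast at hcon
      exact h (level_mem (hlam' a) (not_le.1 hcon))
    set k := Nat.findGreatest (fun k : ℕ => lam a ≤ Real.exp (-(k : ℝ) / 24)) (2 ^ D) with hk
    have hk1 : K + 1 ≤ k := Nat.le_findGreatest hKn h1
    have hk2 : k ≤ 2 ^ D := Nat.findGreatest_le _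
    have hk3 : lam a ≤ Real.exp (-(k : ℝ) / 24) :=
      Nat.findGreatest_spec (P := fun k : ℕ => lam a ≤ Real.exp (-(k : ℝ) / 24)) hKn h1
    have hk4 : v a ∈ Vle (Pos D) k := by
      rcases hk2.eq_or_lt with h2 | h2
      · refine Submodule.mem_iSup_of_mem
          (⟨univ, by rw [card_univ, hcard, h2]⟩ : {I : Finset (Pos D) // I.card ≤ k}) ?_
        intro h hh g
        have : h = 1 := Equiv.ext fun x => hh x (mem_univ x)
        rw [this, mul_one]
      · have := Nat.findGreatest_is_greatest (P := fun k : ℕ => lam a ≤ Real.exp (-(k : ℝ) / 24))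
          (k := k + 1) (n := 2 ^ D) (by omega) h2
        push_cast at this
        exact level_mem (hlam' a) (not_le.1 this)
    refine le_trans ?_ (Finset.single_le_sum hnn (mem_Icc.2 ⟨hk1, hk2⟩))
    rw [if_pos ⟨hk3, hk4⟩]
  have hgeo : ∀ N : ℕ, ∑ k ∈ range N, ((1 : ℝ) / 2) ^ k ≤ 2 := sum_geometric_two_le
  have hsparse : ∑ a ∈ A₀, lam a ^ 1600 ≤ 1 + 2 ^ 4052 / 2 ^ D * 2 := by
    let f : ℕ → ℝ := fun k =>
      if k = 0 then 1 else 2 ^ 4052 / 2 ^ D * (1 / 2) ^ k / ((2 ^ D).choose k : ℝ)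
    have hf : ∀ k, 0 ≤ f k := fun k => by
      simp only [f]
      split_ifs <;> positivity
    have h1 := count_lift hG hs (univ.filter fun J : Finset (Pos D) => J.card ≤ K)
      (fun J => Deg J (Pos D)) (fun J u hu => actM_Deg (hs J) hu) hv (lam := lam)
      (by rw [actM_betaD]; exact hlam') A₀ (fun a ha => by
        refine (iSup_le ?_ : Vle (Pos D) K ≤ _) (mem_filter.1 ha).2
        intro I
        refine (VI_le_deg I.1).trans (biSup_mono fun J hJ => ?_)
        exact mem_filter.2 ⟨mem_univ _, (card_le_card (mem_powerset.1 hJ)).trans I.2⟩)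
      1600 (by decide) (fun J => f J.card) (fun J hJ m' e t he hd ht => by
        simp only [f]
        split_ifs with h0
        · have e1 := sum_sq_mulVec_le he univ (1 : Matrix (J ↪ Pos D) (J ↪ Pos D) ℝ)
          simp only [one_mulVec, he.self, Matrix.one_apply, ite_pow, one_pow, ne_eq,
            OfNat.ofNat_ne_zero, not_false_eq_true, zero_pow, Finset.sum_ite_eq, mem_univ,
            if_true] at e1
          rw [Finset.sum_const (s := (univ : Finset (J ↪ Pos D))), card_univ,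
            Fintype.card_embedding_eq, Fintype.card_coe, h0] at e1
          refine le_trans (Finset.sum_le_sum fun s _ => ?_) (e1.trans (by simp))
          rw [actM_betaD] at ht
          exact pow_le_one₀ (bmat_eigen_nonneg (he.self s) (ht s))
            (bmat_eigen_le_one (he.self s) (ht s))
        · have hJK : J.card ≤ K := (mem_filter.1 hJ).2
          have e1 : 2 ^ 40 * J.card ≤ 2 ^ D :=
            (Nat.mul_le_mul_left _ hJK).trans (Nat.mul_div_le _ _)
          have e2 : (0 : ℝ) < (2 ^ D).choose J.card := by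
            exact_mod_cast Nat.choose_pos (by omega)
          rw [le_div_iff₀ e2, mul_comm]
          exact sparse_bound (Fintype.card_coe J) (by omega) e1 he hd ht)
    refine h1.trans ?_
    calc _ ≤ ∑ J ∈ (univ : Finset (Pos D)).powerset, f J.card :=
          Finset.sum_le_sum_of_subset_of_nonneg (by simp) fun J _ _ => hf _
      _ = ∑ k ∈ range (2 ^ D + 1), ((2 ^ D).choose k : ℝ) * f k := by
          rw [Finset.sum_powerset_apply_card, card_univ, hcard]
          simp only [nsmul_eq_mul]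
      _ ≤ ∑ k ∈ range (2 ^ D + 1),
            ((if k = 0 then (1 : ℝ) else 0) + 2 ^ 4052 / 2 ^ D * (1 / 2) ^ k) := by
          refine Finset.sum_le_sum fun k hk => ?_
          simp only [f]
          split_ifs with h0
          · subst h0
            rw [Nat.choose_zero_right, Nat.cast_one, mul_one]
            exact le_add_of_nonneg_right (by positivity)
          · have e2 : (0 : ℝ) < (2 ^ D).choose k := by
              exact_mod_cast Nat.choose_pos (by have := mem_range.1 hk; omega)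
            rw [zero_add, mul_div_cancel₀ _ e2.ne']
      _ ≤ _ := by
          rw [Finset.sum_add_distrib, ← Finset.mul_sum, Finset.sum_ite_eq', if_pos (by simp)]
          gcongr
          exact hgeo _
  have hdense : ∀ k ∈ Icc (K + 1) (2 ^ D),
      ∑ a ∈ A k, lam a ^ 1600 ≤ 2 ^ 141 / 2 ^ D * (1 / 2) ^ k := by
    intro k hk
    obtain ⟨hk1, hk2⟩ := mem_Icc.1 hk
    have h1 := count_lift hG hs (powersetCard k univ) (fun J => ⊤) (by simp) hv (lam := lam)
      (by rw [actM_betaD]; exact hlam') (A k) (fun a ha => by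
        refine (iSup_le ?_ : Vle (Pos D) k ≤ _) (mem_filter.1 ha).2.2
        intro I
        obtain ⟨J, hIJ, hJ⟩ := Finset.exists_superset_card_eq I.2 (by rw [hcard]; exact hk2)
        refine (VI_mono hIJ).trans ((VI_le_range J).trans ?_)
        exact le_biSup (f := fun J : Finset (Pos D) => Submodule.map (liftF J) ⊤)
          (mem_powersetCard.2 ⟨subset_univ _, hJ⟩))
      40 (by decide) (fun _ => 2 ^ 101 * Real.exp (25 * k)) (fun J hJ m' e t he _ ht => by
        rw [actM_betaD] at ht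
        refine count_main (Real.exp_pos _) ?_ he ht univ
        rw [Fintype.card_coe, (mem_powersetCard.1 hJ).2]
        exact tail_dense D k)
    rw [Finset.sum_const, Finset.card_powersetCard, card_univ, hcard, nsmul_eq_mul] at h1
    have h2 : 2 ^ D < 2 ^ 40 * k :=
      lt_of_lt_of_le (Nat.lt_mul_div_succ _ (by positivity)) (Nat.mul_le_mul_left _ hk1)
    refine le_trans ?_ (dense_numeric h2)
    refine le_trans ?_ (mul_le_mul_of_nonneg_left h1 (by positivity))
    rw [Finset.mul_sum]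
    refine Finset.sum_le_sum fun a ha => ?_
    rw [show 1600 = 1560 + 40 from rfl, pow_add]
    exact mul_le_mul_of_nonneg_right (pow_le_pow_left₀ (hl0 a) (mem_filter.1 ha).2.1 _)
      (pow_nonneg (hl0 a) _)
  have hdense' : ∑ k ∈ Icc (K + 1) (2 ^ D), ∑ a ∈ A k, lam a ^ 1600 ≤ 2 ^ 4052 / 2 ^ D * 2 := by
    refine (Finset.sum_le_sum hdense).trans ?_
    rw [← Finset.mul_sum]
    refine mul_le_mul ?_ ?_ (by positivity) (by positivity)
    · gcongr <;> norm_num
    · refine le_trans (Finset.sum_le_sum_of_subset_of_nonneg ?_ fun _ _ _ => by positivity)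
        (hgeo (2 ^ D + 1))
      intro k hk
      exact mem_range.2 (Nat.lt_succ_of_le (mem_Icc.1 hk).2)
  have e : (2 : ℝ) ^ 4054 / 2 ^ D = 2 ^ 4052 / 2 ^ D * 2 + 2 ^ 4052 / 2 ^ D * 2 := by
    rw [show 4054 = 4052 + 2 from rfl, pow_add]
    generalize (2 : ℝ) ^ 4052 = c
    ring
  rw [e, ← add_assoc]
  exact hsplit.trans (add_le_add hsparse hdense')

end Crest.Agent.R155
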