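import Mathlib
import Crest.Prelude.Def_Shuffle

/-! The shuffle steps as permutations, and the law of the arrangement as an average. -/

open Finset BigOperators
open Crest.ProbabilityR.Shuffle

namespace Crest.Agent.R155

lemma stepPos_injective (m : ℕ) (c : Fin m → Bool) : Function.Injective (stepPos m c) := by
  intro x y h
  have hx := x.isLt
  have hy := y.isLt
  have hm : 0 < m := by omega
  have h' := congrArg Fin.val h
  simp only [stepPos] at h'
  have hu : x.val % m = y.val % m := by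
    split_ifs at h' <;> omega
  have hc : c ⟨x.val % m, Nat.mod_lt _ hm⟩ = c ⟨y.val % m, Nat.mod_lt _ hm⟩ := by
    congr 2
  rw [hc, hu] at h'
  have hd : decide (m ≤ x.val) = decide (m ≤ y.val) := by
    revert h'
    cases c ⟨y.val % m, Nat.mod_lt _ hm⟩ <;> cases decide (m ≤ x.val) <;>
      cases decide (m ≤ y.val) <;> simp
  have hd' : m ≤ x.val ↔ m ≤ y.val := by simpa using hd
  apply Fin.ext
  by_cases h1 : m ≤ x.val
  · have h2 := hd'.1 h1
    rw [Nat.mod_eq_sub_mod h1, Nat.mod_eq_sub_mod h2, Nat.mod_eq_of_lt (by omega),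
      Nat.mod_eq_of_lt (by omega)] at hu
    omega
  · have h2 : ¬ m ≤ y.val := fun h => h1 (hd'.2 h)
    rw [Nat.mod_eq_of_lt (by omega), Nat.mod_eq_of_lt (by omega)] at hu
    exact hu

/-- One shuffle as a permutation. -/
noncomputable def stepPerm (m : ℕ) (c : Fin m → Bool) : Equiv.Perm (Fin (2 * m)) :=
  Equiv.ofBijective (stepPos m c) (Finite.injective_iff_bijective.1 (stepPos_injective m c))

lemma stepPerm_apply (m : ℕ) (c : Fin m → Bool) (x : Fin (2 * m)) :
    stepPerm m c x = stepPos m c x := rfl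

/-- `t` shuffles as a permutation. -/
noncomputable def iterPerm (m : ℕ) : (t : ℕ) → (Fin t → Fin m → Bool) → Equiv.Perm (Fin (2 * m))
  | 0, _ => 1
  | t + 1, cs => stepPerm m (cs (Fin.last t)) * iterPerm m t (fun i => cs i.castSucc)

lemma coe_iterPerm (m : ℕ) : ∀ (t : ℕ) (cs : Fin t → Fin m → Bool),
    ⇑(iterPerm m t cs) = iterPos m t cs
  | 0, _ => rfl
  | t + 1, cs => by
    ext1 x
    simp only [iterPerm, iterPos, Equiv.Perm.mul_apply, stepPerm_apply, coe_iterPerm m t]

/-- The law of the arrangement after `t` shuffles. -/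
noncomputable def law (m t : ℕ) (g : Equiv.Perm (Fin (2 * m))) : ℝ :=
  𝔼 cs : Fin t → Fin m → Bool, if iterPerm m t cs = g then (1 : ℝ) else 0

lemma uniformProb_eq_law (m t : ℕ) (g : Equiv.Perm (Fin (2 * m))) :
    Crest.FinProb.uniformProb {cs : Fin t → Fin m → Bool | iterPos m t cs = ⇑g} = law m t g := by
  unfold Crest.FinProb.uniformProb law
  rw [Fintype.expect_eq_sum_div_card, Finset.sum_boole]
  congr 3
  ext cs
  simp only [mem_filter, mem_univ, true_and, Set.mem_ofPred_eq, ← coe_iterPerm]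
  exact DFunLike.coe_fn_eq

lemma tv_eq (m t : ℕ) : tvFromUniform m t =
    (1 / 2) * ∑ g : Equiv.Perm (Fin (2 * m)), |law m t g - 1 / ((2 * m).factorial : ℝ)| := by
  unfold tvFromUniform
  simp only [uniformProb_eq_law]

lemma sum_law (m t : ℕ) : ∑ g, law m t g = 1 := by
  unfold law
  rw [← Finset.expect_sum_comm]
  simp

lemma expect_iterPerm_succ (m t : ℕ) (f : Equiv.Perm (Fin (2 * m)) → ℝ) :
    𝔼 cs : Fin (t + 1) → Fin m → Bool, f (iterPerm m (t + 1) cs) =
      𝔼 cs : Fin t → Fin m → Bool, 𝔼 c : Fin m → Bool, f (stepPerm m c * iterPerm m t cs) := by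
  rw [← Finset.expect_product', Finset.univ_product_univ]
  refine (Fintype.expect_equiv
    ((Equiv.prodComm _ _).trans (Fin.snocEquiv (fun _ : Fin (t + 1) => Fin m → Bool))) _ _ ?_).symm
  rintro ⟨cs, c⟩
  simp [iterPerm, Fin.snocEquiv]

end Crest.Agent.R155
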