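import Mathlib
import Crest.Agent.R155.Op
import Crest.Agent.R155.Step

/-! Reduction of the shuffle to the butterfly network and the `L²` bound on total variation. -/

open Finset BigOperators Matrix
open Crest.ProbabilityR.Shuffle

namespace Crest.Agent.R155

/-- Big-endian binary encoding of the positions. -/
def enc (d : ℕ) (x : Fin (2 * 2 ^ d)) : Pos (d + 1) := fun a => x.val.testBit (d - a.val)

lemma enc_injective (d : ℕ) : Function.Injective (enc d) := by
  intro x y h
  apply Fin.ext
  apply Nat.eq_of_testBit_eq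
  intro i
  by_cases hi : i ≤ d
  · have := congrFun h ⟨d - i, by omega⟩
    simp only [enc] at this
    rwa [show d - (d - i) = i by omega] at this
  · have hp : 2 * 2 ^ d ≤ 2 ^ i := by
      rw [← pow_succ']
      exact Nat.pow_le_pow_right (by norm_num) (by omega)
    rw [Nat.testBit_lt_two_pow (x.isLt.trans_le hp), Nat.testBit_lt_two_pow (y.isLt.trans_le hp)]

noncomputable def encE (d : ℕ) : Fin (2 * 2 ^ d) ≃ Pos (d + 1) :=
  Equiv.ofBijective (enc d) ((Fintype.bijective_iff_injective_and_card _).2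
    ⟨enc_injective d, by simp [pow_succ']⟩)

lemma encE_apply (d : ℕ) (x : Fin (2 * 2 ^ d)) : encE d x = enc d x := rfl

/-- Cyclic rotation of the coordinates. -/
def rot (d : ℕ) : Equiv.Perm (Pos (d + 1)) where
  toFun := fun y a => y (a + 1)
  invFun := fun y a => y (a - 1)
  left_inv := fun y => by ext a; simp
  right_inv := fun y => by ext a; simp

lemma rot_apply (d : ℕ) (y : Pos (d + 1)) (a : Fin (d + 1)) : rot d y a = y (a + 1) := rfl

lemma rot_pow_apply (d j : ℕ) (y : Pos (d + 1)) (a : Fin (d + 1)) :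
    (rot d ^ j) y a = y (a + Fin.ofNat (d + 1) j) := by
  induction j generalizing y a with
  | zero => simp
  | succ j ih =>
    rw [pow_succ', Equiv.Perm.mul_apply, rot_apply, ih]
    congr 1
    rw [add_assoc]
    congr 1
    apply Fin.ext
    simp [Fin.val_add, Fin.ofNat, Nat.add_comm]

lemma rot_pow_self (d : ℕ) : rot d ^ (d + 1) = 1 := by
  ext y a
  rw [rot_pow_apply]
  simp

lemma layer_rot (d : ℕ) (j : Fin (d + 1)) (c : Pos (d + 1) → Bool) :
    layer 0 c * rot d ^ (j : ℕ) =
      rot d ^ (j : ℕ) * layer j (fun x => c ((rot d ^ (j : ℕ)) x)) := by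
  have hj : Fin.ofNat (d + 1) (j : ℕ) = j := by
    apply Fin.ext; simp [Fin.ofNat, Nat.mod_eq_of_lt j.isLt]
  have hcan : ∀ y, canon 0 ((rot d ^ (j : ℕ)) y) = (rot d ^ (j : ℕ)) (canon j y) := by
    intro y
    ext a
    rw [rot_pow_apply, hj]
    by_cases ha : a = 0
    · subst ha; simp
    · rw [canon_ne ha, canon_ne (by simpa using ha), rot_pow_apply, hj]
  ext y a
  rw [Equiv.Perm.mul_apply, Equiv.Perm.mul_apply, rot_pow_apply d j (layer _ _ _), hj]
  by_cases ha : a = 0
  · subst ha
    rw [zero_add, layer_self, layer_self, rot_pow_apply, hj, zero_add, hcan]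
  · rw [layer_ne ha, layer_ne (by simpa using ha), rot_pow_apply, hj]

/-- The lower half of the positions inside the cube. -/
def low (d : ℕ) (u : Fin (2 ^ d)) : Pos (d + 1) := enc d ⟨u.val, by have := u.isLt; omega⟩

lemma low_injective (d : ℕ) : Function.Injective (low d) := by
  intro u v h
  have := enc_injective d h
  exact Fin.ext (by simpa using this)

lemma enc_stepPos (d : ℕ) (c : Pos (d + 1) → Bool) (x : Fin (2 * 2 ^ d)) :
    enc d (stepPos (2 ^ d) (fun u => c (low d u)) x) = rot d (layer 0 c (enc d x)) := by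
  have hx := x.isLt
  have hcan : canon 0 (enc d x) = low d ⟨x.val % 2 ^ d, Nat.mod_lt _ (by positivity)⟩ := by
    ext a
    by_cases ha : a = 0
    · subst ha
      simp [low, enc]
    · rw [canon_ne ha]
      have : 0 < a.val := Fin.pos_iff_ne_zero.2 ha
      have h2 := a.isLt
      simp only [low, enc, Nat.testBit_mod_two_pow]
      rw [decide_eq_true (by omega), Bool.true_and]
  have htop : x.val.testBit d = decide (2 ^ d ≤ x.val) := by
    by_cases h : 2 ^ d ≤ x.val
    · rw [decide_eq_true h]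
      exact Nat.testBit_of_two_pow_le_and_two_pow_add_one_gt h (by rw [pow_succ']; exact hx)
    · rw [decide_eq_false h]
      exact Nat.testBit_lt_two_pow (by omega)
  ext a
  rw [rot_apply]
  by_cases ha : a = Fin.last d
  · subst ha
    rw [Fin.last_add_one, layer_self, hcan]
    simp only [enc, stepPos, Fin.val_last, Nat.sub_self, Fin.val_zero, Nat.sub_zero, htop,
      Nat.testBit_zero]
    cases xor (decide (2 ^ d ≤ x.val)) (c (low d ⟨x.val % 2 ^ d, _⟩)) <;> simp
  · have h1 : a.val < d := by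
      have := a.isLt
      have h2 : a.val ≠ d := fun h => ha (Fin.ext (by simpa using h))
      omega
    have h3 : (a + 1).val = a.val + 1 := Fin.val_add_one_of_lt (by simpa [Fin.lt_def] using h1)
    rw [layer_ne (by intro h; rw [h] at h3; simp at h3)]
    simp only [enc, stepPos, h3]
    rw [show d - a.val = (d - (a.val + 1)) + 1 by omega, Nat.testBit_succ]
    have h4 : ∀ b : ℕ, b ≤ 1 → (2 * (x.val % 2 ^ d) + b) / 2 = x.val % 2 ^ d := by
      intro b hb; omega
    rw [h4 _ (by split_ifs <;> omega), Nat.testBit_mod_two_pow, decide_eq_true (by omega),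
      Bool.true_and]

/-- Transport of permutations to the cube. -/
noncomputable def cj (d : ℕ) : Equiv.Perm (Fin (2 * 2 ^ d)) ≃* Equiv.Perm (Pos (d + 1)) :=
  (encE d).permCongrHom

lemma cj_stepPerm (d : ℕ) (c : Pos (d + 1) → Bool) :
    cj d (stepPerm (2 ^ d) (fun u => c (low d u))) = rot d * layer 0 c := by
  ext1 y
  obtain ⟨x, rfl⟩ := (encE d).surjective y
  simp only [cj, Equiv.permCongrHom_coe, Equiv.permCongr_apply, Equiv.symm_apply_apply,
    Equiv.Perm.mul_apply, stepPerm_apply]
  exact enc_stepPos d c x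

/-- The Markov operator of one shuffle. -/
noncomputable def Kop (d : ℕ) (f : Equiv.Perm (Pos (d + 1)) → ℝ) (g : Equiv.Perm (Pos (d + 1))) :
    ℝ := 𝔼 c : Pos (d + 1) → Bool, f (rot d * layer 0 c * g)

lemma expect_iterPerm (d t : ℕ) (f : Equiv.Perm (Pos (d + 1)) → ℝ) :
    𝔼 cs : Fin t → Fin (2 ^ d) → Bool, f (cj d (iterPerm (2 ^ d) t cs)) = (Kop d)^[t] f 1 := by
  induction t generalizing f with
  | zero => simp [iterPerm]
  | succ t ih =>
    rw [expect_iterPerm_succ (2 ^ d) t (fun g => f (cj d g)), Function.iterate_succ_apply, ← ih]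
    refine Finset.expect_congr rfl fun cs _ => ?_
    rw [← expect_comp_inj (low d) (low_injective d)
      (fun c => f (cj d (stepPerm (2 ^ d) c * iterPerm (2 ^ d) t cs)))]
    simp only [Kop, map_mul, cj_stepPerm]

lemma expect_sig_succ {D : ℕ} (j : Fin D) (f : Equiv.Perm (Pos D) → ℝ) :
    𝔼 ω : Bits D, f (sig ω (j + 1)) = 𝔼 ω : Bits D, 𝔼 c : Pos D → Bool, f (layer j c * sig ω j) := by
  rw [expect_mrg (fun s : Fin D × Pos D => s.1 < j)]
  refine Finset.expect_congr rfl fun ω _ => ?_
  rw [← expect_comp_inj (fun x : Pos D => (j, x)) (fun x y h => by simpa using h)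
    (fun c => f (layer j c * sig ω j))]
  refine Finset.expect_congr rfl fun ω' _ => ?_
  rw [sig_succ', sig_congr (ω' := ω) j (fun s hs => by
    have : s.1 < j := hs
    simp [mrg, this])]
  simp [lay, mrg]

lemma Kop_iterate (d j : ℕ) (hj : j ≤ d + 1) (f : Equiv.Perm (Pos (d + 1)) → ℝ)
    (g : Equiv.Perm (Pos (d + 1))) :
    (Kop d)^[j] f g = 𝔼 ω : Bits (d + 1), f (rot d ^ j * sig ω j * g) := by
  induction j generalizing f with
  | zero => simp
  | succ j ih =>
    rw [Function.iterate_succ_apply, ih (by omega)]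
    have h := expect_sig_succ (D := d + 1) ⟨j, by omega⟩ (fun s => f (rot d ^ (j + 1) * s * g))
    simp only at h
    rw [h]
    refine Finset.expect_congr rfl fun ω _ => ?_
    rw [← expect_comp_inj (fun x => (rot d ^ j) x) (rot d ^ j).injective]
    refine Finset.expect_congr rfl fun c _ => ?_
    have h2 := layer_rot d ⟨j, by omega⟩ c
    simp only at h2
    congr 1
    rw [pow_succ', mul_assoc (rot d) (rot d ^ j), ← mul_assoc (rot d ^ j), ← h2]
    simp only [mul_assoc]

lemma Kop_iterate_full (d : ℕ) (f : Equiv.Perm (Pos (d + 1)) → ℝ) :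
    (Kop d)^[d + 1] f = f ᵥ* Tmat (d + 1) (Equiv.Perm (Pos (d + 1))) := by
  ext g
  rw [Kop_iterate d (d + 1) le_rfl, rot_pow_self]
  simp only [vecMul, dotProduct, Tmat, Finset.mul_expect, one_mul, smul_eq_mul]
  rw [← Finset.expect_sum_comm]
  refine Finset.expect_congr rfl fun ω _ => ?_
  simp

lemma Kop_iterate_mul (d R : ℕ) (f : Equiv.Perm (Pos (d + 1)) → ℝ) :
    (Kop d)^[R * (d + 1)] f = f ᵥ* Tmat (d + 1) (Equiv.Perm (Pos (d + 1))) ^ R := by
  induction R with
  | zero => simp
  | succ R ih =>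
    rw [Nat.succ_mul, add_comm (R * (d + 1)), Function.iterate_add_apply, ih, Kop_iterate_full,
      vecMul_vecMul, pow_succ]

lemma law_eq (d R : ℕ) (g : Equiv.Perm (Fin (2 * 2 ^ d))) :
    law (2 ^ d) (R * (d + 1)) g = (Tmat (d + 1) (Equiv.Perm (Pos (d + 1))) ^ R) (cj d g) 1 := by
  have h := expect_iterPerm d (R * (d + 1)) (Pi.single (cj d g) 1)
  rw [Kop_iterate_mul, single_one_vecMul] at h
  rw [← show _ = (Tmat (d + 1) (Equiv.Perm (Pos (d + 1))) ^ R) (cj d g) 1 from h]
  unfold law
  refine Finset.expect_congr rfl fun cs _ => ?_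
  simp [Pi.single_apply]

lemma Tmat_pow_mul_right (D R : ℕ) (g h k : Equiv.Perm (Pos D)) :
    (Tmat D (Equiv.Perm (Pos D)) ^ R) (g * k) (h * k) = (Tmat D (Equiv.Perm (Pos D)) ^ R) g h := by
  induction R generalizing g h with
  | zero => simp [Matrix.one_apply]
  | succ R ih =>
    rw [pow_succ, Matrix.mul_apply, Matrix.mul_apply, ← Equiv.sum_comp (Equiv.mulRight k)]
    refine Finset.sum_congr rfl fun y _ => ?_
    simp only [Equiv.coe_mulRight, ih]
    congr 1
    simp only [Tmat, smul_eq_mul, ← mul_assoc, mul_left_inj]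

theorem tv_le (d R : ℕ) : Crest.ProbabilityR.Shuffle.tvFromUniform (2 ^ d) (R * (d + 1)) ≤
    (1 / 2) * √((Tmat (d + 1) (Equiv.Perm (Pos (d + 1))) ^ R *
      (Tmat (d + 1) (Equiv.Perm (Pos (d + 1))) ^ R)ᵀ).trace - 1) := by
  rw [tv_eq]
  set A := Tmat (d + 1) (Equiv.Perm (Pos (d + 1))) ^ R with hA
  set p := law (2 ^ d) (R * (d + 1)) with hp
  set N : ℝ := ((2 * 2 ^ d).factorial : ℝ) with hN
  have hN0 : 0 < N := by rw [hN]; exact_mod_cast Nat.factorial_pos _
  have hcard : (Fintype.card (Equiv.Perm (Fin (2 * 2 ^ d))) : ℝ) = N := by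
    rw [Fintype.card_perm, Fintype.card_fin]
  have htr : (A * Aᵀ).trace = N * ∑ g, p g ^ 2 := by
    simp only [Matrix.trace, Matrix.diag, Matrix.mul_apply, Matrix.transpose_apply]
    rw [Finset.sum_comm]
    have h1 : ∀ h : Equiv.Perm (Pos (d + 1)), ∑ g, A g h * A g h = ∑ g, p g ^ 2 := by
      intro h
      rw [← Equiv.sum_comp (Equiv.mulRight h), ← Equiv.sum_comp (cj d).toEquiv]
      refine Finset.sum_congr rfl fun g _ => ?_
      have h2 := Tmat_pow_mul_right (d + 1) R (cj d g) 1 h
      rw [one_mul] at h2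
      rw [hp, law_eq, sq, ← h2]
      rfl
    simp only [h1]
    rw [Finset.sum_const, Finset.card_univ, nsmul_eq_mul, ← Fintype.card_congr (cj d).toEquiv,
      hcard]
  rw [htr]
  gcongr
  apply Real.le_sqrt_of_sq_le
  have hcs := sq_sum_le_card_mul_sum_sq (s := (univ : Finset (Equiv.Perm (Fin (2 * 2 ^ d)))))
    (f := fun g => |p g - 1 / N|)
  refine hcs.trans (le_of_eq ?_)
  rw [Finset.card_univ, hcard]
  have h3 : ∀ g, |p g - 1 / N| ^ 2 = p g ^ 2 - 2 / N * p g + 1 / N ^ 2 := by
    intro g; rw [sq_abs]; ring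
  simp only [h3]
  rw [Finset.sum_add_distrib, Finset.sum_sub_distrib, ← Finset.mul_sum, hp, sum_law,
    Finset.sum_const, Finset.card_univ, nsmul_eq_mul, hcard]
  field_simp
  ring

end Crest.Agent.R155
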